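import Claimed.Agent.R286.Brg.ChTr
import Claimed.Agent.R286.Fd.TrB2
import Claimed.Agent.R286.Fd.TrB3

/-!
# Row 286 (S0533), Brg/Pos : proof of EXIT `ClkC4`      (owner helper262; prefix `gh_c4_`; sorry free)

Finite hierarchies: the tree law on spin tests is a positive normalised LINEAR functional (`gh_c4_add`, `gh_c4_lin`, `gh_c4_sum`);
two labels which share `j` revelations: `ν[φ(σ⁰) φ(σ¹)] = E (E[φ | first j revelations])²` (`gh_c4_two`) is nondecreasing in `j` (`gh_c4_M2_mono`).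
-/

set_option autoImplicit false
set_option linter.unusedSectionVars false

namespace Claimed.Agent.R286

open MeasureTheory Filter

section
variable {S ι : Type} [Fintype S] [Fintype ι]

theorem gh_c4_integrable (B : GhB S) (hB : B.Ok) (l : GhLv S ι) (ls : List (GhLv S ι)) (h : GhNn (l :: ls)) {q : ℕ}
    (r : Fin q → Fin q) (rep : ℕ → Fin q → Fin q) (G : Fin q → S → ℝ) (P : (Fin q → S) → ℝ) :
    Integrable (fun W : Fin q → ι → ℝ => ghDT B l ls r G W *
      ghNu B ls rep (fun a => G a + l.inc (W (r a))) fun _ σ => P σ) (Measure.pi fun _ : Fin q => ghStd ι) := by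
  obtain ⟨K, hK⟩ : ∃ K : ℝ, ∀ σ, |P σ| ≤ K := ⟨∑ σ, |P σ|, fun σ =>
    Finset.single_le_sum (f := fun σ => |P σ|) (fun _ _ => abs_nonneg _) (Finset.mem_univ σ)⟩
  refine (gh_n_DT_integrable B hB l ls h r G).mul_bdd (c := K) ?_ (Eventually.of_forall fun W => ?_)
  · refine Measurable.aestronglyMeasurable ?_
    refine (tr_e_nu_meas B P ls rep).comp (measurable_pi_lambda _ fun a => ?_)
    exact measurable_const.add ((gh_l_inc_meas l).comp (measurable_pi_apply (r a)))
  · rw [Real.norm_eq_abs]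
    exact gh_n_abs_le B hB K ls h.tail _ _ _ fun _ σ => hK σ

/-- additivity on spin tests -/
theorem gh_c4_add (B : GhB S) (hB : B.Ok) : ∀ (ls : List (GhLv S ι)), GhNn ls → ∀ {q : ℕ} (rep : ℕ → Fin q → Fin q)
    (G : Fin q → S → ℝ) (P P' : (Fin q → S) → ℝ),
    ghNu B ls rep G (fun _ σ => P σ + P' σ) = ghNu B ls rep G (fun _ σ => P σ) + ghNu B ls rep G fun _ σ => P' σ
  | [], _, q, rep, G, P, P' => by
      simp only [ghNu]
      rw [← Finset.sum_add_distrib]
      exact Finset.sum_congr rfl fun σ _ => by ring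
  | l :: ls, h, q, rep, G, P, P' => by
      simp only [ghNu]
      simp_rw [gh_c4_add B hB ls h.tail]
      rw [← integral_add (gh_c4_integrable B hB l ls h _ _ G P) (gh_c4_integrable B hB l ls h _ _ G P')]
      exact integral_congr_ae (Eventually.of_forall fun W => by simp only; ring)

theorem gh_c4_lin (B : GhB S) (hB : B.Ok) (ls : List (GhLv S ι)) (h : GhNn ls) {q : ℕ} (rep : ℕ → Fin q → Fin q)
    (G : Fin q → S → ℝ) (P P' : (Fin q → S) → ℝ) (c : ℝ) :
    ghNu B ls rep G (fun _ σ => P σ + c * P' σ)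
      = ghNu B ls rep G (fun _ σ => P σ) + c * ghNu B ls rep G fun _ σ => P' σ := by
  rw [gh_c4_add B hB ls h rep G P fun σ => c * P' σ, gh_n_smul B c ls rep G fun _ σ => P' σ]

theorem gh_c4_sum (B : GhB S) (hB : B.Ok) (ls : List (GhLv S ι)) (h : GhNn ls) {q : ℕ} (rep : ℕ → Fin q → Fin q)
    (G : Fin q → S → ℝ) {κ : Type} (t : Finset κ) (P : κ → (Fin q → S) → ℝ) :
    ghNu B ls rep G (fun _ σ => ∑ k ∈ t, P k σ) = ∑ k ∈ t, ghNu B ls rep G fun _ σ => P k σ := by
  classical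
  induction t using Finset.induction_on with
  | empty => simpa using gh_n_const B hB 0 ls h rep G
  | insert k t hk ih =>
    simp only [Finset.sum_insert hk]
    rw [gh_c4_add B hB ls h rep G (P k) fun σ => ∑ k ∈ t, P k σ, ih]

/-! ### two labels -/

/-- `E (E[φ | first j revelations])²` as a function of the root field -/
noncomputable def ghM2 (B : GhB S) (φ : S → ℝ) : ℕ → List (GhLv S ι) → (S → ℝ) → ℝ
  | 0, ls, z => ghE B ls φ z ^ 2
  | _ + 1, [], _ => 0
  | j + 1, l :: ls, z => ghA B l ls (ghM2 B φ j ls) z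

theorem gh_c4_eqns_cite : True := by
  have := @ghM2.eq_1
  have := @ghM2.eq_2
  have := @ghM2.eq_3
  have := @ghM2.eq_def
  have := @ghM2.induct
  trivial

theorem gh_c4_M2_bc {B : GhB S} (hB : B.Ok) (φ : S → ℝ) : ∀ (j : ℕ) {ls : List (GhLv S ι)}, GhNn ls →
    GhBC (ghM2 B φ j ls) (‖φ‖ * ‖φ‖)
  | 0, ls, h => by
      have := (gh_b_E_bc' hB φ h).mul (gh_b_E_bc' hB φ h)
      have e : ghM2 B φ 0 ls = fun z => ghE B ls φ z * ghE B ls φ z := by
        funext z; simp only [ghM2]; ring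
      rw [e]; exact this
  | j + 1, [], _ => by
      have e : ghM2 (ι := ι) B φ (j + 1) [] = fun _ => 0 := by funext z; simp only [ghM2]
      rw [e]
      exact (gh_b_bc_const 0).mono (by simpa using mul_nonneg (norm_nonneg φ) (norm_nonneg φ))
  | j + 1, l :: ls, h => by
      have e : ghM2 B φ (j + 1) (l :: ls) = ghA B l ls (ghM2 B φ j ls) := by funext z; simp only [ghM2]
      rw [e]
      exact gh_b_A_bc hB h (gh_c4_M2_bc hB φ j h.tail)

/-- Jensen through one level -/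
theorem gh_c4_jensen {B : GhB S} (hB : B.Ok) {l : GhLv S ι} {ls : List (GhLv S ι)} (h : GhNn (l :: ls))
    {g : (S → ℝ) → ℝ} {M : ℝ} (hg : GhBC g M) (z : S → ℝ) :
    ghA B l ls g z ^ 2 ≤ ghA B l ls (fun y => g y ^ 2) z := by
  set m := ghA B l ls g z with hm
  have h0 : 0 ≤ ghA B l ls (fun y => (g y - m) ^ 2) z := gh_b_A_nonneg hB h (fun y => sq_nonneg _) z
  have e : (fun y => (g y - m) ^ 2) = fun y => (g y * g y - (2 * m) * g y) + m ^ 2 := by
    funext y; ring
  rw [e, gh_b_A_add hB h ((hg.mul hg).sub (hg.const_mul (2 * m))) (gh_b_bc_const _),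
    gh_b_A_sub hB h (hg.mul hg) (hg.const_mul (2 * m)), gh_b_A_const_mul, gh_b_A_const hB h, ← hm] at h0
  have e2 : (fun y => g y ^ 2) = fun y => g y * g y := by funext y; ring
  rw [e2]
  nlinarith

theorem gh_c4_M2_mono {B : GhB S} (hB : B.Ok) (φ : S → ℝ) : ∀ (j : ℕ) {ls : List (GhLv S ι)}, GhNn ls →
    j + 1 ≤ ls.length → ∀ z, ghM2 B φ j ls z ≤ ghM2 B φ (j + 1) ls z
  | _, [], _, hj, _ => by simp at hj
  | 0, l :: ls, h, _, z => by
      simp only [ghM2]
      rw [gh_b_E_cons]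
      exact gh_c4_jensen hB h (gh_b_E_bc' hB φ h.tail) z
  | j + 1, l :: ls, h, hj, z => by
      simp only [ghM2]
      exact gh_b_A_mono hB h (gh_c4_M2_bc hB φ j h.tail) (gh_c4_M2_bc hB φ (j + 1) h.tail)
        (fun y => gh_c4_M2_mono hB φ j h.tail (by simpa using hj) y) z

theorem gh_c4_M2_mono' {B : GhB S} (hB : B.Ok) (φ : S → ℝ) {ls : List (GhLv S ι)} (h : GhNn ls) {j j' : ℕ}
    (hjj : j ≤ j') (hj' : j' ≤ ls.length) (z : S → ℝ) : ghM2 B φ j ls z ≤ ghM2 B φ j' ls z := by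
  induction j', hjj using Nat.le_induction with
  | base => exact le_rfl
  | succ k hk ih => exact (ih (by omega)).trans (gh_c4_M2_mono hB φ k h hj' z)

end

/-- the table of two labels which share `j` stages -/
def trT2 (d j : ℕ) : ℕ → ℕ → ℕ := fun x y => if x = y then d else j

theorem gh_c4_T2_isTr {N j : ℕ} (hj : j ≤ N + 1) (q : ℕ) : IsTr N q (trT2 (N + 1) j) where
  le := fun x y _ _ => by unfold trT2; split_ifs <;> omega
  diag := fun x _ => by simp [trT2]
  symm := fun x y _ _ => by simp [trT2, eq_comm]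
  ultra := fun x y z _ _ _ => by
    unfold trT2
    by_cases hxz : x = z
    · subst hxz
      simp only [if_true]
      split_ifs <;> omega
    · by_cases hxy : x = y
      · subst hxy; simp [hxz]
      · simp [hxy, hxz]

section
variable {S ι : Type} [Fintype S] [Fintype ι] [Inhabited S]

theorem gh_c4_two {B : GhB S} (hB : B.Ok) (φ : S → ℝ) : ∀ (j : ℕ) (ls : List (GhLv S ι)), GhNn ls → j ≤ ls.length →
    ∀ z, trNu B ls 2 (trT2 (ls.length + 1) j) z (fun σ => φ (σ 0) * φ (σ 1)) = ghM2 B φ j ls z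
  | 0, ls, h, _, z => by
      have hτ : IsTr ls.length 2 (trT2 (ls.length + 1) 0) := gh_c4_T2_isTr (Nat.zero_le _) 2
      have hr1 : GhRepOk (fun (_ : ℕ) (a : Fin 1) => a) := ⟨fun _ _ => rfl, fun _ _ _ h => h⟩
      have key := gh_n_indep B hB ls h (fun _ : Fin 1 => (0 : Fin 2)) (fun _ : Fin 1 => (1 : Fin 2))
        (fun t => trRep 2 (trT2 (ls.length + 1) 0) t) (fun _ a => a) (fun _ a => a) (tb2_repOk hτ) hr1 hr1
        (fun t a b => by simp [Subsingleton.elim a b]) (fun t a b => by simp [Subsingleton.elim a b])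
        (fun a b hab => by
          rw [tb2_rep_iff hτ] at hab
          rcases hab with hab | hab
          · exact absurd hab (by decide)
          · simp [trT2] at hab)
        (fun _ => z) (fun _ _ _ => rfl) (fun _ σ => φ (σ 0)) (fun _ σ => φ (σ 0))
      rw [gh_n_one_spin] at key
      simp only [ghM2]
      rw [sq, ← key]
      unfold trNu
      congr 1
  | j + 1, [], _, hj, _ => by simp at hj
  | j + 1, l :: ls, h, hj, z => by
      rw [tr_b3_step hB h z _ (fun x y _ _ => by unfold trT2; split_ifs <;> omega)]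
      simp only [ghM2]
      show _ = ∫ ξ, ghD B l ls z ξ * ghM2 B φ j ls (z + l.inc ξ) ∂ghStd ι
      refine integral_congr_ae (Eventually.of_forall fun ξ => ?_)
      simp only
      have e : (fun x y => trT2 ((l :: ls).length + 1) (j + 1) x y - 1) = trT2 (ls.length + 1) j := by
        funext x y
        unfold trT2
        split_ifs <;> simp
      rw [e, gh_c4_two hB φ j ls h.tail (by simpa using hj)]

end

theorem gh_c4_disc_star (ps : List GhPos) (p : GhPos) :
    ghDisc ps (ghR2 p) = trT2 (ps.length + 1) (ghIdx ps (p : WithTop GhPos)) := by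
  funext x y
  unfold ghDisc ghR2 trT2
  split_ifs
  · exact gh_ct_idx_top ps
  · rfl

/-- EXIT `ClkC4` -/
theorem gh_c4_main {S ι : Type} [Fintype S] [Fintype ι] {B : GhB S} (hB : B.Ok) (Φ : S → ι → ℝ) {v : ι → ℝ → ℝ}
    (_hv : GhClk B.a v) {ps : List GhPos} (hps : GhChOk B.a ps) (z : S → ℝ) :
    (∀ (q : ℕ) (τ : ℕ → ℕ → WithTop GhPos) (P : (Fin q → S) → ℝ), (∀ σ, 0 ≤ P σ) → 0 ≤ ghCNuF B Φ v z q τ P ps) ∧
    (∀ (q : ℕ) (τ : ℕ → ℕ → WithTop GhPos) (c : ℝ), ghCNuF B Φ v z q τ (fun _ => c) ps = c) ∧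
    (∀ (q : ℕ) (τ : ℕ → ℕ → WithTop GhPos) (P P' : (Fin q → S) → ℝ) (c : ℝ),
      ghCNuF B Φ v z q τ (fun σ => P σ + c * P' σ) ps = ghCNuF B Φ v z q τ P ps + c * ghCNuF B Φ v z q τ P' ps) ∧
    ∀ {κ : Type} [Fintype κ] (φ : κ → S → ℝ) (p p' : GhPos), p ≤ p' →
      ghCNuF B Φ v z 2 (ghR2 p) (fun σ => ∑ k, φ k (σ 0) * φ k (σ 1)) ps
        ≤ ghCNuF B Φ v z 2 (ghR2 p') (fun σ => ∑ k, φ k (σ 0) * φ k (σ 1)) ps := by
  have hnn : GhNn (ghChain Φ B.a v 0 ps) := by rw [gh_ct_chain]; exact gh_ct_nn Φ _ _ hps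
  have hlen : (ghChain Φ B.a v 0 ps).length = ps.length := by rw [gh_ct_chain]; exact gh_ct_len Φ _ _ _
  refine ⟨fun q τ P hP => gh_n_nonneg B hB _ _ _ _ fun _ σ => hP σ, fun q τ c => gh_n_const B hB c _ hnn _ _,
    fun q τ P P' c => gh_c4_lin B hB _ hnn _ _ P P' c, ?_⟩
  intro κ _ φ p p' hpp
  have : Inhabited S := Classical.inhabited_of_nonempty (gh_ct_nonempty hB)
  have key : ∀ r : GhPos, ghCNuF B Φ v z 2 (ghR2 r) (fun σ => ∑ k, φ k (σ 0) * φ k (σ 1)) ps
      = ∑ k, ghM2 B (φ k) (ghIdx ps (r : WithTop GhPos)) (ghChain Φ B.a v 0 ps) z := by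
    intro r
    unfold ghCNuF
    rw [gh_c4_sum B hB _ hnn]
    refine Finset.sum_congr rfl fun k _ => ?_
    rw [gh_ct_nu B _ 2 _ (fun x _ => by rw [gh_c4_disc_star, hlen]; simp [trT2]) z fun σ => φ k (σ 0) * φ k (σ 1),
      gh_c4_disc_star, ← hlen]
    exact gh_c4_two hB (φ k) _ _ hnn (by rw [hlen]; exact gh_ct_idx_coe_le ps r) z
  rw [key, key]
  refine Finset.sum_le_sum fun k _ => ?_
  exact gh_c4_M2_mono' hB (φ k) hnn (gh_ct_idx_mono ps (WithTop.coe_le_coe.2 hpp))
    (by rw [hlen]; exact gh_ct_idx_coe_le ps p') z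

end Claimed.Agent.R286
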