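import Claimed.Agent.R286.Fd.NuApiC
import Claimed.Agent.R286.Brg.Pos
import Claimed.Agent.R286.Lib.GhMart
import Claimed.Agent.R286.Fd.ObsTw
import Claimed.Agent.R286.Fd.ObsU
import Claimed.Agent.R286.Defs.Clk

/-!
# Row 286 (S0533), Brg/Cat : THE CATERPILLAR IDENTITY for the raw tree numbers `ghNu`      (owner helper148; prefix `gh_cat_`; sorry free)

TEX[PE:359] (conditional means = additional replicas), iterated.      A CATERPILLAR = a tree all of whose labels leave ONE spine: the label `a` follows the spine through the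
revelations `0 .. d a - 1`, then continues independently.   Its table is `sh a b = min (d a) (d b)` (`a ≠ b`).      Stars (`d` constant) and combs (`d` with two values) are caterpillars.

* `ghCatRep q d`     representatives of the caterpillar with the spine as the label `0` and the real labels `1 .. q`
* `gh_cat_peel`      all the real labels are integrated out, one at a time (`gh_n_att`)
* **`gh_cat_main`**  `ν[∏_a φ_a(σ_a)] = E ∏_a E[φ_a | first d a revelations]`      for the table `ghRepN q sh`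
* `gh_cat_path_sum`  the planted path expectation is additive on bounded measurable tests of the drivers
* **`gh_cat_lin`**   the same for finite linear combinations of product tests
* `gh_cat_star`, `gh_cat_comb`      SK: `E|X_j|^{2l}`, `E|X_j' - X_j|⁴` are tree numbers (= `cmk_star_id`, `cmk_comb_id` of `Cmp/InstNum.lean`)
-/

set_option autoImplicit false
set_option linter.unusedSectionVars false

namespace Claimed.Agent.R286

open MeasureTheory ProbabilityTheory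

section generic
variable {S ι : Type} [Fintype S] [Fintype ι]

/-- representatives of the caterpillar: the label `0` is the spine, the label `a + 1` follows it through the revelations `0 .. d a - 1` -/
def ghCatRep : (q : ℕ) → (ℕ → ℕ) → ℕ → Fin (q + 1) → Fin (q + 1)
  | 0, _ => fun _ a => a
  | q + 1, d => ghRepAtt (ghCatRep q d) (d q) 0

theorem gh_cat_eqns_cite : True := by
  have := @ghCatRep.eq_1
  have := @ghCatRep.eq_2
  have := @ghCatRep.eq_def
  have := @ghCatRep.induct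
  trivial

theorem gh_cat_rep_ok : ∀ (q : ℕ) (d : ℕ → ℕ), GhRepOk (ghCatRep q d)
  | 0, _ => ⟨fun _ _ => rfl, fun _ _ _ h => h⟩
  | q + 1, d => gh_n_repAtt_ok (gh_cat_rep_ok q d) (d q) 0

/-- explicit form of the representatives -/
theorem gh_cat_rep_eq : ∀ (q : ℕ) (d : ℕ → ℕ) (t : ℕ) (x : Fin (q + 1)),
    ghCatRep q d t x = if x = 0 ∨ t < d (x.1 - 1) then 0 else x
  | 0, d, t, x => by
      have : x = 0 := Subsingleton.elim (α := Fin 1) x 0
      simp [ghCatRep, this]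
  | q + 1, d, t, x => by
      have ih := gh_cat_rep_eq q d t
      simp only [ghCatRep]
      induction x using Fin.lastCases with
      | last =>
        rw [ghRepAtt_last, ih 0]
        have h0 : Fin.last (q + 1) ≠ 0 := (Fin.last_pos).ne'
        simp [h0]
      | cast b =>
        rw [ghRepAtt_cast, ih b]
        have h0 : b.castSucc = 0 ↔ b = 0 := Fin.castSucc_eq_zero_iff
        simp only [h0, Fin.val_castSucc]
        split_ifs
        · rfl
        · rfl

theorem gh_cat_rep_succ (q : ℕ) (d : ℕ → ℕ) (t : ℕ) (a : Fin q) :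
    ghCatRep q d t a.succ = if t < d a.1 then 0 else a.succ := by
  rw [gh_cat_rep_eq]
  simp [Fin.succ_ne_zero]

theorem gh_cat_snoc_const {α : Type} {q : ℕ} (z : α) : ghSnoc (fun _ : Fin q => z) z = fun _ => z := by
  funext x
  induction x using Fin.lastCases with
  | last => simp
  | cast b => simp

/-- all the real labels are integrated out -/
theorem gh_cat_peel (B : GhB S) (hB : B.Ok) (ls : List (GhLv S ι)) (hls : GhNn ls) (z : S → ℝ) (d : ℕ → ℕ) (φ : ℕ → S → ℝ) :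
    ∀ (q : ℕ), (∀ a, a < q → d a ≤ ls.length) → ∀ (T : (ℕ → ι → ℝ) → ℝ),
    ghNu B ls (ghCatRep q d) (fun _ => z) (fun η σ => T (fun t => η t 0) * ∏ a : Fin q, φ a.1 (σ a.succ))
      = ghPath B ls z (fun ξ _ => T ξ * ∏ a : Fin q, ghE B (ls.drop (d a.1)) (φ a.1) (z + ghPre ls ξ (d a.1)))
  | 0, _, T => by
      rw [gh_n_one]
      simp
  | q + 1, hd, T => by
      have ih := gh_cat_peel B hB ls hls z d φ q (fun a ha => hd a (by omega))
        (fun ξ => T ξ * ghE B (ls.drop (d q)) (φ q) (z + ghPre ls ξ (d q)))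
      have h := gh_n_att B hB (φ q) ls hls (d q) (hd q (by omega)) (ghCatRep q d) (gh_cat_rep_ok q d) 0 (fun _ => z)
        (fun _ _ _ => rfl) (fun η σ => T (fun t => η t 0) * ∏ a : Fin q, φ a.1 (σ a.succ))
      rw [gh_cat_snoc_const] at h
      have e1 : (fun (η : ℕ → Fin (q + 1 + 1) → ι → ℝ) (σ : Fin (q + 1 + 1) → S) =>
            T (fun t => η t 0) * ∏ a : Fin (q + 1), φ a.1 (σ a.succ))
          = fun η σ => (T (fun t => η t (0 : Fin (q + 1)).castSucc) * ∏ a : Fin q, φ a.1 (σ a.succ.castSucc))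
              * φ q (σ (Fin.last (q + 1))) := by
        funext η σ
        rw [Fin.prod_univ_castSucc]
        simp only [Fin.val_castSucc, Fin.val_last, Fin.succ_last, Fin.succ_castSucc, Fin.castSucc_zero, mul_assoc]
      have e2 : (fun (η : ℕ → Fin (q + 1) → ι → ℝ) (σ : Fin (q + 1) → S) =>
            T (fun t => η t 0) * (∏ a : Fin q, φ a.1 (σ a.succ)) * ghE B (ls.drop (d q)) (φ q) (z + ghPre ls (fun j => η j 0) (d q)))
          = fun η σ => (T (fun t => η t 0) * ghE B (ls.drop (d q)) (φ q) (z + ghPre ls (fun j => η j 0) (d q)))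
              * ∏ a : Fin q, φ a.1 (σ a.succ) := by
        funext η σ; ring
      have e3 : (fun (ξ : ℕ → ι → ℝ) (_ : S) => T ξ * ∏ a : Fin (q + 1), ghE B (ls.drop (d a.1)) (φ a.1) (z + ghPre ls ξ (d a.1)))
          = fun ξ _ => T ξ * ghE B (ls.drop (d q)) (φ q) (z + ghPre ls ξ (d q))
              * ∏ a : Fin q, ghE B (ls.drop (d a.1)) (φ a.1) (z + ghPre ls ξ (d a.1)) := by
        funext ξ _
        rw [Fin.prod_univ_castSucc]
        simp only [Fin.val_castSucc, Fin.val_last]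
        ring
      rw [e1, e3, ← ih, ← e2]
      exact h

/-- the classes of the table of a caterpillar -/
theorem gh_cat_repN_iff {q : ℕ} (d : ℕ → ℕ) (sh : ℕ → ℕ → ℕ)
    (hsh : ∀ x y, x < q → y < q → x ≠ y → sh x y = min (d x) (d y)) :
    GhRepOk (ghRepN q sh) ∧ ∀ t (a b : Fin q), ghRepN q sh t a = ghRepN q sh t b ↔ (b = a ∨ t < min (d a.1) (d b.1)) := by
  let T : GhTree q := ⟨fun a b => min (d a.1) (d b.1), fun a b => min_comm _ _, fun a b c _ => by
    simp only [le_min_iff, min_le_iff]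
    omega⟩
  have hT : ghRepN q sh = T.rep := by
    funext t a
    unfold ghRepN GhTree.rep
    congr 1
    ext b
    simp only [Finset.mem_filter, Finset.mem_univ, true_and]
    by_cases hb : b = a
    · simp [hb]
    · have : a.1 ≠ b.1 := fun h => hb (Fin.ext h.symm)
      rw [hsh a.1 b.1 a.2 b.2 this]
  rw [hT]
  exact ⟨gh_n_rep_ok T, fun t a b => gh_n_rep_iff T t a b⟩

/-- **THE CATERPILLAR IDENTITY** (labels and depths indexed by `ℕ`) -/
theorem gh_cat_main (B : GhB S) (hB : B.Ok) (ls : List (GhLv S ι)) (hls : GhNn ls) (z : S → ℝ) (q : ℕ) (d : ℕ → ℕ)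
    (hd : ∀ a, a < q → d a ≤ ls.length) (sh : ℕ → ℕ → ℕ) (hsh : ∀ x y, x < q → y < q → x ≠ y → sh x y = min (d x) (d y))
    (φ : ℕ → S → ℝ) :
    ghNu B ls (ghRepN q sh) (fun _ => z) (fun _ σ => ∏ a : Fin q, φ a.1 (σ a))
      = ghPath B ls z (fun ξ _ => ∏ a : Fin q, ghE B (ls.drop (d a.1)) (φ a.1) (z + ghPre ls ξ (d a.1))) := by
  obtain ⟨hok, hiff⟩ := gh_cat_repN_iff (q := q) d sh hsh
  have h1 := gh_n_inv_le B hB ls hls (Fin.succ : Fin q → Fin (q + 1)) (ghCatRep q d) (ghRepN q sh) (gh_cat_rep_ok q d) hok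
    (fun t _ a b => by
      rw [hiff, gh_cat_rep_succ, gh_cat_rep_succ]
      by_cases hab : b = a
      · simp [hab]
      · have hab' : a.succ ≠ b.succ := fun h => hab (Fin.succ_injective _ h).symm
        by_cases h1 : t < d a.1 <;> by_cases h2 : t < d b.1 <;>
          simp [hab, hab', h1, h2, Fin.succ_ne_zero, (Fin.succ_ne_zero _).symm])
    (fun _ => z) (fun _ _ _ => rfl) (fun _ σ => ∏ a : Fin q, φ a.1 (σ a))
  have h2 := gh_cat_peel B hB ls hls z d φ q hd (fun _ => 1)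
  simp only [one_mul] at h2
  rw [← h1, h2]

/-! ### additivity of the planted path expectation -/

theorem gh_cat_path_sum (B : GhB S) (hB : B.Ok) (ls : List (GhLv S ι)) (hls : GhNn ls) (z : S → ℝ) {κ : Type} (t : Finset κ)
    (T : κ → (ℕ → ι → ℝ) → ℝ) (hm : ∀ k, Measurable (T k)) (hb : ∀ k, ∃ C, ∀ ξ, |T k ξ| ≤ C) :
    ghPath B ls z (fun ξ _ => ∑ k ∈ t, T k ξ) = ∑ k ∈ t, ghPath B ls z (fun ξ _ => T k ξ) := by
  classical
  let _ : MeasurableSpace S := ⊤
  have : MeasurableSingletonClass S := ⟨fun _ => trivial⟩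
  have hN := ghm_norm_of_nn hB hls
  choose C hC using hb
  have h1 : ∀ k, ghPath B ls z (fun ξ _ => T k ξ) = ∫ ω : GhmΩ S ι, T k ω.1 ∂(ghmK B ls z) := fun k =>
    (ghm_integral_bdd B hB ls hN z (fun ω => T k ω.1) ((hm k).comp measurable_fst) (C k) (fun ω => hC k ω.1)).symm
  have h2 : ghPath B ls z (fun ξ _ => ∑ k ∈ t, T k ξ) = ∫ ω : GhmΩ S ι, ∑ k ∈ t, T k ω.1 ∂(ghmK B ls z) :=
    (ghm_integral_bdd B hB ls hN z (fun ω => ∑ k ∈ t, T k ω.1)
      (Finset.measurable_sum _ fun k _ => (hm k).comp measurable_fst) (∑ k ∈ t, C k)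
      (fun ω => (Finset.abs_sum_le_sum_abs _ _).trans (Finset.sum_le_sum fun k _ => hC k ω.1))).symm
  rw [h2, integral_finsetSum _ fun k _ =>
    ghm_integrable_of_bdd B hB ls hN z (fun ω => T k ω.1) ((hm k).comp measurable_fst) (C k) (fun ω => hC k ω.1)]
  exact Finset.sum_congr rfl fun k _ => (h1 k).symm

theorem gh_cat_path_smul (B : GhB S) (c : ℝ) : ∀ (ls : List (GhLv S ι)) (z : S → ℝ) (P : (ℕ → ι → ℝ) → S → ℝ),
    ghPath B ls z (fun ξ s => c * P ξ s) = c * ghPath B ls z P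
  | [], z, P => by
      simp only [ghPath]
      rw [Finset.mul_sum]
      exact Finset.sum_congr rfl fun s _ => by ring
  | l :: ls, z, P => by
      simp only [ghPath]
      simp_rw [gh_cat_path_smul B c ls]
      rw [← integral_const_mul]
      exact integral_congr_ae (Filter.Eventually.of_forall fun W => by simp only; ring)

/-- the conditional mean at a cut is a bounded measurable function of the drivers -/
theorem gh_cat_E_meas (B : GhB S) (hB : B.Ok) (ls : List (GhLv S ι)) (hls : GhNn ls) (z : S → ℝ) (t : ℕ) (φ : S → ℝ) :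
    Measurable fun ξ : ℕ → ι → ℝ => ghE B (ls.drop t) φ (z + ghPre ls ξ t) :=
  (gh_b_E_continuous hB φ (ghm_nn_drop hls t)).measurable.comp (measurable_const.add (ghm_meas_pre ls t))

theorem gh_cat_prod_meas (B : GhB S) (hB : B.Ok) (ls : List (GhLv S ι)) (hls : GhNn ls) (z : S → ℝ) (q : ℕ) (d : ℕ → ℕ)
    (φ : ℕ → S → ℝ) :
    Measurable fun ξ : ℕ → ι → ℝ => ∏ a : Fin q, ghE B (ls.drop (d a.1)) (φ a.1) (z + ghPre ls ξ (d a.1)) :=
  Finset.measurable_prod _ fun a _ => gh_cat_E_meas B hB ls hls z (d a.1) (φ a.1)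

theorem gh_cat_prod_bdd (B : GhB S) (hB : B.Ok) (ls : List (GhLv S ι)) (hls : GhNn ls) (z : S → ℝ) (q : ℕ) (d : ℕ → ℕ)
    (φ : ℕ → S → ℝ) :
    ∃ C, ∀ ξ : ℕ → ι → ℝ, |∏ a : Fin q, ghE B (ls.drop (d a.1)) (φ a.1) (z + ghPre ls ξ (d a.1))| ≤ C := by
  refine ⟨∏ a : Fin q, ‖φ a.1‖, fun ξ => ?_⟩
  rw [Finset.abs_prod]
  exact Finset.prod_le_prod (fun _ _ => abs_nonneg _) fun a _ =>
    gh_b_E_abs_le hB (gh_b_abs_le_norm (φ a.1)) (ghm_nn_drop hls _) _

/-- **the caterpillar identity for finite linear combinations of product tests** -/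
theorem gh_cat_lin (B : GhB S) (hB : B.Ok) (ls : List (GhLv S ι)) (hls : GhNn ls) (z : S → ℝ) (q : ℕ) (d : ℕ → ℕ)
    (hd : ∀ a, a < q → d a ≤ ls.length) (sh : ℕ → ℕ → ℕ) (hsh : ∀ x y, x < q → y < q → x ≠ y → sh x y = min (d x) (d y))
    {κ : Type} (t : Finset κ) (c : κ → ℝ) (φ : κ → ℕ → S → ℝ) :
    ghNu B ls (ghRepN q sh) (fun _ => z) (fun _ σ => ∑ k ∈ t, c k * ∏ a : Fin q, φ k a.1 (σ a))
      = ghPath B ls z (fun ξ _ => ∑ k ∈ t, c k * ∏ a : Fin q, ghE B (ls.drop (d a.1)) (φ k a.1) (z + ghPre ls ξ (d a.1))) := by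
  rw [gh_c4_sum B hB ls hls, gh_cat_path_sum B hB ls hls z t
    (fun k ξ => c k * ∏ a : Fin q, ghE B (ls.drop (d a.1)) (φ k a.1) (z + ghPre ls ξ (d a.1)))
    (fun k => measurable_const.mul (gh_cat_prod_meas B hB ls hls z q d (φ k)))
    (fun k => by
      obtain ⟨C, hC⟩ := gh_cat_prod_bdd B hB ls hls z q d (φ k)
      exact ⟨|c k| * C, fun ξ => by rw [abs_mul]; exact mul_le_mul_of_nonneg_left (hC ξ) (abs_nonneg _)⟩)]
  refine Finset.sum_congr rfl fun k _ => ?_
  rw [gh_n_smul B (c k) ls, gh_cat_path_smul B (c k) ls, gh_cat_main B hB ls hls z q d hd sh hsh (φ k)]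

end generic

/-! ### products over `Fin (2 l)` by pairs -/

theorem gh_cat_range_pair (f : ℕ → ℝ) : ∀ l : ℕ, ∏ x ∈ Finset.range (2 * l), f x = ∏ i ∈ Finset.range l, f (2 * i) * f (2 * i + 1)
  | 0 => by simp
  | l + 1 => by
      rw [Finset.prod_range_succ, ← gh_cat_range_pair f l, show 2 * (l + 1) = 2 * l + 1 + 1 by ring, Finset.prod_range_succ,
        Finset.prod_range_succ, mul_assoc]

theorem gh_cat_fin_pair (l : ℕ) (f : Fin (2 * l) → ℝ) :
    ∏ a, f a = ∏ i : Fin l, f ⟨2 * i.1, by have := i.2; omega⟩ * f ⟨2 * i.1 + 1, by have := i.2; omega⟩ := by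
  set g : ℕ → ℝ := fun x => if h : x < 2 * l then f ⟨x, h⟩ else 1 with hg
  have h1 : ∀ a : Fin (2 * l), f a = g a.1 := fun a => by simp [hg, a.2]
  simp only [h1]
  rw [Fin.prod_univ_eq_prod_range g (2 * l)]
  exact (gh_cat_range_pair g l).trans (Fin.prod_univ_eq_prod_range (fun i => g (2 * i) * g (2 * i + 1)) l).symm

section sk
variable {n : ℕ}

/-- `X` at a cut, on the vocabulary of `Defs/Gh` -/
theorem gh_cat_Xp (n : ℕ) (a : ℝ) (P : SkStp) (z₀ : SkCfg n → ℝ) (j : ℕ) (ξ : ℕ → SkDr n → ℝ) (k : Fin n) :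
    ghE (skBase n a) ((skLvs n P).drop j) (obY k) (z₀ + ghPre (skLvs n P) ξ j) = obXp n a P z₀ j ξ k := by
  simp only [obXp, obX, obFld, obt_lvs_drop]

/-- the test functions of the star: the labels `2 i`, `2 i + 1` carry the coordinate `κ i` -/
noncomputable def ghCatPhi {l : ℕ} (κ : Fin l → Fin n) (x : ℕ) : SkCfg n → ℝ :=
  if h : x / 2 < l then obY (κ ⟨x / 2, h⟩) else fun _ => 1

theorem gh_cat_phi_eqns_cite : True := by
  have := @ghCatPhi.eq_1
  trivial

theorem gh_cat_phi_even {l : ℕ} (κ : Fin l → Fin n) (i : Fin l) : ghCatPhi κ (2 * i.1) = obY (κ i) := by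
  have h : 2 * i.1 / 2 = i.1 := by omega
  unfold ghCatPhi
  rw [dif_pos (by rw [h]; exact i.2)]
  congr 2
  exact Fin.ext h

theorem gh_cat_phi_odd {l : ℕ} (κ : Fin l → Fin n) (i : Fin l) : ghCatPhi κ (2 * i.1 + 1) = obY (κ i) := by
  have h : (2 * i.1 + 1) / 2 = i.1 := by omega
  unfold ghCatPhi
  rw [dif_pos (by rw [h]; exact i.2)]
  congr 2
  exact Fin.ext h

/-- **the star**: `E|X_j|^{2l}` = the tree number of the star with `2l` labels which share exactly the first `j` revelations -/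
theorem gh_cat_star (n : ℕ) (hn : 0 < n) {a : ℝ} (ha : 0 < a) (P : SkStp) (hP : SkAdm a P) (z₀ : SkCfg n → ℝ) (l j : ℕ)
    (hj : j ≤ P.length) (sh : ℕ → ℕ → ℕ) (hsh : ∀ x y, x ≠ y → sh x y = j) :
    ghNu (skBase n a) (skLvs n P) (ghRepN (2 * l) sh) (fun _ => z₀) (fun _ σ =>
        ∏ i : Fin l, skOv (σ ⟨2 * i.1, by have := i.2; omega⟩) (σ ⟨2 * i.1 + 1, by have := i.2; omega⟩))
      = obE n a P z₀ fun ξ _ => (∑ k, obXp n a P z₀ j ξ k ^ 2) ^ l := by
  have key := gh_cat_lin (skBase n a) (obt_base_ok n ha) (skLvs n P) (obu_lvs_nn n hP) z₀ (2 * l) (fun _ => j)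
    (fun _ _ => by simpa [skLvs] using hj) sh (fun x y _ _ hxy => by simp [hsh x y hxy])
    (Finset.univ : Finset (Fin l → Fin n)) (fun _ => 1) (fun κ => ghCatPhi κ)
  have e1 : (fun (_ : ℕ → Fin (2 * l) → SkDr n → ℝ) (σ : Fin (2 * l) → SkCfg n) =>
        ∏ i : Fin l, skOv (σ ⟨2 * i.1, by have := i.2; omega⟩) (σ ⟨2 * i.1 + 1, by have := i.2; omega⟩))
      = fun _ σ => ∑ κ : Fin l → Fin n, 1 * ∏ x : Fin (2 * l), ghCatPhi κ x.1 (σ x) := by
    funext _ σ
    simp_rw [obt_ov hn, one_mul, gh_cat_fin_pair l, gh_cat_phi_even, gh_cat_phi_odd]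
    rw [Finset.prod_univ_sum, Fintype.piFinset_univ]
  have e2 : (fun (ξ : ℕ → SkDr n → ℝ) (_ : SkCfg n) => (∑ k, obXp n a P z₀ j ξ k ^ 2) ^ l)
      = fun ξ _ => ∑ κ : Fin l → Fin n, 1 * ∏ x : Fin (2 * l),
          ghE (skBase n a) ((skLvs n P).drop j) (ghCatPhi κ x.1) (z₀ + ghPre (skLvs n P) ξ j) := by
    funext ξ _
    simp_rw [one_mul, gh_cat_fin_pair l, gh_cat_phi_even, gh_cat_phi_odd, gh_cat_Xp]
    have := Finset.prod_univ_sum (fun _ : Fin l => (Finset.univ : Finset (Fin n)))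
      (fun _ k => obXp n a P z₀ j ξ k * obXp n a P z₀ j ξ k)
    rw [Fintype.piFinset_univ] at this
    rw [← this, Finset.prod_const, Finset.card_univ, Fintype.card_fin]
    simp only [pow_two]
  unfold obE
  rw [e1, e2]
  exact key

/-- the test functions of the comb: the slot `s < 4` is carried by the label `s` (`e s = false`) or by the label `s + 4` (`e s = true`); the other label of the slot is not read -/
noncomputable def ghCatPsi (k m : Fin n) (e0 e1 e2 e3 : Bool) : ℕ → SkCfg n → ℝ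
  | 0 => if e0 then fun _ => 1 else obY k
  | 1 => if e1 then fun _ => 1 else obY k
  | 2 => if e2 then fun _ => 1 else obY m
  | 3 => if e3 then fun _ => 1 else obY m
  | 4 => if e0 then obY k else fun _ => 1
  | 5 => if e1 then obY k else fun _ => 1
  | 6 => if e2 then obY m else fun _ => 1
  | 7 => if e3 then obY m else fun _ => 1
  | _ => fun _ => 1

/-- the sign of a choice -/
def ghCatSg (e : Bool) : ℝ := if e then -1 else 1

theorem gh_cat_psi_eqns_cite : True := by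
  have := @ghCatPsi.eq_1
  have := @ghCatPsi.eq_def
  have := @ghCatSg.eq_1
  trivial

theorem gh_cat_prod8 (F : Fin 8 → ℝ) : ∏ x, F x = F 0 * F 1 * F 2 * F 3 * F 4 * F 5 * F 6 * F 7 := Fin.prod_univ_eight F

section values
variable (k m : Fin n) (e0 e1 e2 e3 : Bool)

theorem gh_cat_psi0 : ghCatPsi k m e0 e1 e2 e3 ((0 : Fin 8) : ℕ) = if e0 then fun _ => 1 else obY k := rfl
theorem gh_cat_psi1 : ghCatPsi k m e0 e1 e2 e3 ((1 : Fin 8) : ℕ) = if e1 then fun _ => 1 else obY k := rfl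
theorem gh_cat_psi2 : ghCatPsi k m e0 e1 e2 e3 ((2 : Fin 8) : ℕ) = if e2 then fun _ => 1 else obY m := rfl
theorem gh_cat_psi3 : ghCatPsi k m e0 e1 e2 e3 ((3 : Fin 8) : ℕ) = if e3 then fun _ => 1 else obY m := rfl
theorem gh_cat_psi4 : ghCatPsi k m e0 e1 e2 e3 ((4 : Fin 8) : ℕ) = if e0 then obY k else fun _ => 1 := rfl
theorem gh_cat_psi5 : ghCatPsi k m e0 e1 e2 e3 ((5 : Fin 8) : ℕ) = if e1 then obY k else fun _ => 1 := rfl
theorem gh_cat_psi6 : ghCatPsi k m e0 e1 e2 e3 ((6 : Fin 8) : ℕ) = if e2 then obY m else fun _ => 1 := rfl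
theorem gh_cat_psi7 : ghCatPsi k m e0 e1 e2 e3 ((7 : Fin 8) : ℕ) = if e3 then obY m else fun _ => 1 := rfl

end values

/-- the depths of the labels of the comb -/
def ghCatDep (j j' : ℕ) (x : ℕ) : ℕ := if x < 4 then j' else j

theorem gh_cat_dep_eqns_cite : True := by
  have := @ghCatDep.eq_1
  trivial

theorem gh_cat_dep0 (j j' : ℕ) : ghCatDep j j' ((0 : Fin 8) : ℕ) = j' := rfl
theorem gh_cat_dep1 (j j' : ℕ) : ghCatDep j j' ((1 : Fin 8) : ℕ) = j' := rfl
theorem gh_cat_dep2 (j j' : ℕ) : ghCatDep j j' ((2 : Fin 8) : ℕ) = j' := rfl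
theorem gh_cat_dep3 (j j' : ℕ) : ghCatDep j j' ((3 : Fin 8) : ℕ) = j' := rfl
theorem gh_cat_dep4 (j j' : ℕ) : ghCatDep j j' ((4 : Fin 8) : ℕ) = j := rfl
theorem gh_cat_dep5 (j j' : ℕ) : ghCatDep j j' ((5 : Fin 8) : ℕ) = j := rfl
theorem gh_cat_dep6 (j j' : ℕ) : ghCatDep j j' ((6 : Fin 8) : ℕ) = j := rfl
theorem gh_cat_dep7 (j j' : ℕ) : ghCatDep j j' ((7 : Fin 8) : ℕ) = j := rfl

/-- **the comb**: `E|X_j' - X_j|⁴` = the tree number of the comb (`j ≤ j'`: the labels `0..3` share `j'` revelations, all other pairs share `j`) -/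
theorem gh_cat_comb (n : ℕ) (hn : 0 < n) {a : ℝ} (ha : 0 < a) (P : SkStp) (hP : SkAdm a P) (z₀ : SkCfg n → ℝ) (j j' : ℕ)
    (hjj : j ≤ j') (hj : j' ≤ P.length) (sh : ℕ → ℕ → ℕ) (hsh : ∀ x y, x ≠ y → sh x y = if x < 4 ∧ y < 4 then j' else j) :
    ghNu (skBase n a) (skLvs n P) (ghRepN 8 sh) (fun _ => z₀) (fun _ σ =>
        (skOv (σ 0) (σ 1) - skOv (σ 0) (σ 5) - skOv (σ 4) (σ 1) + skOv (σ 4) (σ 5))
          * (skOv (σ 2) (σ 3) - skOv (σ 2) (σ 7) - skOv (σ 6) (σ 3) + skOv (σ 6) (σ 7)))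
      = obE n a P z₀ fun ξ _ => (∑ k, (obXp n a P z₀ j' ξ k - obXp n a P z₀ j ξ k) ^ 2) ^ 2 := by
  have hB := obt_base_ok n ha
  have hls := obu_lvs_nn n hP
  have hlen : (skLvs n P).length = P.length := by simp [skLvs]
  have key := gh_cat_lin (skBase n a) hB (skLvs n P) hls z₀ 8 (ghCatDep j j')
    (fun x _ => by
      rw [hlen]
      unfold ghCatDep
      split_ifs
      · exact hj
      · exact hjj.trans hj) sh
    (fun x y _ _ hxy => by
      rw [hsh x y hxy]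
      unfold ghCatDep
      by_cases h1 : x < 4 <;> by_cases h2 : y < 4 <;> simp [h1, h2, hjj])
    (Finset.univ : Finset (Fin n × Fin n × Bool × Bool × Bool × Bool))
    (fun κ => ghCatSg κ.2.2.1 * ghCatSg κ.2.2.2.1 * ghCatSg κ.2.2.2.2.1 * ghCatSg κ.2.2.2.2.2)
    (fun κ => ghCatPsi κ.1 κ.2.1 κ.2.2.1 κ.2.2.2.1 κ.2.2.2.2.1 κ.2.2.2.2.2)
  have e1 : (fun (_ : ℕ → Fin 8 → SkDr n → ℝ) (σ : Fin 8 → SkCfg n) =>
        (skOv (σ 0) (σ 1) - skOv (σ 0) (σ 5) - skOv (σ 4) (σ 1) + skOv (σ 4) (σ 5))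
          * (skOv (σ 2) (σ 3) - skOv (σ 2) (σ 7) - skOv (σ 6) (σ 3) + skOv (σ 6) (σ 7)))
      = fun _ σ => ∑ κ : Fin n × Fin n × Bool × Bool × Bool × Bool,
          (ghCatSg κ.2.2.1 * ghCatSg κ.2.2.2.1 * ghCatSg κ.2.2.2.2.1 * ghCatSg κ.2.2.2.2.2)
            * ∏ x : Fin 8, ghCatPsi κ.1 κ.2.1 κ.2.2.1 κ.2.2.2.1 κ.2.2.2.2.1 κ.2.2.2.2.2 x.1 (σ x) := by
    funext _ σ
    simp_rw [obt_ov hn, gh_cat_prod8]
    rw [← Finset.sum_sub_distrib, ← Finset.sum_sub_distrib, ← Finset.sum_add_distrib, ← Finset.sum_sub_distrib,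
      ← Finset.sum_sub_distrib, ← Finset.sum_add_distrib, Finset.sum_mul_sum]
    simp only [Fintype.sum_prod_type, Fintype.sum_bool]
    refine Finset.sum_congr rfl fun k _ => Finset.sum_congr rfl fun m _ => ?_
    simp only [ghCatSg, gh_cat_psi0, gh_cat_psi1, gh_cat_psi2, gh_cat_psi3, gh_cat_psi4, gh_cat_psi5, gh_cat_psi6, gh_cat_psi7,
      if_true, Bool.false_eq_true, if_false]
    ring
  have h1 : ∀ (t : ℕ) (w : SkCfg n → ℝ), ghE (skBase n a) ((skLvs n P).drop t) (fun _ => 1) w = 1 := fun t w =>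
    gh_b_E_const hB 1 (ghm_nn_drop hls t) w
  have e2 : (fun (ξ : ℕ → SkDr n → ℝ) (_ : SkCfg n) => (∑ k, (obXp n a P z₀ j' ξ k - obXp n a P z₀ j ξ k) ^ 2) ^ 2)
      = fun ξ _ => ∑ κ : Fin n × Fin n × Bool × Bool × Bool × Bool,
          (ghCatSg κ.2.2.1 * ghCatSg κ.2.2.2.1 * ghCatSg κ.2.2.2.2.1 * ghCatSg κ.2.2.2.2.2)
            * ∏ x : Fin 8, ghE (skBase n a) ((skLvs n P).drop (ghCatDep j j' x.1))
                (ghCatPsi κ.1 κ.2.1 κ.2.2.1 κ.2.2.2.1 κ.2.2.2.2.1 κ.2.2.2.2.2 x.1) (z₀ + ghPre (skLvs n P) ξ (ghCatDep j j' x.1)) := by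
    funext ξ _
    simp_rw [gh_cat_prod8]
    rw [pow_two, Finset.sum_mul_sum]
    simp only [Fintype.sum_prod_type, Fintype.sum_bool]
    refine Finset.sum_congr rfl fun k _ => Finset.sum_congr rfl fun m _ => ?_
    simp only [ghCatSg, gh_cat_psi0, gh_cat_psi1, gh_cat_psi2, gh_cat_psi3, gh_cat_psi4, gh_cat_psi5, gh_cat_psi6, gh_cat_psi7,
      gh_cat_dep0, gh_cat_dep1, gh_cat_dep2, gh_cat_dep3, gh_cat_dep4, gh_cat_dep5, gh_cat_dep6, gh_cat_dep7,
      if_true, Bool.false_eq_true, if_false, h1, gh_cat_Xp]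
    ring
  unfold obE
  rw [e1, e2]
  exact key

end sk

end Claimed.Agent.R286
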