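import Claimed.Agent.R286.Defs.Clk

/-!
# Row 286 (S0533), unit BRIDGE, file Osc : real analysis of clocks, positions and chains      (helper148; prefix `gh_os_`)      0 sorry

On `Defs/Clk.lean` only.
* `gh_os_clamp_mono`, `gh_os_clamp_nonneg`, `gh_os_left_zero` : the clamped clock is monotone, `≥ 0`, `0` to the left of mass `0`
* `gh_os_at_ge_left`, `gh_os_at_le_right`, `gh_os_at_mono`, `gh_os_at_posA`, `gh_os_at_posB`, `gh_os_at_nonneg`, `gh_os_at_le_top` : clock values at positions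
* `gh_os_ps_mem`, `gh_os_ps_pairwise`, `gh_os_ps_nodup`, `gh_os_ps_lt` : the chain of a finite set
* `gh_os_marks` : regulated partition: finitely many marks `w ∈ [0,a]` such that every `u ∈ (0,a]` has a mark `w < u` with `c(u-) - c(w+) ≤ ε`
* `gh_os_osc_le` : a chain which contains the after-positions of the marks and `(a,1)` has oscillation `≤ ε`
* `gh_os_osc_nonneg`, **`gh_os_tendsto`** : `ghOsc a c 0 (ghPs a F) → 0` along the net of finite sets;  `gh_os_eventually` (closed form)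
-/

set_option autoImplicit false

namespace Claimed.Agent.R286

open Filter Topology Set Function

/-! ### the clamped clock -/

theorem gh_os_clamp_mono {a : ℝ} {c : ℝ → ℝ} (ha : 0 ≤ a) (hc : GhClk1 a c) : Monotone (ghClamp a c) := by
  intro x y hxy
  unfold ghClamp
  by_cases hx : x < 0
  · rw [if_pos hx]
    by_cases hy : y < 0
    · rw [if_pos hy]
    · rw [if_neg hy]
      push Not at hy
      exact hc.2.trans (hc.1 ⟨le_rfl, ha⟩ ⟨le_min hy ha, min_le_right _ _⟩ (le_min hy ha))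
  · have hy : ¬ y < 0 := fun h => hx (lt_of_le_of_lt hxy h)
    rw [if_neg hx, if_neg hy]
    push Not at hx hy
    exact hc.1 ⟨le_min hx ha, min_le_right _ _⟩ ⟨le_min hy ha, min_le_right _ _⟩ (min_le_min_right _ hxy)

theorem gh_os_clamp_nonneg {a : ℝ} {c : ℝ → ℝ} (ha : 0 ≤ a) (hc : GhClk1 a c) (u : ℝ) : 0 ≤ ghClamp a c u := by
  have h := gh_os_clamp_mono ha hc (min_le_left u (-1))
  have h0 : ghClamp a c (min u (-1)) = 0 := by
    unfold ghClamp
    rw [if_pos (lt_of_le_of_lt (min_le_right _ _) (by norm_num))]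
  linarith

theorem gh_os_left_zero (a : ℝ) (c : ℝ → ℝ) {u : ℝ} (hu : u ≤ 0) : leftLim (ghClamp a c) u = 0 := by
  apply leftLim_eq_of_tendsto
  refine tendsto_const_nhds.congr' ?_
  filter_upwards [self_mem_nhdsWithin] with x hx
  unfold ghClamp
  rw [if_pos (lt_of_lt_of_le hx hu)]

theorem gh_os_left_nonneg {a : ℝ} {c : ℝ → ℝ} (ha : 0 ≤ a) (hc : GhClk1 a c) (u : ℝ) :
    0 ≤ leftLim (ghClamp a c) u :=
  (gh_os_clamp_nonneg ha hc (u - 1)).trans ((gh_os_clamp_mono ha hc).le_leftLim (by linarith))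

/-- after the terminal mass nothing happens -/
theorem gh_os_right_top (a : ℝ) (c : ℝ → ℝ) (ha : 0 ≤ a) {u : ℝ} (hu : a ≤ u) : rightLim (ghClamp a c) u = c a := by
  apply rightLim_eq_of_tendsto
  refine tendsto_const_nhds.congr' ?_
  filter_upwards [self_mem_nhdsWithin] with x hx
  have hx' : u < x := hx
  unfold ghClamp
  rw [if_neg (by linarith), min_eq_right (by linarith)]

/-! ### values at positions -/

theorem gh_os_at_posA (a : ℝ) (c : ℝ → ℝ) (u : ℝ) : ghAt a c (ghPosA u) = rightLim (ghClamp a c) u := by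
  simp [ghAt, ghPosA, GhPos.u, GhPos.lam]

theorem gh_os_at_posB (a : ℝ) (c : ℝ → ℝ) (u : ℝ) : ghAt a c (ghPosB u) = leftLim (ghClamp a c) u := by
  simp [ghAt, ghPosB, GhPos.u, GhPos.lam]

theorem gh_os_at_ge_left {a : ℝ} {c : ℝ → ℝ} (ha : 0 ≤ a) (hc : GhClk1 a c) {p : GhPos} (h0 : 0 ≤ p.lam) :
    leftLim (ghClamp a c) p.u ≤ ghAt a c p := by
  have h := (gh_os_clamp_mono ha hc).leftLim_le_rightLim (le_refl p.u)
  unfold ghAt
  nlinarith [mul_nonneg h0 (sub_nonneg.2 h)]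

theorem gh_os_at_le_right {a : ℝ} {c : ℝ → ℝ} (ha : 0 ≤ a) (hc : GhClk1 a c) {p : GhPos} (h1 : p.lam ≤ 1) :
    ghAt a c p ≤ rightLim (ghClamp a c) p.u := by
  have h := (gh_os_clamp_mono ha hc).leftLim_le_rightLim (le_refl p.u)
  unfold ghAt
  nlinarith [mul_nonneg (sub_nonneg.2 h1) (sub_nonneg.2 h)]

theorem gh_os_pos_le_iff (p q : GhPos) : p ≤ q ↔ p.u < q.u ∨ (p.u = q.u ∧ p.lam ≤ q.lam) :=
  Prod.Lex.le_iff

theorem gh_os_pos_lt_iff (p q : GhPos) : p < q ↔ p.u < q.u ∨ (p.u = q.u ∧ p.lam < q.lam) :=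
  Prod.Lex.lt_iff

theorem gh_os_at_mono {a : ℝ} {c : ℝ → ℝ} (ha : 0 ≤ a) (hc : GhClk1 a c) {p q : GhPos} (hp : p.lam ≤ 1)
    (hq : 0 ≤ q.lam) (hpq : p ≤ q) : ghAt a c p ≤ ghAt a c q := by
  rcases (gh_os_pos_le_iff p q).1 hpq with h | ⟨h, hl⟩
  · exact (gh_os_at_le_right ha hc hp).trans
      (((gh_os_clamp_mono ha hc).rightLim_le_leftLim h).trans (gh_os_at_ge_left ha hc hq))
  · have h' := (gh_os_clamp_mono ha hc).leftLim_le_rightLim (le_refl q.u)
    unfold ghAt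
    rw [h]
    nlinarith [mul_nonneg (sub_nonneg.2 hl) (sub_nonneg.2 h')]

theorem gh_os_at_nonneg {a : ℝ} {c : ℝ → ℝ} (ha : 0 ≤ a) (hc : GhClk1 a c) {p : GhPos} (h0 : 0 ≤ p.lam) :
    0 ≤ ghAt a c p :=
  (gh_os_left_nonneg ha hc p.u).trans (gh_os_at_ge_left ha hc h0)

theorem gh_os_at_le_top {a : ℝ} {c : ℝ → ℝ} (ha : 0 ≤ a) (hc : GhClk1 a c) {p : GhPos} (hp : p.Ok a) :
    ghAt a c p ≤ ghAt a c (ghPosA a) := by
  rw [gh_os_at_posA]
  exact (gh_os_at_le_right ha hc hp.2.2.2).trans ((gh_os_clamp_mono ha hc).rightLim hp.2.1)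

theorem gh_os_at_top (a : ℝ) (c : ℝ → ℝ) (ha : 0 ≤ a) : ghAt a c (ghPosA a) = c a := by
  rw [gh_os_at_posA, gh_os_right_top a c ha le_rfl]

theorem gh_os_posA_ok {a u : ℝ} (h0 : 0 ≤ u) (h1 : u ≤ a) : (ghPosA u).Ok a :=
  ⟨h0, h1, by simp [ghPosA, GhPos.lam], by simp [ghPosA, GhPos.lam]⟩

/-! ### the chain of a finite set -/

theorem gh_os_ps_mem {a : ℝ} {F : Finset GhPos} {p : GhPos} : p ∈ ghPs a F ↔ p ∈ F ∧ p.Ok a := by
  classical
  unfold ghPs
  rw [Finset.mem_sort, Finset.mem_filter]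

theorem gh_os_ps_pairwise (a : ℝ) (F : Finset GhPos) : (ghPs a F).Pairwise (· ≤ ·) := by
  classical
  unfold ghPs
  exact Finset.pairwise_sort _ _

theorem gh_os_ps_nodup (a : ℝ) (F : Finset GhPos) : (ghPs a F).Nodup := by
  classical
  unfold ghPs
  exact Finset.sort_nodup _ _

theorem gh_os_ps_lt (a : ℝ) (F : Finset GhPos) : (ghPs a F).Pairwise (· < ·) := by
  have h1 := gh_os_ps_pairwise a F
  have h2 := gh_os_ps_nodup a F
  exact (h1.and h2).imp fun h => lt_of_le_of_ne h.1 h.2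

/-! ### regulated partitions -/

/-- local form: near every `y` two marks suffice -/
theorem gh_os_marks_local {f : ℝ → ℝ} (hf : Monotone f) {a ε : ℝ} (hε : 0 < ε) (y : ℝ) (hy : y ∈ Icc 0 a) :
    ∃ U ∈ 𝓝 y, ∃ w₁ ∈ Icc 0 a, ∀ u ∈ U, 0 < u →
      (w₁ < u ∧ leftLim f u - rightLim f w₁ ≤ ε) ∨ (y < u ∧ leftLim f u - rightLim f y ≤ ε) := by
  -- left side
  have hl : ∀ᶠ s in 𝓝[<] y, leftLim f y - ε < f s :=
    (hf.tendsto_leftLim y).eventually (lt_mem_nhds (by linarith))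
  obtain ⟨t, ht, hty⟩ := (hl.and self_mem_nhdsWithin).exists
  have hty' : t < y := hty
  -- right side
  have hr : ∀ᶠ s in 𝓝[>] y, f s < rightLim f y + ε :=
    (hf.tendsto_rightLim y).eventually (gt_mem_nhds (by linarith))
  obtain ⟨z, hz, hzs⟩ := (mem_nhdsGT_iff_exists_Ioo_subset).1 hr
  have hz' : y < z := hz
  refine ⟨Ioo t z, Ioo_mem_nhds hty' hz', max t 0, ⟨le_max_right _ _, max_le (hty'.le.trans hy.2) (hy.1.trans hy.2)⟩, ?_⟩
  intro u hu hu0
  rcases le_or_gt u y with huy | huy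
  · left
    refine ⟨max_lt hu.1 hu0, ?_⟩
    have h1 : leftLim f u ≤ leftLim f y := hf.leftLim huy
    have h2 : f t ≤ rightLim f (max t 0) := hf.le_rightLim (le_max_left _ _)
    linarith
  · right
    refine ⟨huy, ?_⟩
    have h1 : leftLim f u ≤ f u := hf.leftLim_le le_rfl
    have h2 : f u < rightLim f y + ε := hzs ⟨huy, hu.2⟩
    linarith

/-- **regulated partition** -/
theorem gh_os_marks {f : ℝ → ℝ} (hf : Monotone f) {a ε : ℝ} (hε : 0 < ε) :
    ∃ M : Finset ℝ, (∀ w ∈ M, w ∈ Icc 0 a) ∧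
      ∀ u, 0 < u → u ≤ a → ∃ w ∈ M, w < u ∧ leftLim f u - rightLim f w ≤ ε := by
  classical
  choose! U hU w₁ hw₁ hUw using gh_os_marks_local hf (a := a) hε
  obtain ⟨t, ht, hcov⟩ := isCompact_Icc.elim_nhds_subcover U hU
  refine ⟨t ∪ t.image w₁, ?_, ?_⟩
  · intro w hw
    rcases Finset.mem_union.1 hw with h | h
    · exact ht w h
    · obtain ⟨y, hy, rfl⟩ := Finset.mem_image.1 h
      exact hw₁ y (ht y hy)
  · intro u hu0 hua
    have hmem : u ∈ ⋃ x ∈ t, U x := hcov ⟨hu0.le, hua⟩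
    simp only [mem_iUnion, exists_prop] at hmem
    obtain ⟨y, hy, huy⟩ := hmem
    rcases hUw y (ht y hy) u huy hu0 with h | h
    · exact ⟨w₁ y, Finset.mem_union_right _ (Finset.mem_image_of_mem _ hy), h⟩
    · exact ⟨y, Finset.mem_union_left _ hy, h⟩

/-! ### the oscillation of a chain -/

theorem gh_os_osc_nonneg {a : ℝ} {c : ℝ → ℝ} (ha : 0 ≤ a) (hc : GhClk1 a c) :
    ∀ (ps : List GhPos) (c0 : ℝ), (∀ p ∈ ps, p.Ok a) → c0 ≤ ghAt a c (ghPosA a) → 0 ≤ ghOsc a c c0 ps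
  | [], c0, _, h0 => by simpa [ghOsc] using h0
  | p :: ps, c0, hok, _ => by
      rw [ghOsc]
      exact le_max_of_le_right (gh_os_osc_nonneg ha hc ps _ (fun q hq => hok q (List.mem_cons_of_mem _ hq))
        (gh_os_at_le_top ha hc (hok p List.mem_cons_self)))

/-- the invariant argument: marks which are not in the remaining chain have been revealed -/
theorem gh_os_osc_le_aux {a : ℝ} {c : ℝ → ℝ} (ha : 0 ≤ a) (hc : GhClk1 a c) {ε : ℝ} (hε : 0 ≤ ε) (M : Finset ℝ)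
    (hM : ∀ u, 0 < u → u ≤ a → ∃ w ∈ M, w < u ∧ leftLim (ghClamp a c) u - rightLim (ghClamp a c) w ≤ ε) :
    ∀ (ps : List GhPos) (c0 : ℝ), ps.Pairwise (· < ·) → (∀ p ∈ ps, p.Ok a) → 0 ≤ c0 → (∀ p ∈ ps, c0 ≤ ghAt a c p) →
      (∀ w ∈ insert a M, ghPosA w ∈ ps ∨ rightLim (ghClamp a c) w ≤ c0) → ghOsc a c c0 ps ≤ ε
  | [], c0, _, _, _, _, hinv => by
      rw [ghOsc, gh_os_at_posA]
      rcases hinv a (Finset.mem_insert_self _ _) with h | h
      · simp at h
      · linarith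
  | p :: ps, c0, hs, hok, h0, hle, hinv => by
      rw [ghOsc]
      have hpok := hok p List.mem_cons_self
      rw [List.pairwise_cons] at hs
      refine max_le ?_ ?_
      · rcases hpok.1.eq_or_lt with hu | hu
        · rw [gh_os_left_zero a c hu.symm.le]; linarith
        · obtain ⟨w, hw, hwu, hwε⟩ := hM p.u hu hpok.2.1
          have hlt : ghPosA w < p := (gh_os_pos_lt_iff _ _).2 (Or.inl (by simpa [ghPosA, GhPos.u] using hwu))
          rcases hinv w (Finset.mem_insert_of_mem hw) with h | h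
          · exfalso
            rcases List.mem_cons.1 h with h | h
            · exact absurd h hlt.ne
            · exact absurd (hs.1 _ h) (not_lt.2 hlt.le)
          · linarith
      · refine gh_os_osc_le_aux ha hc hε M hM ps _ hs.2 (fun q hq => hok q (List.mem_cons_of_mem _ hq))
          (gh_os_at_nonneg ha hc hpok.2.2.1) ?_ ?_
        · intro q hq
          exact gh_os_at_mono ha hc hpok.2.2.2 (hok q (List.mem_cons_of_mem _ hq)).2.2.1 (hs.1 q hq).le
        · intro w hw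
          rcases hinv w hw with h | h
          · rcases List.mem_cons.1 h with h | h
            · right; rw [← h, gh_os_at_posA]
            · left; exact h
          · right; exact h.trans (hle p List.mem_cons_self)

/-- closed form: beyond a finite set of positions the oscillation is `≤ ε` -/
theorem gh_os_eventually {a : ℝ} {c : ℝ → ℝ} (ha : 0 ≤ a) (hc : GhClk1 a c) {ε : ℝ} (hε : 0 < ε) :
    ∃ F₀ : Finset GhPos, ∀ F : Finset GhPos, F₀ ⊆ F → ghOsc a c 0 (ghPs a F) ≤ ε := by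
  classical
  obtain ⟨M, hM1, hM2⟩ := gh_os_marks (gh_os_clamp_mono ha hc) (a := a) hε
  refine ⟨(insert a M).image ghPosA, fun F hF => ?_⟩
  refine gh_os_osc_le_aux ha hc hε.le M hM2 _ 0 (gh_os_ps_lt a F) (fun p hp => (gh_os_ps_mem.1 hp).2) le_rfl
    (fun p hp => gh_os_at_nonneg ha hc (gh_os_ps_mem.1 hp).2.2.2.1) ?_
  intro w hw
  left
  refine gh_os_ps_mem.2 ⟨hF (Finset.mem_image_of_mem _ hw), ?_⟩
  rcases Finset.mem_insert.1 hw with h | h
  · rw [h]; exact gh_os_posA_ok ha le_rfl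
  · exact gh_os_posA_ok (hM1 w h).1 (hM1 w h).2

/-- **the oscillation tends to `0` along the net of finite sets of positions** -/
theorem gh_os_tendsto {a : ℝ} {c : ℝ → ℝ} (ha : 0 ≤ a) (hc : GhClk1 a c) :
    Tendsto (fun F : Finset GhPos => ghOsc a c 0 (ghPs a F)) atTop (𝓝 0) := by
  rw [Metric.tendsto_atTop]
  intro ε hε
  obtain ⟨F₀, hF₀⟩ := gh_os_eventually ha hc (half_pos hε)
  refine ⟨F₀, fun F hF => ?_⟩
  have h1 := hF₀ F hF
  have h2 : 0 ≤ ghOsc a c 0 (ghPs a F) :=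
    gh_os_osc_nonneg ha hc _ 0 (fun p hp => (gh_os_ps_mem.1 hp).2)
      (gh_os_at_nonneg ha hc (by simp [ghPosA, GhPos.lam]))
  rw [Real.dist_eq, sub_zero, abs_of_nonneg h2]
  linarith

end Claimed.Agent.R286
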