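import Claimed.Agent.R286.Brg.Defs
import Claimed.Agent.R286.Brg.Osc
import Claimed.Agent.R286.Fd.TrB4
import Claimed.Agent.R286.Fd.NuApiC

/-!
# Row 286 (S0533), Brg/ChTr : CHAINS OF POSITIONS <-> the step vocabulary `trNu`, `gcLs`      (owner helper262; prefix `gh_ct_`; sorry free)

* `ghCtV Φ w c ps`      VALUE CHAIN: the hierarchy with a level of mass `p.u` for each position `p` of the list, cumulative values `w p` (`ghChain` = the case `w = ghClkAt a v`);
* `GhVOk w c ps`        the values are nondecreasing along the list, above `c`;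
* `ghHs w c ps`, `ghFt Φ`   the same hierarchy in the clocked vocabulary `gcLs` of `Defs/Tr` (blocks = coordinates, inner index `Unit`);
* `gh_ct_rep`           `ghRepN = trRep` on the stages which are read;   `gh_ct_nu`  : `ghNu .. (ghRepN q sh) .. = trNu ..`;
* `gh_ct_disc_isTr`     the discrete table of a real tree on a chain is a tree;
* `gh_ct_idx_drop`      the table when one position (not a fork) is dropped from the chain.
-/

set_option autoImplicit false
set_option linter.unusedSectionVars false

namespace Claimed.Agent.R286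

open MeasureTheory

section
variable {S ι : Type} [Fintype S] [Fintype ι]

theorem gh_ct_nonempty {B : GhB S} (hB : B.Ok) : Nonempty S := by
  by_contra h
  rw [not_nonempty_iff] at h
  have := hB.sum
  simp at this

/-- value chain -/
noncomputable def ghCtV (Φ : S → ι → ℝ) (w : GhPos → ι → ℝ) : (ι → ℝ) → List GhPos → List (GhLv S ι)
  | _, [] => []
  | c, p :: ps => ghLvF Φ p.u (fun i => w p i - c i) :: ghCtV Φ w (w p) ps

/-- the values are nondecreasing along the list, above `c` -/
def GhVOk (w : GhPos → ι → ℝ) : (ι → ℝ) → List GhPos → Prop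
  | _, [] => True
  | c, p :: ps => (∀ i, c i ≤ w p i) ∧ GhVOk w (w p) ps

/-- the increments of a value chain -/
def ghHs (w : GhPos → ι → ℝ) : (ι → ℝ) → List GhPos → List (ℝ × (ι → ℝ))
  | _, [] => []
  | c, p :: ps => (p.u, fun i => w p i - c i) :: ghHs w (w p) ps

/-- the features as blocks -/
def ghFt (Φ : S → ι → ℝ) : ι → S → Unit → ℝ := fun i s _ => Φ s i

/-- the last value of a chain -/
def ghLastV (w : GhPos → ι → ℝ) : (ι → ℝ) → List GhPos → ι → ℝ
  | c, [] => c
  | _, p :: ps => ghLastV w (w p) ps

theorem gh_ct_eqns_cite : True := by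
  have := @ghCtV.eq_1
  have := @ghCtV.eq_2
  have := @ghCtV.eq_def
  have := @ghCtV.induct
  have := @GhVOk.eq_1
  have := @GhVOk.eq_2
  have := @GhVOk.eq_def
  have := @GhVOk.induct
  have := @ghHs.eq_1
  have := @ghHs.eq_2
  have := @ghHs.eq_def
  have := @ghHs.induct
  have := @ghFt.eq_1
  have := @ghLastV.eq_1
  have := @ghLastV.eq_2
  have := @ghLastV.eq_def
  have := @ghLastV.induct
  trivial

theorem gh_ct_chain (Φ : S → ι → ℝ) (a : ℝ) (v : ι → ℝ → ℝ) (c : ι → ℝ) (ps : List GhPos) :
    ghChain Φ a v c ps = ghCtV Φ (ghClkAt a v) c ps := by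
  induction ps generalizing c with
  | nil => rfl
  | cons p ps ih => simp only [ghChain, ghCtV, ih]

theorem gh_ct_len (Φ : S → ι → ℝ) (w : GhPos → ι → ℝ) (c : ι → ℝ) (ps : List GhPos) :
    (ghCtV Φ w c ps).length = ps.length := by
  induction ps generalizing c with
  | nil => rfl
  | cons p ps ih => simp only [ghCtV, List.length_cons, ih]

theorem gh_ct_hs_len (w : GhPos → ι → ℝ) (c : ι → ℝ) (ps : List GhPos) : (ghHs w c ps).length = ps.length := by
  induction ps generalizing c with
  | nil => rfl
  | cons p ps ih => simp only [ghHs, List.length_cons, ih]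

theorem gh_ct_append (Φ : S → ι → ℝ) (w : GhPos → ι → ℝ) (c : ι → ℝ) (l₁ l₂ : List GhPos) :
    ghCtV Φ w c (l₁ ++ l₂) = ghCtV Φ w c l₁ ++ ghCtV Φ w (ghLastV w c l₁) l₂ := by
  induction l₁ generalizing c with
  | nil => rfl
  | cons p ps ih => simp only [List.cons_append, ghCtV, ghLastV, ih]

theorem gh_ct_hs_append (w : GhPos → ι → ℝ) (c : ι → ℝ) (l₁ l₂ : List GhPos) :
    ghHs w c (l₁ ++ l₂) = ghHs w c l₁ ++ ghHs w (ghLastV w c l₁) l₂ := by
  induction l₁ generalizing c with
  | nil => rfl
  | cons p ps ih => simp only [List.cons_append, ghHs, ghLastV, ih]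

theorem gh_ct_vok_append {w : GhPos → ι → ℝ} {c : ι → ℝ} {l₁ l₂ : List GhPos} :
    GhVOk w c (l₁ ++ l₂) ↔ GhVOk w c l₁ ∧ GhVOk w (ghLastV w c l₁) l₂ := by
  induction l₁ generalizing c with
  | nil => simp [GhVOk, ghLastV]
  | cons p ps ih => simp only [List.cons_append, GhVOk, ghLastV, ih, and_assoc]

/-- masses of a valid chain -/
theorem gh_ct_adm {B : GhB S} (Φ : S → ι → ℝ) (w : GhPos → ι → ℝ) (c : ι → ℝ) {ps : List GhPos} (hps : GhChOk B.a ps) :
    GhAdm B 0 (ghCtV Φ w c ps) := by
  induction ps generalizing c with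
  | nil => exact ⟨List.Pairwise.nil, fun l hl => absurd hl List.not_mem_nil⟩
  | cons p ps ih =>
    have hps' : GhChOk B.a ps := ⟨(List.pairwise_cons.1 hps.1).2, fun r hr => hps.2 r (List.mem_cons_of_mem _ hr)⟩
    have h := ih (w p) hps'
    have hmem : ∀ (c' : ι → ℝ) (qs : List GhPos), ∀ l ∈ ghCtV Φ w c' qs, ∃ r ∈ qs, l.m = r.u := by
      intro c' qs
      induction qs generalizing c' with
      | nil => intro l hl; exact absurd hl List.not_mem_nil
      | cons r qs ihq =>
        intro l hl
        simp only [ghCtV, List.mem_cons] at hl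
        rcases hl with rfl | hl
        · exact ⟨r, List.mem_cons_self, rfl⟩
        · obtain ⟨r', hr', e⟩ := ihq _ l hl
          exact ⟨r', List.mem_cons_of_mem _ hr', e⟩
    refine ⟨?_, ?_⟩
    · simp only [ghCtV]
      refine List.pairwise_cons.2 ⟨fun l hl => ?_, h.1⟩
      obtain ⟨r, hr, e⟩ := hmem _ _ l hl
      rw [e]
      have := (List.pairwise_cons.1 hps.1).1 r hr
      rcases (gh_os_pos_lt_iff p r).1 this with h1 | h1
      · exact h1.le
      · exact h1.1.le
    · intro l hl
      simp only [ghCtV, List.mem_cons] at hl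
      rcases hl with rfl | hl
      · exact ⟨(hps.2 p List.mem_cons_self).1, (hps.2 p List.mem_cons_self).2.1⟩
      · exact h.2 l hl

theorem gh_ct_nn {a : ℝ} (Φ : S → ι → ℝ) (w : GhPos → ι → ℝ) (c : ι → ℝ) {ps : List GhPos} (hps : GhChOk a ps) :
    GhNn (ghCtV Φ w c ps) := fun l hl => (gh_ct_adm (B := ⟨fun _ => 0, a⟩) Φ w c hps).2 l hl |>.1

/-- the two codings have the same masses and kernels -/
theorem gh_ct_cov (Φ : S → ι → ℝ) (w : GhPos → ι → ℝ) (c : ι → ℝ) (ps : List GhPos) :
    TrECov (ghCtV Φ w c ps) (gcLs (ghFt Φ) (ghHs w c ps)) := by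
  induction ps generalizing c with
  | nil => exact List.Forall₂.nil
  | cons p ps ih =>
    refine List.Forall₂.cons ⟨rfl, fun s t => ?_⟩ (ih _)
    simp only [GhLv.cov, ghLvF, gcLv, ghFt, Fintype.sum_prod_type, Finset.univ_unique, Finset.sum_singleton]

/-- values of a family of clocks along a valid chain -/
theorem gh_ct_vok_clk {a : ℝ} (ha : 0 ≤ a) {v : ι → ℝ → ℝ} (hv : GhClk a v) {ps : List GhPos} (hps : GhChOk a ps) :
    GhVOk (ghClkAt a v) 0 ps := by
  have key : ∀ (qs : List GhPos) (c : ι → ℝ), GhChOk a qs → (∀ r ∈ qs, ∀ i, c i ≤ ghClkAt a v r i) → GhVOk (ghClkAt a v) c qs := by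
    intro qs
    induction qs with
    | nil => intro _ _ _; trivial
    | cons p qs ih =>
      intro c hq hc
      refine ⟨hc p List.mem_cons_self, ih _ ⟨(List.pairwise_cons.1 hq.1).2, fun r hr => hq.2 r (List.mem_cons_of_mem _ hr)⟩ ?_⟩
      intro r hr i
      exact gh_os_at_mono ha (hv i) (hq.2 p List.mem_cons_self).2.2.2 (hq.2 r (List.mem_cons_of_mem _ hr)).2.2.1
        ((List.pairwise_cons.1 hq.1).1 r hr).le
  exact key ps 0 hps fun r hr i => gh_os_at_nonneg ha (hv i) (hps.2 r hr).2.2.1

end

/-! ### representatives -/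

theorem gh_ct_rep (q : ℕ) (sh : ℕ → ℕ → ℕ) (t : ℕ) (a : Fin q) (h : t < sh a.1 a.1) : ghRepN q sh t a = trRep q sh t a := by
  unfold ghRepN trRep
  cases hf : (List.finRange q).find? fun b : Fin q => decide (t < sh a.1 b.1) with
  | none =>
    rw [List.find?_eq_none] at hf
    exact absurd (by simpa using h) (hf a (List.mem_finRange a))
  | some b =>
    simp only [Option.getD_some]
    obtain ⟨hb, i, hi, hib, hlt⟩ := List.find?_eq_some_iff_getElem.1 hf
    refine le_antisymm (Finset.min'_le _ _ ?_) (Finset.le_min' _ _ _ fun c hc => ?_)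
    · simp only [Finset.mem_filter, Finset.mem_univ, true_and]
      right; simpa using hb
    · by_contra hcb
      have hcb' : c < b := not_le.1 hcb
      have hbi : b.1 = i := by rw [← hib]; simp
      have hci : c.1 < i := by rw [← hbi]; exact hcb'
      have h1 := hlt c.1 hci
      simp only [List.getElem_finRange, Fin.cast_mk, Fin.eta, Bool.not_eq_true', decide_eq_false_iff_not] at h1
      simp only [Finset.mem_filter, Finset.mem_univ, true_and] at hc
      rcases hc with rfl | hc
      · exact h1 h
      · exact h1 hc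

section
variable {S ι : Type} [Fintype S] [Fintype ι] [Inhabited S]

/-- the numbers of `Defs/Clk` in the vocabulary of `Defs/Tr` -/
theorem gh_ct_nu (B : GhB S) (ls : List (GhLv S ι)) (q : ℕ) (sh : ℕ → ℕ → ℕ) (hd : ∀ x, x < q → ls.length < sh x x)
    (z : S → ℝ) (P : (Fin q → S) → ℝ) :
    ghNu B ls (ghRepN q sh) (fun _ => z) (fun _ σ => P σ) = trNu B ls q sh z fun σ => P fun a => σ a.1 := by
  unfold trNu
  rw [gh_n_congr_rep B ls (ghRepN q sh) (fun t => trRep q sh t)
    (fun t ht => funext fun a => gh_ct_rep q sh t a (lt_of_le_of_lt ht (hd a.1 a.2)))]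
  congr 1
  funext _ σ
  congr 1
  funext a
  simp [trExt]

theorem gh_ct_uses {q : ℕ} (P : (Fin q → S) → ℝ) : TrUses q fun σ : ℕ → S => P fun a => σ a.1 := by
  intro σ σ' h
  have : (fun a : Fin q => σ a.1) = fun a : Fin q => σ' a.1 := funext fun a => h a.1 a.2
  simp only [this]

end

/-! ### tables -/

/-- the clean form of `ghIdx` -/
theorem gh_ct_idx_eq (ps : List GhPos) (o : WithTop GhPos) :
    ghIdx ps o = (ps.filter fun x : GhPos => decide ((x : WithTop GhPos) ≤ o)).length + if o = ⊤ then 1 else 0 := by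
  unfold ghIdx
  congr 1
  induction ps with
  | nil => rfl
  | cons p ps ih =>
    simp only [List.bind_eq_flatMap, List.flatMap_cons, List.pure_def, List.singleton_append, List.filter_cons] at ih ⊢
    split_ifs
    · simp only [List.length_cons, ih]
    · exact ih

theorem gh_ct_idx_top (ps : List GhPos) : ghIdx ps ⊤ = ps.length + 1 := by
  rw [gh_ct_idx_eq]
  simp

theorem gh_ct_idx_coe_le (ps : List GhPos) (p : GhPos) : ghIdx ps (p : WithTop GhPos) ≤ ps.length := by
  rw [gh_ct_idx_eq]
  simp only [WithTop.coe_ne_top, if_false, add_zero]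
  exact List.length_filter_le _ _

theorem gh_ct_idx_le (ps : List GhPos) (o : WithTop GhPos) : ghIdx ps o ≤ ps.length + 1 := by
  induction o using WithTop.recTopCoe with
  | top => rw [gh_ct_idx_top]
  | coe p => exact (gh_ct_idx_coe_le ps p).trans (Nat.le_succ _)

theorem gh_ct_idx_mono (ps : List GhPos) {o o' : WithTop GhPos} (h : o ≤ o') : ghIdx ps o ≤ ghIdx ps o' := by
  induction o' using WithTop.recTopCoe with
  | top => rw [gh_ct_idx_top]; exact gh_ct_idx_le ps o
  | coe p' =>
    induction o using WithTop.recTopCoe with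
    | top => simp at h
    | coe p =>
      rw [gh_ct_idx_eq, gh_ct_idx_eq]
      simp only [WithTop.coe_ne_top, if_false, add_zero]
      refine (List.Sublist.length_le ?_)
      refine List.monotone_filter_right _ fun x hx => ?_
      simp only [decide_eq_true_eq] at hx ⊢
      exact hx.trans h

theorem gh_ct_disc_isTr {a : ℝ} {q : ℕ} {τ : ℕ → ℕ → WithTop GhPos} (hτ : GhIsRT a q τ) (ps : List GhPos) :
    IsTr ps.length q (ghDisc ps τ) where
  le := fun x y _ _ => gh_ct_idx_le ps _
  diag := fun x hx => by unfold ghDisc; rw [hτ.diag x hx, gh_ct_idx_top]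
  symm := fun x y hx hy => by unfold ghDisc; rw [hτ.symm x y hx hy]
  ultra := fun x y z hx hy hz => by
    unfold ghDisc
    rcases le_total (τ x y) (τ y z) with h | h
    · have := hτ.ultra x y z hx hy hz
      rw [min_eq_left h] at this
      exact (min_le_left _ _).trans (gh_ct_idx_mono ps this)
    · have := hτ.ultra x y z hx hy hz
      rw [min_eq_right h] at this
      exact (min_le_right _ _).trans (gh_ct_idx_mono ps this)

/-- the table when the position `p` (not a fork) is dropped -/
theorem gh_ct_idx_drop {l₁ l₂ : List GhPos} {p : GhPos} (hs : (l₁ ++ p :: l₂).Pairwise (· < ·)) {o : WithTop GhPos}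
    (ho : o = ⊤ ∨ ∃ r ∈ l₁ ++ l₂, o = (r : WithTop GhPos)) :
    ghIdx (l₁ ++ p :: l₂) o = if l₁.length < ghIdx (l₁ ++ l₂) o then ghIdx (l₁ ++ l₂) o + 1 else ghIdx (l₁ ++ l₂) o := by
  rcases ho with rfl | ⟨r, hr, rfl⟩
  · rw [gh_ct_idx_top, gh_ct_idx_top, if_pos (by simp only [List.length_append]; omega)]
    simp only [List.length_append, List.length_cons]
    omega
  · have h1 := List.pairwise_append.1 hs
    have h2 := List.pairwise_cons.1 h1.2.1
    rw [gh_ct_idx_eq, gh_ct_idx_eq]
    simp only [WithTop.coe_ne_top, if_false, add_zero, List.filter_append, List.length_append, WithTop.coe_le_coe,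
      List.filter_cons]
    rcases List.mem_append.1 hr with hr | hr
    · have hrp : r < p := h1.2.2 r hr p List.mem_cons_self
      have e2 : l₂.filter (fun x => decide (x ≤ r)) = [] := by
        rw [List.filter_eq_nil_iff]
        intro x hx
        simp only [decide_eq_true_eq, not_le]
        exact hrp.trans (h2.1 x hx)
      rw [e2, if_neg (by simpa using hrp)]
      have := List.length_filter_le (fun x => decide (x ≤ r)) l₁
      simp only [List.length_nil, add_zero]
      rw [if_neg (by omega)]
    · have hpr : p < r := h2.1 r hr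
      have e1 : l₁.filter (fun x => decide (x ≤ r)) = l₁ := by
        rw [List.filter_eq_self]
        intro x hx
        simp only [decide_eq_true_eq]
        exact ((h1.2.2 x hx p List.mem_cons_self).trans hpr).le
      have e3 : 0 < (l₂.filter (fun x => decide (x ≤ r))).length := by
        rw [List.length_pos_iff_exists_mem]
        exact ⟨r, List.mem_filter.2 ⟨hr, by simp⟩⟩
      rw [e1, if_pos (by simpa using hpr.le), if_pos (by omega)]
      simp only [List.length_cons]
      omega

end Claimed.Agent.R286
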