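import Claimed.Agent.R286.Fd.TrC
import Claimed.Agent.R286.Fd.TrA2
import Claimed.Agent.R286.Fd.RegA
import Claimed.Agent.R286.Brg.Osc

/-!
# Row 286 (S0533), Brg/ChV : VALUE CHAINS      (owner helper148; prefix `gh_br_`, defs `ghBr*`)

The finite level of PE Prop 2.14 (bridge finite chains -> clocks), on `Defs/Clk` (76) and the tree contracts of 150 (`Fd/TrB4`, `Fd/TrC2-4`).

A VALUE CHAIN reveals at the positions of a list `ps` (mass of the level = mass of the position) the increments of an ARBITRARY value function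
`V : GhPos → ι → ℝ` (monotone along the list).      `ghChain Φ a v = ghBrCh Φ (ghClkAt a v)`.

* `gh_br_nu_tr`, `gh_br_F_gc`      translation into the vocabulary `trNu / gcLs` of 150
* `gh_br_nu_drop_empty`, `gh_br_nu_drop_merge` (and `_F_`)      a position which is not a fork may be DROPPED from the chain if its level is empty / if the next position has the same mass
* `gh_br_nu_engine`, `gh_br_F_engine`      THE ENGINE (PE Lemma 2.9, j = 1): two value functions on a COMMON chain, sup distance of the cumulative kernels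
-/

set_option autoImplicit false

namespace Claimed.Agent.R286

open MeasureTheory ProbabilityTheory Filter Topology

noncomputable section

variable {S ι : Type}

/-! ### definitions -/

/-- (mass, increments) of the value function `V` along the chain; `c` = already revealed -/
def ghBrHs (V : GhPos → ι → ℝ) : (ι → ℝ) → List GhPos → List (ℝ × (ι → ℝ))
  | _, [] => []
  | c, p :: ps => (p.u, fun i => V p i - c i) :: ghBrHs V (V p) ps

/-- the value chain -/
def ghBrCh (Φ : S → ι → ℝ) (V : GhPos → ι → ℝ) (c : ι → ℝ) (ps : List GhPos) : List (GhLv S ι) :=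
  (ghBrHs V c ps).map fun h => ghLvF Φ h.1 h.2

/-- what is revealed at the end of the chain -/
def ghBrEnd (V : GhPos → ι → ℝ) : (ι → ℝ) → List GhPos → ι → ℝ
  | c, [] => c
  | _, p :: ps => ghBrEnd V (V p) ps

/-- the features as blocks of size one (vocabulary of `Defs/Tr`) -/
def ghBrFeat (Φ : S → ι → ℝ) : ι → S → Unit → ℝ := fun i s _ => Φ s i

/-- kernel of the features with the coordinate variances `c` -/
def ghBrKer [Fintype ι] (Φ : S → ι → ℝ) (c : ι → ℝ) (s t : S) : ℝ := ∑ i, c i * (Φ s i * Φ t i)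

/-- admissible value chain -/
structure GhBrAdm (a : ℝ) (V : GhPos → ι → ℝ) (c : ι → ℝ) (ps : List GhPos) : Prop where
  sorted : ps.Pairwise (· < ·)
  ok : ∀ p ∈ ps, p.Ok a
  base : ∀ p ∈ ps, ∀ i, c i ≤ V p i
  mono : ps.Pairwise fun p p' => ∀ i, V p i ≤ V p' i

/-- tree number of a value chain -/
def ghBrNu [Fintype S] [Fintype ι] (B : GhB S) (Φ : S → ι → ℝ) (V : GhPos → ι → ℝ) (z : S → ℝ) (q : ℕ)
    (τ : ℕ → ℕ → WithTop GhPos) (P : (Fin q → S) → ℝ) (ps : List GhPos) : ℝ :=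
  ghNu B (ghBrCh Φ V 0 ps) (ghRepN q (ghDisc ps τ)) (fun _ => z) fun _ σ => P σ

/-- root continuation of a value chain -/
def ghBrF [Fintype S] [Fintype ι] (B : GhB S) (Φ : S → ι → ℝ) (V : GhPos → ι → ℝ) (z : S → ℝ) (ps : List GhPos) : ℝ :=
  ghF B (ghBrCh Φ V 0 ps) z

/-- every fork of the tree is a position of the chain -/
def GhBrFk (q : ℕ) (τ : ℕ → ℕ → WithTop GhPos) (ps : List GhPos) : Prop :=
  ∀ x y, x < q → y < q → ∀ p : GhPos, τ x y = (p : WithTop GhPos) → p ∈ ps

theorem gh_br_eqns_cite : True := by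
  have := @ghBrHs.eq_1
  have := @ghBrHs.eq_2
  have := @ghBrHs.eq_def
  have := @ghBrHs.induct
  have := @ghBrCh.eq_1
  have := @ghBrEnd.eq_1
  have := @ghBrEnd.eq_2
  have := @ghBrEnd.eq_def
  have := @ghBrEnd.induct
  have := @ghBrFeat.eq_1
  have := @ghBrKer.eq_1
  have := @ghBrNu.eq_1
  have := @ghBrF.eq_1
  have := @GhBrFk.eq_1
  trivial

/-! ### lists -/

theorem gh_br_hs_length (V : GhPos → ι → ℝ) (c : ι → ℝ) (ps : List GhPos) : (ghBrHs V c ps).length = ps.length := by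
  induction ps generalizing c with
  | nil => rfl
  | cons p ps ih => simp [ghBrHs, ih]

theorem gh_br_hs_append (V : GhPos → ι → ℝ) (c : ι → ℝ) (l₁ l₂ : List GhPos) :
    ghBrHs V c (l₁ ++ l₂) = ghBrHs V c l₁ ++ ghBrHs V (ghBrEnd V c l₁) l₂ := by
  induction l₁ generalizing c with
  | nil => rfl
  | cons p ps ih => simp [ghBrHs, ghBrEnd, ih]

theorem gh_br_hs_congr {V V' : GhPos → ι → ℝ} (c : ι → ℝ) {ps : List GhPos} (h : ∀ p ∈ ps, V p = V' p) :
    ghBrHs V c ps = ghBrHs V' c ps := by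
  induction ps generalizing c with
  | nil => rfl
  | cons p ps ih =>
    have hp : V p = V' p := h p (by simp)
    simp only [ghBrHs, hp]
    rw [ih _ fun r hr => h r (by simp [hr])]

theorem gh_br_hs_fst (V : GhPos → ι → ℝ) (c : ι → ℝ) (ps : List GhPos) :
    (ghBrHs V c ps).map Prod.fst = ps.map GhPos.u := by
  induction ps generalizing c with
  | nil => rfl
  | cons p ps ih => simp [ghBrHs, ih]

theorem gh_br_ch_chain (Φ : S → ι → ℝ) (a : ℝ) (v : ι → ℝ → ℝ) (c : ι → ℝ) (ps : List GhPos) :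
    ghChain Φ a v c ps = ghBrCh Φ (ghClkAt a v) c ps := by
  induction ps generalizing c with
  | nil => rfl
  | cons p ps ih =>
    simp only [ghChain, ghBrCh, ghBrHs, List.map_cons]
    rw [ih]; rfl

theorem gh_br_end_mem (V : GhPos → ι → ℝ) (c : ι → ℝ) (ps : List GhPos) :
    ghBrEnd V c ps = c ∧ ps = [] ∨ ∃ p, ps.getLast? = some p ∧ ghBrEnd V c ps = V p := by
  induction ps generalizing c with
  | nil => left; exact ⟨rfl, rfl⟩
  | cons p ps ih =>
    right
    rcases ih (V p) with ⟨h1, h2⟩ | ⟨r, h1, h2⟩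
    · subst h2; exact ⟨p, rfl, rfl⟩
    · refine ⟨r, ?_, h2⟩
      rw [List.getLast?_cons, h1]; rfl

/-! ### tables -/

theorem gh_br_idx_def (ps : List GhPos) (p : WithTop GhPos) :
    ghIdx ps p = (ps.filter fun x : GhPos => decide ((x : WithTop GhPos) ≤ p)).length + if p = ⊤ then 1 else 0 := by
  unfold ghIdx
  congr 1
  have : (do let a ← ps; pure (a : WithTop GhPos)) = ps.map (fun a : GhPos => (a : WithTop GhPos)) := by
    simp [List.map_eq_flatMap]
  rw [this, List.filter_map, List.length_map]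
  rfl

theorem gh_br_idx_top (ps : List GhPos) : ghIdx ps ⊤ = ps.length + 1 := by
  simp [gh_br_idx_def]

theorem gh_br_idx_coe (ps : List GhPos) (p : GhPos) :
    ghIdx ps (p : WithTop GhPos) = (ps.filter fun x : GhPos => decide (x ≤ p)).length := by
  simp [gh_br_idx_def]

theorem gh_br_idx_le (ps : List GhPos) (p : WithTop GhPos) : ghIdx ps p ≤ ps.length + 1 := by
  rw [gh_br_idx_def]
  have := List.length_filter_le (fun x : GhPos => decide ((x : WithTop GhPos) ≤ p)) ps
  split_ifs <;> omega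

theorem gh_br_idx_mono (ps : List GhPos) {p p' : WithTop GhPos} (h : p ≤ p') : ghIdx ps p ≤ ghIdx ps p' := by
  rw [gh_br_idx_def, gh_br_idx_def]
  have h1 : (ps.filter fun x : GhPos => decide ((x : WithTop GhPos) ≤ p)).length
      ≤ (ps.filter fun x : GhPos => decide ((x : WithTop GhPos) ≤ p')).length := by
    apply List.Sublist.length_le
    apply List.monotone_filter_right
    intro x hx
    simp only [decide_eq_true_eq] at hx ⊢
    exact hx.trans h
  by_cases hp : p = ⊤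
  · have hp' : p' = ⊤ := top_le_iff.mp (hp ▸ h)
    simp only [hp, hp', if_true] at h1 ⊢
    omega
  · simp only [hp, if_false]
    split_ifs <;> omega

theorem gh_br_disc_isTr {a : ℝ} {q : ℕ} {τ : ℕ → ℕ → WithTop GhPos} (hτ : GhIsRT a q τ) (ps : List GhPos) :
    IsTr ps.length q (ghDisc ps τ) where
  le := fun x y _ _ => gh_br_idx_le ps _
  diag := fun x hx => by unfold ghDisc; rw [hτ.diag x hx, gh_br_idx_top]
  symm := fun x y hx hy => by unfold ghDisc; rw [hτ.symm x y hx hy]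
  ultra := fun x y z hx hy hz => by
    unfold ghDisc
    have h := gh_br_idx_mono ps (hτ.ultra x y z hx hy hz)
    rcases le_total (τ x y) (τ y z) with h1 | h1
    · rw [min_eq_left h1] at h
      exact (min_le_left _ _).trans h
    · rw [min_eq_right h1] at h
      exact (min_le_right _ _).trans h

theorem gh_br_rep_eq {N q : ℕ} {sh : ℕ → ℕ → ℕ} (h : IsTr N q sh) (t : ℕ) (a : Fin q) :
    ghRepN q sh t a = trRep q sh t a := by
  unfold ghRepN trRep
  by_cases ht : t < N + 1
  · -- `a` itself satisfies the predicate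
    have haa : t < sh a.1 a.1 := by rw [h.diag a.1 a.2]; exact ht
    cases hf : (List.finRange q).find? fun b : Fin q => decide (t < sh a.1 b.1) with
    | none =>
      rw [List.find?_eq_none] at hf
      exact absurd (by simpa using haa) (hf a (List.mem_finRange a))
    | some b =>
      simp only [Option.getD_some]
      have hb : t < sh a.1 b.1 := by simpa using List.find?_some hf
      apply le_antisymm
      · exact Finset.min'_le _ _ (by simp [hb])
      · apply Finset.le_min'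
        intro c hc
        simp only [Finset.mem_filter, Finset.mem_univ, true_and] at hc
        have hc' : t < sh a.1 c.1 := by
          rcases hc with rfl | hc
          · exact haa
          · exact hc
        by_contra hlt
        push Not at hlt
        rw [List.find?_eq_some_iff_append] at hf
        obtain ⟨-, as, bs, hab, has⟩ := hf
        have hsorted : (List.finRange q).Pairwise (· < ·) := List.pairwise_lt_finRange q
        rw [hab] at hsorted
        have hcm : c ∈ as ++ b :: bs := hab ▸ List.mem_finRange c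
        rcases List.mem_append.mp hcm with hc1 | hc1
        · have := has c hc1
          simp [hc'] at this
        · rcases List.mem_cons.mp hc1 with rfl | hc2
          · exact lt_irrefl _ hlt
          · have h3 := (List.pairwise_append.mp hsorted).2.1
            have := (List.pairwise_cons.mp h3).1 c hc2
            exact lt_asymm this hlt
  · have hno : ∀ b : Fin q, ¬ t < sh a.1 b.1 := fun b hb => ht (lt_of_lt_of_le hb (h.le a.1 b.1 a.2 b.2))
    have hf : (List.finRange q).find? (fun b : Fin q => decide (t < sh a.1 b.1)) = none := by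
      rw [List.find?_eq_none]
      intro b _
      simpa using hno b
    rw [hf]
    simp only [Option.getD_none]
    apply le_antisymm
    · exact Finset.min'_le _ _ (by simp)
    · apply Finset.le_min'
      intro c hc
      simp only [Finset.mem_filter, Finset.mem_univ, true_and] at hc
      rcases hc with rfl | hc
      · exact le_rfl
      · exact absurd hc (hno c)

/-! ### translation into the vocabulary of `Defs/Tr` -/

variable [Fintype S] [Fintype ι]

omit [Fintype S] in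
theorem gh_br_cov_eq (Φ : S → ι → ℝ) (m : ℝ) (dv : ι → ℝ) (s t : S) :
    (ghLvF Φ m dv).cov s t = (gcLv (ghBrFeat Φ) m dv).cov s t := by
  simp [GhLv.cov, ghLvF, gcLv, ghBrFeat, Fintype.sum_prod_type]

omit [Fintype S] [Fintype ι] in
theorem gh_br_ms_eq (B : GhB S) (Φ : S → ι → ℝ) (hs : List (ℝ × (ι → ℝ))) (j : ℕ) :
    trMs B (hs.map fun h => ghLvF Φ h.1 h.2) j = trMs B (gcLs (ghBrFeat Φ) hs) j := by
  unfold trMs gcLs
  simp only [List.getElem?_map, Option.map_map]
  rfl

theorem gh_br_tr_gc [Inhabited S] {B : GhB S} (hB : B.Ok) (Φ : S → ι → ℝ) (hs : List (ℝ × (ι → ℝ))) (q : ℕ) (τ : ℕ → ℕ → ℕ)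
    (z : S → ℝ) (P : (ℕ → S) → ℝ) :
    trNu B (hs.map fun h => ghLvF Φ h.1 h.2) q τ z P = trNu B (gcLs (ghBrFeat Φ) hs) q τ z P := by
  apply tr_nu_cov_congr hB (by simp [gcLs]) (gh_br_ms_eq B Φ hs)
  intro j h h' s t
  simp only [gcLs, List.getElem_map]
  exact gh_br_cov_eq Φ _ _ s t

theorem gh_br_nu_tr [Inhabited S] {B : GhB S} (hB : B.Ok) (Φ : S → ι → ℝ) (V : GhPos → ι → ℝ) (z : S → ℝ) {a : ℝ} {q : ℕ}
    {τ : ℕ → ℕ → WithTop GhPos} (hτ : GhIsRT a q τ) (P : (Fin q → S) → ℝ) (ps : List GhPos) :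
    ghBrNu B Φ V z q τ P ps
      = trNu B (gcLs (ghBrFeat Φ) (ghBrHs V 0 ps)) q (ghDisc ps τ) z fun σ => P fun x => σ x.1 := by
  rw [← gh_br_tr_gc hB]
  unfold ghBrNu trNu ghBrCh
  have h1 : ghRepN q (ghDisc ps τ) = fun t => trRep q (ghDisc ps τ) t := by
    funext t x
    exact gh_br_rep_eq (gh_br_disc_isTr hτ ps) t x
  rw [h1]
  congr 1
  funext _ σ
  congr 1
  funext x
  simp [trExt]

omit [Fintype ι] in
theorem gh_br_nonempty {B : GhB S} (hB : B.Ok) : Nonempty S := by
  by_contra h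
  rw [not_nonempty_iff] at h
  have := hB.sum
  simp at this

theorem gh_br_F_gc {B : GhB S} (hB : B.Ok) (Φ : S → ι → ℝ) (V : GhPos → ι → ℝ) (z : S → ℝ) (ps : List GhPos) :
    ghBrF B Φ V z ps = ghF B (gcLs (ghBrFeat Φ) (ghBrHs V 0 ps)) z := by
  have : Inhabited S := Classical.inhabited_of_nonempty (gh_br_nonempty hB)
  unfold ghBrF ghBrCh
  apply gh_F_cov_congr hB (by simp [gcLs]) (gh_br_ms_eq B Φ _)
  intro j h h' s t
  simp only [gcLs, List.getElem_map]
  exact gh_br_cov_eq Φ _ _ s t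

/-! ### dropping a position which is not a fork -/

omit [Fintype S] [Fintype ι] in
/-- the table of a chain with one more position `r` which is not a fork -/
theorem gh_br_idx_insert {l₁ l₂ : List GhPos} {r : GhPos} (hs : (l₁ ++ r :: l₂).Pairwise (· < ·)) {p : WithTop GhPos}
    (hp : ∀ p' : GhPos, p = (p' : WithTop GhPos) → p' ∈ l₁ ++ l₂) :
    ghIdx (l₁ ++ r :: l₂) p
      = if l₁.length < ghIdx (l₁ ++ l₂) p then ghIdx (l₁ ++ l₂) p + 1 else ghIdx (l₁ ++ l₂) p := by
  induction p using WithTop.recTopCoe with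
  | top =>
    rw [gh_br_idx_top, gh_br_idx_top, if_pos (by simp only [List.length_append]; omega)]
    simp only [List.length_append, List.length_cons]
    omega
  | coe p =>
    have hmem := hp p rfl
    rw [gh_br_idx_coe, gh_br_idx_coe]
    rw [List.pairwise_append] at hs
    obtain ⟨h1, h2, h3⟩ := hs
    rw [List.pairwise_cons] at h2
    simp only [List.filter_append, List.length_append, List.filter_cons]
    rcases List.mem_append.mp hmem with hm | hm
    · -- `p ∈ l₁`
      have hr : ¬ r ≤ p := not_le.mpr (h3 p hm r (by simp))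
      have hl2 : l₂.filter (fun x : GhPos => decide (x ≤ p)) = [] := by
        rw [List.filter_eq_nil_iff]
        intro x hx
        simpa using h3 p hm x (by simp [hx])
      have := List.length_filter_le (fun x : GhPos => decide (x ≤ p)) l₁
      simp only [hr, decide_false, hl2, List.length_nil]
      have h5 : ¬ l₁.length < (List.filter (fun x : GhPos => decide (x ≤ p)) l₁).length + 0 := by omega
      rw [if_neg h5]
      simp
    · -- `p ∈ l₂`
      have hr : r ≤ p := (h2.1 p hm).le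
      have hl1 : l₁.filter (fun x : GhPos => decide (x ≤ p)) = l₁ := by
        rw [List.filter_eq_self]
        intro x hx
        simpa using ((h3 x hx r (by simp)).trans (h2.1 p hm)).le
      have hpos : 0 < (l₂.filter (fun x : GhPos => decide (x ≤ p))).length :=
        List.length_pos_of_mem (List.mem_filter.mpr ⟨hm, by simp⟩)
      simp only [hr, decide_true, hl1, if_true, List.length_cons]
      rw [if_pos (by omega)]
      omega

omit [Fintype S] [Fintype ι] in
theorem gh_br_pos_u_le {p p' : GhPos} (h : p < p') : p.u ≤ p'.u := by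
  rcases (gh_os_pos_lt_iff p p').1 h with h | h
  · exact h.le
  · exact h.1.le

omit [Fintype S] [Fintype ι] in
theorem gh_br_gc_adm {B : GhB S} {κ : Type} (feat : ι → S → κ → ℝ) {V : GhPos → ι → ℝ} {c : ι → ℝ} {ps : List GhPos}
    (h : GhBrAdm B.a V c ps) : GhAdm B 0 (gcLs feat (ghBrHs V c ps)) := by
  constructor
  · unfold gcLs
    rw [List.pairwise_map]
    have h1 : ((ghBrHs V c ps).map Prod.fst).Pairwise (· ≤ ·) := by
      rw [gh_br_hs_fst, List.pairwise_map]
      exact h.sorted.imp gh_br_pos_u_le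
    rw [List.pairwise_map] at h1
    exact h1
  · intro l hl
    unfold gcLs at hl
    rw [List.mem_map] at hl
    obtain ⟨x, hx, rfl⟩ := hl
    have h1 : x.1 ∈ (ghBrHs V c ps).map Prod.fst := List.mem_map_of_mem hx
    rw [gh_br_hs_fst, List.mem_map] at h1
    obtain ⟨p, hp, hpx⟩ := h1
    have := h.ok p hp
    simp only [gcLv]
    rw [← hpx]
    exact ⟨this.1, this.2.1⟩

theorem gh_br_nu_drop_empty {B : GhB S} (hB : B.Ok) (Φ : S → ι → ℝ) {V : GhPos → ι → ℝ} {l₁ l₂ : List GhPos} {r : GhPos}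
    (hadm : GhBrAdm B.a V 0 (l₁ ++ r :: l₂)) (hr : V r = ghBrEnd V 0 l₁) (z : S → ℝ) {q : ℕ}
    {τ : ℕ → ℕ → WithTop GhPos} (hτ : GhIsRT B.a q τ) (hfk : GhBrFk q τ (l₁ ++ l₂)) (P : (Fin q → S) → ℝ) :
    ghBrNu B Φ V z q τ P (l₁ ++ r :: l₂) = ghBrNu B Φ V z q τ P (l₁ ++ l₂) := by
  have : Inhabited S := Classical.inhabited_of_nonempty (gh_br_nonempty hB)
  rw [gh_br_nu_tr hB Φ V z hτ, gh_br_nu_tr hB Φ V z hτ]
  have hA := gh_br_gc_adm (B := B) (ghBrFeat Φ) hadm
  rw [gh_br_hs_append, gh_br_hs_append] at *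
  simp only [ghBrHs, gcLs, List.map_append, List.map_cons] at *
  rw [hr] at *
  have hl : ∀ s i, (gcLv (ghBrFeat Φ) r.u fun i => ghBrEnd V 0 l₁ i - ghBrEnd V 0 l₁ i).A s i = 0 := by
    intro s i
    simp [gcLv]
  have hτ' := gh_br_disc_isTr hτ (l₁ ++ l₂)
  have hlen : (l₁ ++ l₂).length = (List.map (fun h => gcLv (ghBrFeat Φ) h.1 h.2) (ghBrHs V 0 l₁) ++
      List.map (fun h => gcLv (ghBrFeat Φ) h.1 h.2) (ghBrHs V (ghBrEnd V 0 l₁) l₂)).length := by
    simp [gh_br_hs_length]
  rw [hlen] at hτ'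
  rw [← tr_nu_insert_empty hB hl hA hτ' z]
  apply tr_nu_congr
  intro x y hx hy
  unfold ghDisc
  rw [gh_br_idx_insert hadm.sorted (fun p' hp' => hfk x y hx hy p' hp')]
  simp [gh_br_hs_length]


omit [Fintype S] [Fintype ι] in
theorem gh_br_end_le {a : ℝ} {V : GhPos → ι → ℝ} {c : ι → ℝ} {l₁ l₂ : List GhPos} {r : GhPos}
    (h : GhBrAdm a V c (l₁ ++ r :: l₂)) (i : ι) : ghBrEnd V c l₁ i ≤ V r i := by
  rcases gh_br_end_mem V c l₁ with ⟨h1, -⟩ | ⟨p, h1, h2⟩
  · rw [h1]; exact h.base r (by simp) i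
  · rw [h2]
    have hp : p ∈ l₁ := List.mem_of_getLast? h1
    exact (List.pairwise_append.mp h.mono).2.2 p hp r (by simp) i

theorem gh_br_nu_drop_merge {B : GhB S} (hB : B.Ok) (Φ : S → ι → ℝ) {V : GhPos → ι → ℝ} {l₁ l₂ : List GhPos} {r s : GhPos}
    (hadm : GhBrAdm B.a V 0 (l₁ ++ r :: s :: l₂)) (hrs : r.u = s.u) (z : S → ℝ) {q : ℕ}
    {τ : ℕ → ℕ → WithTop GhPos} (hτ : GhIsRT B.a q τ) (hfk : GhBrFk q τ (l₁ ++ s :: l₂)) (P : (Fin q → S) → ℝ) :
    ghBrNu B Φ V z q τ P (l₁ ++ r :: s :: l₂) = ghBrNu B Φ V z q τ P (l₁ ++ s :: l₂) := by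
  have : Inhabited S := Classical.inhabited_of_nonempty (gh_br_nonempty hB)
  rw [gh_br_nu_tr hB Φ V z hτ, gh_br_nu_tr hB Φ V z hτ]
  have hA := gh_br_gc_adm (B := B) (ghBrFeat Φ) hadm
  rw [gh_br_hs_append, gh_br_hs_append] at *
  simp only [ghBrHs] at *
  rw [hrs] at *
  have hv : ∀ i, 0 ≤ V r i - ghBrEnd V 0 l₁ i := by
    intro i
    have := gh_br_end_le hadm i
    linarith
  have hw : ∀ i, 0 ≤ V s i - V r i := by
    intro i
    have := (List.pairwise_cons.mp (List.pairwise_append.mp hadm.mono).2.1).1 s (by simp) i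
    linarith
  have hτ' := gh_br_disc_isTr hτ (l₁ ++ s :: l₂)
  have hlen : (l₁ ++ s :: l₂).length = (ghBrHs V 0 l₁).length + (ghBrHs V (V s) l₂).length + 1 := by
    simp [gh_br_hs_length]; omega
  rw [hlen] at hτ'
  have hm := tr_nu_merge hB (ghBrFeat Φ) hv hw hA hτ' z (fun σ => P fun x => σ x.1)
  have e1 : (fun i => V r i - ghBrEnd V 0 l₁ i + (V s i - V r i)) = fun i => V s i - ghBrEnd V 0 l₁ i := by
    funext i; ring
  rw [e1] at hm
  rw [← hm]
  apply tr_nu_congr
  intro x y hx hy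
  unfold ghDisc
  rw [gh_br_idx_insert hadm.sorted (fun p' hp' => hfk x y hx hy p' hp')]
  simp [gh_br_hs_length]


/-! ### the same for the root continuation -/

theorem gh_br_F_insert_empty (B : GhB S) (l₁ l₂ : List (GhLv S ι)) {l : GhLv S ι} (hl : ∀ s i, l.A s i = 0) (z : S → ℝ) :
    ghF B (l₁ ++ l :: l₂) z = ghF B (l₁ ++ l₂) z := by
  induction l₁ generalizing z with
  | nil =>
    have h0 : ∀ ξ, l.inc ξ = 0 := by
      intro ξ; funext s; simp [GhLv.inc, hl]
    simp only [List.nil_append, ghF, h0, add_zero]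
    exact gh_ra_T_const _ _
  | cons l' l₁ ih =>
    simp only [List.cons_append, ghF]
    congr 1
    funext ξ
    exact ih _

theorem gh_br_F_drop_empty (B : GhB S) (Φ : S → ι → ℝ) {V : GhPos → ι → ℝ} {l₁ l₂ : List GhPos} {r : GhPos}
    (hr : V r = ghBrEnd V 0 l₁) (z : S → ℝ) :
    ghBrF B Φ V z (l₁ ++ r :: l₂) = ghBrF B Φ V z (l₁ ++ l₂) := by
  unfold ghBrF ghBrCh
  rw [gh_br_hs_append, gh_br_hs_append]
  simp only [ghBrHs, List.map_append, List.map_cons]
  rw [hr]
  apply gh_br_F_insert_empty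
  intro s i
  simp [ghLvF]

theorem gh_br_F_drop_merge {B : GhB S} (hB : B.Ok) (Φ : S → ι → ℝ) {V : GhPos → ι → ℝ} {l₁ l₂ : List GhPos} {r s : GhPos}
    (hadm : GhBrAdm B.a V 0 (l₁ ++ r :: s :: l₂)) (hrs : r.u = s.u) (z : S → ℝ) :
    ghBrF B Φ V z (l₁ ++ r :: s :: l₂) = ghBrF B Φ V z (l₁ ++ s :: l₂) := by
  have : Inhabited S := Classical.inhabited_of_nonempty (gh_br_nonempty hB)
  rw [gh_br_F_gc hB, gh_br_F_gc hB]
  rw [gh_br_hs_append, gh_br_hs_append]
  simp only [ghBrHs]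
  rw [hrs]
  have hv : ∀ i, 0 ≤ V r i - ghBrEnd V 0 l₁ i := by
    intro i
    have := gh_br_end_le hadm i
    linarith
  have hw : ∀ i, 0 ≤ V s i - V r i := by
    intro i
    have := (List.pairwise_cons.mp (List.pairwise_append.mp hadm.mono).2.1).1 s (by simp) i
    linarith
  have hm := gh_F_merge hB (ghBrFeat Φ) (h₁ := ghBrHs V 0 l₁) (h₂ := ghBrHs V (V s) l₂) (m := s.u) hv hw z
  have e1 : (fun i => V r i - ghBrEnd V 0 l₁ i + (V s i - V r i)) = fun i => V s i - ghBrEnd V 0 l₁ i := by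
    funext i; ring
  rw [e1] at hm
  exact hm

end

noncomputable section

variable {S ι : Type}

/-! ### the engine: two value functions on a common chain -/

/-- the affine family between two value functions on a common chain -/
def ghBrAff (V V' : GhPos → ι → ℝ) : (ι → ℝ) → (ι → ℝ) → List GhPos → List (ℝ × (ι → ℝ) × (ι → ℝ))
  | _, _, [] => []
  | c, c', p :: ps =>
    (p.u, (fun i => V p i - c i), fun i => (V' p i - c' i) - (V p i - c i)) :: ghBrAff V V' (V p) (V' p) ps

theorem gh_br_aff_eqns_cite : True := by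
  have := @ghBrAff.eq_1
  have := @ghBrAff.eq_2
  have := @ghBrAff.eq_def
  have := @ghBrAff.induct
  trivial

theorem gh_br_aff_length (V V' : GhPos → ι → ℝ) (c c' : ι → ℝ) (ps : List GhPos) :
    (ghBrAff V V' c c' ps).length = ps.length := by
  induction ps generalizing c c' with
  | nil => rfl
  | cons p ps ih => simp [ghBrAff, ih]

theorem gh_br_aff_zero (V V' : GhPos → ι → ℝ) (c c' : ι → ℝ) (ps : List GhPos) :
    gcAff (ghBrAff V V' c c' ps) 0 = ghBrHs V c ps := by
  induction ps generalizing c c' with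
  | nil => rfl
  | cons p ps ih =>
    have := ih (V p) (V' p)
    unfold gcAff at this ⊢
    simp only [ghBrAff, ghBrHs, List.map_cons, this]
    simp

theorem gh_br_aff_one (V V' : GhPos → ι → ℝ) (c c' : ι → ℝ) (ps : List GhPos) :
    gcAff (ghBrAff V V' c c' ps) 1 = ghBrHs V' c' ps := by
  induction ps generalizing c c' with
  | nil => rfl
  | cons p ps ih =>
    have := ih (V p) (V' p)
    unfold gcAff at this ⊢
    simp only [ghBrAff, ghBrHs, List.map_cons, this]
    simp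

theorem gh_br_adm_tail {a : ℝ} {V : GhPos → ι → ℝ} {c : ι → ℝ} {p : GhPos} {ps : List GhPos}
    (h : GhBrAdm a V c (p :: ps)) : GhBrAdm a V (V p) ps where
  sorted := (List.pairwise_cons.mp h.sorted).2
  ok := fun r hr => h.ok r (by simp [hr])
  base := fun r hr => (List.pairwise_cons.mp h.mono).1 r hr
  mono := (List.pairwise_cons.mp h.mono).2

theorem gh_br_aff_adm {a : ℝ} {V V' : GhPos → ι → ℝ} {c c' : ι → ℝ} {ps : List GhPos}
    (h : GhBrAdm a V c ps) (h' : GhBrAdm a V' c' ps) : GcAffAdm a (ghBrAff V V' c c' ps) := by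
  induction ps generalizing c c' with
  | nil => exact ⟨by simp [ghBrAff], by simp [ghBrAff]⟩
  | cons p ps ih =>
    obtain ⟨i1, i2⟩ := ih (gh_br_adm_tail h) (gh_br_adm_tail h')
    have hfst : ∀ (c c' : ι → ℝ) (ps : List GhPos), (ghBrAff V V' c c' ps).map Prod.fst = ps.map GhPos.u := by
      intro c c' ps
      induction ps generalizing c c' with
      | nil => rfl
      | cons p ps ih => simp [ghBrAff, ih]
    constructor
    · simp only [ghBrAff, List.map_cons, List.pairwise_cons]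
      refine ⟨?_, i1⟩
      intro m hm
      rw [hfst, List.mem_map] at hm
      obtain ⟨r, hr, rfl⟩ := hm
      exact gh_br_pos_u_le ((List.pairwise_cons.mp h.sorted).1 r hr)
    · intro x hx
      simp only [ghBrAff, List.mem_cons] at hx
      rcases hx with rfl | hx
      · have hok := h.ok p (by simp)
        refine ⟨⟨hok.1, hok.2.1⟩, fun i => ⟨?_, ?_⟩⟩
        · have := h.base p (by simp) i
          simp only; linarith
        · have := h'.base p (by simp) i
          simp only; linarith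
      · exact i2 x hx

variable [Fintype ι]

theorem gh_br_ker_sub (Φ : S → ι → ℝ) (c c' : ι → ℝ) (s t : S) :
    ghBrKer Φ (fun i => c i - c' i) s t = ghBrKer Φ c s t - ghBrKer Φ c' s t := by
  unfold ghBrKer
  rw [← Finset.sum_sub_distrib]
  exact Finset.sum_congr rfl fun i _ => by ring

omit [Fintype ι] in
theorem gh_br_gcker (Φ : S → ι → ℝ) (i : ι) (s t : S) : gcKer (ghBrFeat Φ) i s t = Φ s i * Φ t i := by
  simp [gcKer, ghBrFeat]

/-- the cumulative change of kernel telescopes -/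
theorem gh_br_aff_cum (Φ : S → ι → ℝ) (V V' : GhPos → ι → ℝ) (c c' : ι → ℝ) (ps : List GhPos) (k : ℕ) (s t : S) :
    ∃ X : ℝ, (X = ghBrKer Φ (fun i => c' i - c i) s t ∨ ∃ p ∈ ps, X = ghBrKer Φ (fun i => V' p i - V p i) s t) ∧
      ∑ j ∈ Finset.range k, gcDK (ghBrFeat Φ) (ghBrAff V V' c c' ps) j s t = X - ghBrKer Φ (fun i => c' i - c i) s t := by
  induction ps generalizing c c' k with
  | nil =>
    refine ⟨_, Or.inl rfl, ?_⟩
    simp [gcDK, ghBrAff]
  | cons p ps ih =>
    cases k with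
    | zero => exact ⟨_, Or.inl rfl, by simp⟩
    | succ k =>
      obtain ⟨X, hX, hsum⟩ := ih (V p) (V' p) k
      refine ⟨X, Or.inr ?_, ?_⟩
      · rcases hX with rfl | ⟨r, hr, rfl⟩
        · exact ⟨p, by simp, rfl⟩
        · exact ⟨r, by simp [hr], rfl⟩
      · rw [Finset.sum_range_succ']
        have h0 : gcDK (ghBrFeat Φ) (ghBrAff V V' c c' (p :: ps)) 0 s t
            = ghBrKer Φ (fun i => V' p i - V p i) s t - ghBrKer Φ (fun i => c' i - c i) s t := by
          rw [← gh_br_ker_sub]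
          simp only [gcDK, ghBrAff, List.getElem?_cons_zero, Option.map_some, Option.getD_some, gh_br_gcker, ghBrKer]
          exact Finset.sum_congr rfl fun i _ => by ring
        have h1 : ∀ j, gcDK (ghBrFeat Φ) (ghBrAff V V' c c' (p :: ps)) (j + 1) s t
            = gcDK (ghBrFeat Φ) (ghBrAff V V' (V p) (V' p) ps) j s t := by
          intro j
          simp only [gcDK, ghBrAff, List.getElem?_cons_succ]
        simp only [h1, hsum, h0]
        ring

theorem gh_br_aff_trV (Φ : S → ι → ℝ) (V V' : GhPos → ι → ℝ) (ps : List GhPos) {M : ℝ} (hM0 : 0 ≤ M)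
    (hM : ∀ p ∈ ps, ∀ s t, |ghBrKer Φ (fun i => V' p i - V p i) s t| ≤ M) (N t : ℕ) (s s' : S) :
    |trV (gcDK (ghBrFeat Φ) (ghBrAff V V' 0 0 ps)) N t s s'| ≤ M := by
  unfold trV
  obtain ⟨X, hX, hsum⟩ := gh_br_aff_cum Φ V V' 0 0 ps (min t N) s s'
  have h0 : ghBrKer Φ (fun i => (0 : ι → ℝ) i - (0 : ι → ℝ) i) s s' = 0 := by simp [ghBrKer]
  rw [hsum, h0, sub_zero]
  rcases hX with rfl | ⟨p, hp, rfl⟩
  · rw [h0]; simpa using hM0
  · exact hM p hp s s'


variable [Fintype S]

/-- **THE ENGINE** TEX[PE:lem:found-taylor] (j = 1) on value chains: two value functions on a COMMON chain, sup distance of the cumulative kernels -/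
theorem gh_br_nu_engine {B : GhB S} (hB : B.Ok) (Φ : S → ι → ℝ) {V V' : GhPos → ι → ℝ} {ps : List GhPos}
    (hV : GhBrAdm B.a V 0 ps) (hV' : GhBrAdm B.a V' 0 ps) (z : S → ℝ) {q : ℕ} {τ : ℕ → ℕ → WithTop GhPos}
    (hτ : GhIsRT B.a q τ) (P : (Fin q → S) → ℝ) {b M : ℝ} (hP : ∀ σ, |P σ| ≤ b) (hM0 : 0 ≤ M)
    (hM : ∀ p ∈ ps, ∀ s t, |ghBrKer Φ (fun i => V' p i - V p i) s t| ≤ M) :
    |ghBrNu B Φ V' z q τ P ps - ghBrNu B Φ V z q τ P ps| ≤ 2 * B.a ^ 2 * q * (q + 1) * M * b := by
  have : Inhabited S := Classical.inhabited_of_nonempty (gh_br_nonempty hB)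
  rw [gh_br_nu_tr hB Φ V' z hτ, gh_br_nu_tr hB Φ V z hτ]
  set hs := ghBrAff V V' 0 0 ps with hhs
  set P' : (ℕ → S) → ℝ := fun σ => P fun x => σ x.1 with hP'
  have hadm : GcAffAdm B.a hs := gh_br_aff_adm hV hV'
  have hτ' : IsTr hs.length q (ghDisc ps τ) := by
    rw [hhs, gh_br_aff_length]; exact gh_br_disc_isTr hτ ps
  have hU : TrUses q P' := by
    intro σ σ' h
    simp only [hP']
    congr 1
    funext x
    exact h x.1 x.2
  set f : ℝ → ℝ := fun θ => gcNu B (ghBrFeat Φ) hs θ q (ghDisc ps τ) z P' with hf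
  have f0 : f 0 = trNu B (gcLs (ghBrFeat Φ) (ghBrHs V 0 ps)) q (ghDisc ps τ) z P' := by
    simp only [hf, gcNu, hhs, gh_br_aff_zero]
  have f1 : f 1 = trNu B (gcLs (ghBrFeat Φ) (ghBrHs V' 0 ps)) q (ghDisc ps τ) z P' := by
    simp only [hf, gcNu, hhs, gh_br_aff_one]
  rw [← f0, ← f1]
  have hd : ∀ θ ∈ Set.Icc (0 : ℝ) 1, HasDerivWithinAt f (derivWithin f (Set.Icc 0 1) θ) (Set.Icc 0 1) θ := by
    intro θ hθ
    exact (tr_cov_deriv hB (ghBrFeat Φ) hadm hτ' z P' hU hθ).differentiableWithinAt.hasDerivWithinAt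
  have hb : ∀ θ ∈ Set.Icc (0 : ℝ) 1, ‖derivWithin f (Set.Icc 0 1) θ‖ ≤ 2 * B.a ^ 2 * q * (q + 1) * M * b := by
    intro θ hθ
    have h := tr_taylor hB (ghBrFeat Φ) hadm hτ' z P' hU M b
      (fun t s s' => gh_br_aff_trV Φ V V' ps hM0 hM _ t s s') (fun σ => hP _) 1 hθ
    rw [iteratedDerivWithin_one] at h
    rw [Real.norm_eq_abs]
    refine h.trans (le_of_eq ?_)
    rw [show 2 * 1 = 2 from rfl, Finset.prod_range_succ, Finset.prod_range_succ, Finset.prod_range_zero]
    push_cast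
    ring
  have := Convex.norm_image_sub_le_of_norm_hasDerivWithin_le hd hb (convex_Icc 0 1)
    (Set.left_mem_Icc.mpr zero_le_one) (Set.right_mem_Icc.mpr zero_le_one)
  simpa using this


theorem gh_br_tr_abs_le [Inhabited S] {B : GhB S} (hB : B.Ok) {κ : Type} [Fintype κ] {ls : List (GhLv S κ)} (hls : GhAdm B 0 ls) (q : ℕ)
    (τ : ℕ → ℕ → ℕ) (z : S → ℝ) (P : (ℕ → S) → ℝ) {K : ℝ} (hK : ∀ σ, |P σ| ≤ K) : |trNu B ls q τ z P| ≤ K := by
  classical
  rw [tr_nu_eq_sum hB hls]
  calc |∑ σ₀ : Fin q → S, trPr B ls q τ z σ₀ * P (trExt σ₀)|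
      ≤ ∑ σ₀ : Fin q → S, |trPr B ls q τ z σ₀ * P (trExt σ₀)| := Finset.abs_sum_le_sum_abs _ _
    _ ≤ ∑ σ₀ : Fin q → S, trPr B ls q τ z σ₀ * K := by
        refine Finset.sum_le_sum fun σ₀ _ => ?_
        rw [abs_mul, abs_of_nonneg (tr_pr_nonneg hB hls q τ z σ₀)]
        exact mul_le_mul_of_nonneg_left (hK _) (tr_pr_nonneg hB hls q τ z σ₀)
    _ = K := by rw [← Finset.sum_mul, tr_pr_sum hB hls, one_mul]

/-- the engine for the root continuation -/
theorem gh_br_F_engine {B : GhB S} (hB : B.Ok) (Φ : S → ι → ℝ) {V V' : GhPos → ι → ℝ} {ps : List GhPos}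
    (hV : GhBrAdm B.a V 0 ps) (hV' : GhBrAdm B.a V' 0 ps) (z : S → ℝ) {M : ℝ} (hM0 : 0 ≤ M)
    (hM : ∀ p ∈ ps, ∀ s t, |ghBrKer Φ (fun i => V' p i - V p i) s t| ≤ M) :
    |ghBrF B Φ V' z ps - ghBrF B Φ V z ps| ≤ B.a * M := by
  have : Inhabited S := Classical.inhabited_of_nonempty (gh_br_nonempty hB)
  rw [gh_br_F_gc hB Φ V' z, gh_br_F_gc hB Φ V z]
  set hs := ghBrAff V V' 0 0 ps with hhs
  have hadm : GcAffAdm B.a hs := gh_br_aff_adm hV hV'
  set f : ℝ → ℝ := fun θ => ghF B (gcLs (ghBrFeat Φ) (gcAff hs θ)) z with hf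
  have f0 : f 0 = ghF B (gcLs (ghBrFeat Φ) (ghBrHs V 0 ps)) z := by
    simp only [hf, hhs, gh_br_aff_zero]
  have f1 : f 1 = ghF B (gcLs (ghBrFeat Φ) (ghBrHs V' 0 ps)) z := by
    simp only [hf, hhs, gh_br_aff_one]
  rw [← f0, ← f1]
  have hd := fun θ (hθ : θ ∈ Set.Icc (0 : ℝ) 1) => tr_pressure_deriv hB (ghBrFeat Φ) hadm z hθ
  have hτ1 : IsTr hs.length 1 (fun _ _ => hs.length + 1) :=
    ⟨fun _ _ _ _ => le_rfl, fun _ _ => rfl, fun _ _ _ _ => rfl, fun _ _ _ _ _ _ => by simp⟩
  have hb : ∀ θ ∈ Set.Icc (0 : ℝ) 1, ‖1 / 2 * trSum (gcMs B.a hs) hs.length 1 (fun _ _ => hs.length + 1) fun τ₂ =>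
        gcNu B (ghBrFeat Φ) hs θ 2 τ₂ z fun σ => trV (gcDK (ghBrFeat Φ) hs) hs.length (τ₂ 0 1) (σ 0) (σ 1)‖ ≤ B.a * M := by
    intro θ hθ
    obtain ⟨g1, g2, g3⟩ := gc_adm (B := B) (ghBrFeat Φ) hadm θ
    obtain ⟨m1, m2⟩ := tr_ms_isMs hB g1
    have hms : IsMs hs.length (gcMs B.a hs) := by
      have e : trMs B (gcLs (ghBrFeat Φ) (gcAff hs θ)) = gcMs B.a hs := funext g3
      rw [e, g2] at m1
      exact m1
    have hmsN : gcMs B.a hs hs.length = B.a := by
      rw [← g3, ← g2]; exact m2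
    set Ψ : (ℕ → ℕ → ℕ) → ℝ := fun τ₂ =>
        gcNu B (ghBrFeat Φ) hs θ 2 τ₂ z fun σ => trV (gcDK (ghBrFeat Φ) hs) hs.length (τ₂ 0 1) (σ 0) (σ 1) with hΨ
    have hΨb : ∀ τ', IsTr hs.length (1 + 1) τ' → |Ψ τ'| ≤ M := by
      intro τ' _
      exact gh_br_tr_abs_le hB g1 2 τ' z _ (fun σ => gh_br_aff_trV Φ V V' ps hM0 hM _ _ _ _)
    have h1 : trSum (gcMs B.a hs) hs.length 1 (fun _ _ => hs.length + 1) Ψ
        = trSumK (gcMs B.a hs) hs.length 1 1 (fun _ _ => hs.length + 1) Ψ := by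
      simp [trSumK]
    have h2 := tr_sumK_le (N := hs.length) (q := 1) (τ := fun _ _ => hs.length + 1) (ms := gcMs B.a hs) 1 Ψ
    have h3 := tr_absK_le hτ1 hms 1 Ψ M hΨb
    rw [Real.norm_eq_abs, abs_mul, h1]
    have h4 : |trSumK (gcMs B.a hs) hs.length 1 1 (fun _ _ => hs.length + 1) Ψ| ≤ 2 * B.a * M := by
      refine (h2.trans h3).trans (le_of_eq ?_)
      rw [hmsN]
      simp
    rw [abs_of_pos (by norm_num : (0:ℝ) < 1 / 2)]
    linarith
  have := Convex.norm_image_sub_le_of_norm_hasDerivWithin_le hd hb (convex_Icc 0 1)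
    (Set.left_mem_Icc.mpr zero_le_one) (Set.right_mem_Icc.mpr zero_le_one)
  simpa using this

end

end Claimed.Agent.R286
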