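import Claimed.Agent.R286.Defs.Clk

/-!
# Row 286 (S0533), Brg/Defs : vocabulary of the BRIDGE step <-> path  (C0-C4 of the hub plan, sec. 2)      (owner helper262; names `ghKer`, `GhChOk`, `GhHasForks`, `GhOscLe`, `ghRMove`, `ghCSeg`)

* `ghKer Φ c`            the kernel `∑ i, c i Φ s i Φ t i` of the features `Φ` with the coordinate variances `c`;
* `GhChOk a ps`          a valid chain: strictly increasing valid positions;
* `GhHasForks q τ ps`    the chain contains the (finite) forks of the real tree `τ`;
* `GhOscLe a Φ v ps M`   the MODULUS of a chain: the kernel of the oscillations `ghOsc` of the coordinate clocks has diagonal `≤ M`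
                         (SK: `n (osc b / 2 + osc h) ≤ M`);
* `ghRMove τ x x'`       the real tree in which the forks at the position `x` are moved to `x'`;
* (`ghR2 p` of `Defs/Clk` = all pairs of distinct labels fork at `p`, for any number of labels);
* `ghCSeg θ v0 v1`       affine segment of coordinate clocks.
-/

set_option autoImplicit false

namespace Claimed.Agent.R286

variable {S ι : Type} [Fintype ι]

/-- the kernel of the features `Φ` with the coordinate variances `c` -/
def ghKer (Φ : S → ι → ℝ) (c : ι → ℝ) (s t : S) : ℝ := ∑ i, c i * Φ s i * Φ t i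

/-- a valid chain -/
def GhChOk (a : ℝ) (ps : List GhPos) : Prop := ps.Pairwise (· < ·) ∧ ∀ p ∈ ps, p.Ok a

/-- the chain contains the forks of the tree -/
def GhHasForks (q : ℕ) (τ : ℕ → ℕ → WithTop GhPos) (ps : List GhPos) : Prop :=
  ∀ x y, x < q → y < q → ∀ p : GhPos, τ x y = (p : WithTop GhPos) → p ∈ ps

/-- the modulus of a chain -/
def GhOscLe (a : ℝ) (Φ : S → ι → ℝ) (v : ι → ℝ → ℝ) (ps : List GhPos) (M : ℝ) : Prop :=
  ∀ s, ghKer Φ (fun i => ghOsc a (v i) 0 ps) s s ≤ M

/-- the forks at `x` are moved to `x'` -/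
noncomputable def ghRMove (τ : ℕ → ℕ → WithTop GhPos) (x x' : GhPos) : ℕ → ℕ → WithTop GhPos := fun y z =>
  if τ y z = (x : WithTop GhPos) then (x' : WithTop GhPos) else τ y z

/-- affine segment of coordinate clocks -/
def ghCSeg (θ : ℝ) (v0 v1 : ι → ℝ → ℝ) : ι → ℝ → ℝ := fun i u => (1 - θ) * v0 i u + θ * v1 i u

theorem gh_brg_eqns_cite : True := by
  have := @ghKer.eq_1
  have := @GhChOk.eq_1
  have := @GhHasForks.eq_1
  have := @GhOscLe.eq_1
  have := @ghRMove.eq_1
  have := @ghCSeg.eq_1
  trivial

end Claimed.Agent.R286
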