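import Claimed.Agent.R286.Fd.CTr
import Claimed.Agent.R286.Brg.Defs
import Claimed.Agent.R286.Brg.Osc

/-!
# Row 286 (S0533), unit BRIDGE, file Engine : THE ENGINE of all path limits      (owner helper42; prefix `brg_e_`)

Two finite hierarchies with the SAME features, the SAME masses and different coordinate variances: every tree number moves by at most
`2 a² q (q+1) M K`, `M` = sup of the difference of the cumulative kernels, `K` = sup of the test      (PE Lemma 2.9, first order = `tr_taylor`, `j = 1`).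
* `brgLs Φ hs`      the hierarchy with features `Φ` coded by the list `hs` of (mass, coordinate variances)
* `brg_e_aff`       affine family form
* `brg_e_list`      two lists
-/

set_option autoImplicit false
set_option linter.unusedSectionVars false

namespace Claimed.Agent.R286

open MeasureTheory ProbabilityTheory Set

variable {S ι : Type} [Fintype S] [Fintype ι] [Inhabited S]

/-- the hierarchy with features `Φ` coded by (mass, coordinate variances) -/
noncomputable def brgLs (Φ : S → ι → ℝ) (hs : List (ℝ × (ι → ℝ))) : List (GhLv S ι) := hs.map fun h => ghLvF Φ h.1 h.2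

/-- the features as blocks of size one -/
def brgFeat (Φ : S → ι → ℝ) : ι → S → Unit → ℝ := fun i s _ => Φ s i

theorem brg_e_eqns_cite : True := by
  have := @brgLs.eq_1
  have := @brgFeat.eq_1
  trivial

theorem brg_e_cov (Φ : S → ι → ℝ) (m : ℝ) (v : ι → ℝ) (s t : S) :
    (ghLvF Φ m v).cov s t = (gcLv (brgFeat Φ) m v).cov s t := by
  unfold GhLv.cov ghLvF gcLv brgFeat
  rw [Fintype.sum_prod_type]
  simp

/-- the two codings give the same tree numbers -/
theorem brg_e_nu_gc {B : GhB S} (hB : B.Ok) (Φ : S → ι → ℝ) (hs : List (ℝ × (ι → ℝ))) (q : ℕ) (τ : ℕ → ℕ → ℕ) (z : S → ℝ)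
    (P : (ℕ → S) → ℝ) : trNu B (brgLs Φ hs) q τ z P = trNu B (gcLs (brgFeat Φ) hs) q τ z P := by
  apply tr_nu_cov_congr hB
  · simp [brgLs, gcLs]
  · intro j
    unfold trMs brgLs gcLs
    simp only [List.getElem?_map, Option.map_map]
    rfl
  · intro j h h' s t
    simp only [brgLs, gcLs, List.getElem_map]
    exact brg_e_cov Φ _ _ s t

/-- ENGINE, affine family form -/
theorem brg_e_aff {B : GhB S} (hB : B.Ok) (Φ : S → ι → ℝ) {H : List (ℝ × (ι → ℝ) × (ι → ℝ))} (hH : GcAffAdm B.a H)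
    {q : ℕ} {τ : ℕ → ℕ → ℕ} (hτ : IsTr H.length q τ) (z : S → ℝ) (P : (ℕ → S) → ℝ) (hP : TrUses q P) (M K : ℝ)
    (hM : ∀ t s s', |trV (gcDK (brgFeat Φ) H) H.length t s s'| ≤ M) (hK : ∀ σ, |P σ| ≤ K) :
    |trNu B (brgLs Φ (gcAff H 1)) q τ z P - trNu B (brgLs Φ (gcAff H 0)) q τ z P|
      ≤ 2 * B.a ^ 2 * q * (q + 1) * M * K := by
  rw [brg_e_nu_gc hB, brg_e_nu_gc hB]
  have hd : ∀ θ ∈ Icc (0 : ℝ) 1, HasDerivWithinAt (fun θ => gcNu B (brgFeat Φ) H θ q τ z P)
      (derivWithin (fun θ => gcNu B (brgFeat Φ) H θ q τ z P) (Icc 0 1) θ) (Icc 0 1) θ := by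
    intro θ hθ
    exact (tr_cov_deriv hB (brgFeat Φ) hH hτ z P hP hθ).differentiableWithinAt.hasDerivWithinAt
  have hb : ∀ θ ∈ Icc (0 : ℝ) 1, ‖derivWithin (fun θ => gcNu B (brgFeat Φ) H θ q τ z P) (Icc 0 1) θ‖
      ≤ 2 * B.a ^ 2 * q * (q + 1) * M * K := by
    intro θ hθ
    have h1 := tr_taylor hB (brgFeat Φ) hH hτ z P hP M K hM hK 1 hθ
    rw [iteratedDerivWithin_one] at h1
    rw [Real.norm_eq_abs]
    refine h1.trans (le_of_eq ?_)
    have h2 : ∏ i ∈ Finset.range (2 * 1), ((q : ℝ) + (i : ℝ)) = q * (q + 1) := by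
      norm_num [Finset.prod_range_succ]
    rw [h2]
    ring
  have h := (convex_Icc (0 : ℝ) 1).norm_image_sub_le_of_norm_hasDerivWithin_le hd hb
    (left_mem_Icc.2 zero_le_one) (right_mem_Icc.2 zero_le_one)
  simpa [gcNu, Real.norm_eq_abs] using h

/-! ### two families of clocks on one chain -/

/-- the affine family between the chains of the clocks `v` and `v'` on the positions `ps`; `c`, `c'` = already revealed -/
noncomputable def brgH (a : ℝ) (v v' : ι → ℝ → ℝ) : (ι → ℝ) → (ι → ℝ) → List GhPos → List (ℝ × (ι → ℝ) × (ι → ℝ))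
  | _, _, [] => []
  | c, c', p :: ps => (p.u, (fun i => ghClkAt a v p i - c i), fun i => (ghClkAt a v' p i - c' i) - (ghClkAt a v p i - c i)) ::
      brgH a v v' (ghClkAt a v p) (ghClkAt a v' p) ps

theorem brg_e_eqns_cite2 : True := by
  have := @brgH.eq_1
  have := @brgH.eq_2
  have := @brgH.eq_def
  have := @brgH.induct
  trivial

theorem brg_e_H_length (a : ℝ) (v v' : ι → ℝ → ℝ) (ps : List GhPos) : ∀ c c' : ι → ℝ, (brgH a v v' c c' ps).length = ps.length := by
  induction ps with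
  | nil => intro c c'; rfl
  | cons p ps ih => intro c c'; simp [brgH, ih]

theorem brg_e_H_zero (Φ : S → ι → ℝ) (a : ℝ) (v v' : ι → ℝ → ℝ) (ps : List GhPos) :
    ∀ c c' : ι → ℝ, brgLs Φ (gcAff (brgH a v v' c c' ps) 0) = ghChain Φ a v c ps := by
  induction ps with
  | nil => intro c c'; rfl
  | cons p ps ih =>
    intro c c'
    have := ih (ghClkAt a v p) (ghClkAt a v' p)
    simp only [brgLs, gcAff, brgH, ghChain, List.map_cons] at this ⊢
    rw [this]
    simp

theorem brg_e_H_one (Φ : S → ι → ℝ) (a : ℝ) (v v' : ι → ℝ → ℝ) (ps : List GhPos) :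
    ∀ c c' : ι → ℝ, brgLs Φ (gcAff (brgH a v v' c c' ps) 1) = ghChain Φ a v' c' ps := by
  induction ps with
  | nil => intro c c'; rfl
  | cons p ps ih =>
    intro c c'
    have := ih (ghClkAt a v p) (ghClkAt a v' p)
    simp only [brgLs, gcAff, brgH, ghChain, List.map_cons] at this ⊢
    rw [this]
    simp

theorem brg_e_DK_zero (Φ : S → ι → ℝ) (h : ℝ × (ι → ℝ) × (ι → ℝ)) (H : List (ℝ × (ι → ℝ) × (ι → ℝ))) (s t : S) :
    gcDK (brgFeat Φ) (h :: H) 0 s t = ghKer Φ h.2.2 s t := by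
  unfold gcDK ghKer gcKer brgFeat
  simp [mul_assoc]

theorem brg_e_DK_succ (Φ : S → ι → ℝ) (h : ℝ × (ι → ℝ) × (ι → ℝ)) (H : List (ℝ × (ι → ℝ) × (ι → ℝ))) (j : ℕ) (s t : S) :
    gcDK (brgFeat Φ) (h :: H) (j + 1) s t = gcDK (brgFeat Φ) H j s t := by
  unfold gcDK
  simp

theorem brg_e_ker_add (Φ : S → ι → ℝ) (c c' : ι → ℝ) (s t : S) :
    ghKer Φ c s t + ghKer Φ c' s t = ghKer Φ (fun i => c i + c' i) s t := by
  unfold ghKer
  rw [← Finset.sum_add_distrib]
  exact Finset.sum_congr rfl fun i _ => by ring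

/-- the cumulative change of kernel along the chain is the change of kernel of the clocks at the positions -/
theorem brg_e_trV (Φ : S → ι → ℝ) (a : ℝ) (v v' : ι → ℝ → ℝ) (M : ℝ) (s s' : S) (ps : List GhPos) :
    ∀ (c c' : ι → ℝ), |ghKer Φ (fun i => c' i - c i) s s'| ≤ M →
      (∀ p ∈ ps, |ghKer Φ (fun i => ghClkAt a v' p i - ghClkAt a v p i) s s'| ≤ M) →
      ∀ t, |trV (gcDK (brgFeat Φ) (brgH a v v' c c' ps)) ps.length t s s' + ghKer Φ (fun i => c' i - c i) s s'| ≤ M := by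
  induction ps with
  | nil =>
    intro c c' h0 _ t
    simpa [trV] using h0
  | cons p ps ih =>
    intro c c' h0 hp t
    cases t with
    | zero => simpa [trV] using h0
    | succ t =>
      have h1 := ih (ghClkAt a v p) (ghClkAt a v' p) (hp p (List.mem_cons_self)) (fun r hr => hp r (List.mem_cons_of_mem _ hr)) t
      have h2 : trV (gcDK (brgFeat Φ) (brgH a v v' c c' (p :: ps))) (p :: ps).length (t + 1) s s' + ghKer Φ (fun i => c' i - c i) s s'
          = trV (gcDK (brgFeat Φ) (brgH a v v' (ghClkAt a v p) (ghClkAt a v' p) ps)) ps.length t s s'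
            + ghKer Φ (fun i => ghClkAt a v' p i - ghClkAt a v p i) s s' := by
        unfold trV
        rw [List.length_cons, Nat.add_min_add_right, Finset.sum_range_succ']
        simp only [brgH, brg_e_DK_zero, brg_e_DK_succ]
        rw [add_assoc, brg_e_ker_add]
        congr 2
        funext i
        ring
      rw [h2]
      exact h1

theorem brg_e_H_adm {a : ℝ} (ha : 0 ≤ a) {v v' : ι → ℝ → ℝ} (hv : GhClk a v) (hv' : GhClk a v') (ps : List GhPos) :
    ∀ (c c' : ι → ℝ), ps.Pairwise (· < ·) → (∀ p ∈ ps, p.Ok a) →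
      (∀ p ∈ ps, ∀ i, c i ≤ ghClkAt a v p i ∧ c' i ≤ ghClkAt a v' p i) → GcAffAdm a (brgH a v v' c c' ps) ∧
        ∀ h ∈ brgH a v v' c c' ps, ∃ p ∈ ps, h.1 = p.u := by
  induction ps with
  | nil =>
    intro c c' _ _ _
    exact ⟨⟨List.Pairwise.nil, fun h hh => absurd hh List.not_mem_nil⟩, fun h hh => absurd hh List.not_mem_nil⟩
  | cons p ps ih =>
    intro c c' hs hok hc
    have hs' := List.pairwise_cons.1 hs
    have hmono : ∀ r ∈ ps, ∀ i, ghClkAt a v p i ≤ ghClkAt a v r i ∧ ghClkAt a v' p i ≤ ghClkAt a v' r i := by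
      intro r hr i
      have hpr : p ≤ r := (hs'.1 r hr).le
      have hp := hok p List.mem_cons_self
      have hr' := hok r (List.mem_cons_of_mem _ hr)
      exact ⟨gh_os_at_mono ha (hv i) hp.2.2.2 hr'.2.2.1 hpr, gh_os_at_mono ha (hv' i) hp.2.2.2 hr'.2.2.1 hpr⟩
    obtain ⟨⟨i1, i2⟩, i3⟩ := ih (ghClkAt a v p) (ghClkAt a v' p) hs'.2 (fun r hr => hok r (List.mem_cons_of_mem _ hr)) hmono
    refine ⟨⟨?_, ?_⟩, ?_⟩
    · simp only [brgH, List.map_cons, List.pairwise_cons]
      refine ⟨?_, i1⟩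
      intro m hm
      obtain ⟨h, hh, rfl⟩ := List.mem_map.1 hm
      obtain ⟨r, hr, hr'⟩ := i3 h hh
      rw [hr']
      rcases (gh_os_pos_lt_iff p r).1 (hs'.1 r hr) with h | h
      · exact h.le
      · exact h.1.le
    · intro h hh
      simp only [brgH, List.mem_cons] at hh
      rcases hh with rfl | hh
      · have hp := hok p List.mem_cons_self
        refine ⟨⟨hp.1, hp.2.1⟩, fun i => ?_⟩
        have := hc p List.mem_cons_self i
        constructor
        · simp only; linarith [this.1]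
        · simp only; linarith [this.2]
      · exact i2 h hh
    · intro h hh
      simp only [brgH, List.mem_cons] at hh
      rcases hh with rfl | hh
      · exact ⟨p, List.mem_cons_self, rfl⟩
      · obtain ⟨r, hr, hr'⟩ := i3 h hh
        exact ⟨r, List.mem_cons_of_mem _ hr, hr'⟩

/-- **ENGINE, chain form**: two families of clocks revealed on ONE chain -/
theorem brg_e_chain {B : GhB S} (hB : B.Ok) (Φ : S → ι → ℝ) {v v' : ι → ℝ → ℝ} (hv : GhClk B.a v) (hv' : GhClk B.a v')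
    {ps : List GhPos} (hps : GhChOk B.a ps) {q : ℕ} {τ : ℕ → ℕ → ℕ} (hτ : IsTr ps.length q τ) (z : S → ℝ) (P : (ℕ → S) → ℝ)
    (hP : TrUses q P) (M K : ℝ) (hM0 : 0 ≤ M)
    (hM : ∀ p ∈ ps, ∀ s s', |ghKer Φ (fun i => ghClkAt B.a v' p i - ghClkAt B.a v p i) s s'| ≤ M) (hK : ∀ σ, |P σ| ≤ K) :
    |trNu B (ghChain Φ B.a v' 0 ps) q τ z P - trNu B (ghChain Φ B.a v 0 ps) q τ z P|
      ≤ 2 * B.a ^ 2 * q * (q + 1) * M * K := by
  have ha : 0 ≤ B.a := hB.pos.le
  have hadm := (brg_e_H_adm ha hv hv' ps 0 0 hps.1 hps.2 (fun p hp i =>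
    ⟨gh_os_at_nonneg ha (hv i) (hps.2 p hp).2.2.1, gh_os_at_nonneg ha (hv' i) (hps.2 p hp).2.2.1⟩)).1
  have hlen := brg_e_H_length B.a v v' ps 0 0
  have hker0 : ∀ s s', ghKer Φ (fun i => (0 : ι → ℝ) i - (0 : ι → ℝ) i) s s' = 0 := by
    intro s s'; simp [ghKer]
  have h := brg_e_aff hB Φ hadm (τ := τ) (q := q) (by rw [hlen]; exact hτ) z P hP M K (by
    intro t s s'
    have h1 := brg_e_trV Φ B.a v v' M s s' ps 0 0 (by rw [hker0]; simpa using hM0) (fun p hp => hM p hp s s') t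
    rw [hker0, add_zero] at h1
    rw [hlen]
    exact h1) hK
  rw [brg_e_H_zero, brg_e_H_one] at h
  exact h

end Claimed.Agent.R286
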