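import Claimed.Agent.R286.Defs.Clk

/-!
# Row 286 (S0533), unit BRIDGE / LAYER C, block C3 (pressure of a path along a segment of clocks): DEFINITIONS      (owner helper132; prefix `brg`)

No sorry.      Vocabulary = `Defs/Clk.lean`.      GENERIC (any base `B`, any features `Φ`, any source `z`); the SK forms are corollaries (`Brg/PrSk.lean`).

* `brgKer Φ c s t = ∑ i, c i * Φ s i * Φ t i`   kernel of the features with the coordinate variances `c`
* `brgSeg θ v0 v1`                              affine segment of families of clocks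
* `brgCum a v ps j`                             the clocks revealed by the first `j` positions of the chain `ps` (`0` if `j = 0`; all of them if `j ≥ length`)
* `brgMs a ps j`, `brgGap a ps j`               mass of the revelation number `j` (`a` = terminal draw); length in mass of the CUT `j` (after `j` revelations)
* `brgT2 N j`, `brgNu2 B ls z j P`              two labels which share exactly `j` revelations
* `brgDF B Φ v0 v1 z ps θ`                      derivative of the continuation of the CHAIN `ps` along the segment (first line of PE (1) / LL (A1), finite form)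
* `brgDPr B Φ v0 v1 z θ`                        derivative of `ghCPress` along the segment (path form: `du`-integral of two-label numbers)
* `BrgFine a Φ v ps M`                          the chain `ps` is `M`-fine for the clocks `v`: `∑ i, ghOsc a (v i) 0 ps * Φ s i ^ 2 ≤ M` for all `s`
* `BrgFk a q τ F`                               the forks of `τ` are compatible with `F`: a fork is in `F`, or it is not inside the jump of a later position of `F`
-/

set_option autoImplicit false

namespace Claimed.Agent.R286

open MeasureTheory Filter Topology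

noncomputable section

variable {S ι : Type}

/-- kernel of the features `Φ` with the coordinate variances `c` -/
def brgKer [Fintype ι] (Φ : S → ι → ℝ) (c : ι → ℝ) (s t : S) : ℝ := ∑ i, c i * Φ s i * Φ t i

/-- affine segment of families of clocks -/
def brgSeg (θ : ℝ) (v0 v1 : ι → ℝ → ℝ) : ι → ℝ → ℝ := fun i u => (1 - θ) * v0 i u + θ * v1 i u

/-- the clocks revealed by the first `j` positions of the chain -/
def brgCum (a : ℝ) (v : ι → ℝ → ℝ) (ps : List GhPos) (j : ℕ) : ι → ℝ :=
  fun i => ((ps.take j).getLast?.map fun p => ghAt a (v i) p).getD 0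

/-- mass of the revelation number `j` of the chain (`a` for the terminal draw) -/
def brgMs (a : ℝ) (ps : List GhPos) (j : ℕ) : ℝ := (ps[j]?.map GhPos.u).getD a

/-- length in mass of the cut `j` (= after `j` revelations) -/
def brgGap (a : ℝ) (ps : List GhPos) (j : ℕ) : ℝ := brgMs a ps j - if j = 0 then 0 else brgMs a ps (j - 1)

/-- table of two labels which share exactly `j` revelations (over `N` levels) -/
def brgT2 (N j : ℕ) : ℕ → ℕ → ℕ := fun x y => if x = y then N + 1 else j

/-- the chain `ps` is `M`-fine for the clocks `v` of the features `Φ` -/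
def BrgFine [Fintype ι] (a : ℝ) (Φ : S → ι → ℝ) (v : ι → ℝ → ℝ) (ps : List GhPos) (M : ℝ) : Prop :=
  ∀ s, ∑ i, ghOsc a (v i) 0 ps * Φ s i ^ 2 ≤ M

/-- the forks of the real tree `τ` are compatible with the finite set `F`: each fork belongs to `F`, or no later valid position of `F` has the same mass
(a fork INSIDE a jump must be a position of the chain; a fork at `(u,1)` with `u` different from all the masses of `F` is always compatible) -/
def BrgFk (a : ℝ) (q : ℕ) (τ : ℕ → ℕ → WithTop GhPos) (F : Finset GhPos) : Prop :=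
  ∀ x y, x < q → y < q → ∀ f : GhPos, τ x y = (f : WithTop GhPos) → f ∈ F ∨ ∀ p ∈ F, p.Ok a → f < p → f.u < p.u

variable [Fintype S] [Fintype ι]

/-- two labels which share exactly `j` revelations of the hierarchy `ls` -/
def brgNu2 (B : GhB S) (ls : List (GhLv S ι)) (z : S → ℝ) (j : ℕ) (P : (Fin 2 → S) → ℝ) : ℝ :=
  ghNu B ls (ghRepN 2 (brgT2 ls.length j)) (fun _ => z) fun _ σ => P σ

/-- FINITE FORM: derivative in `θ` of `ghF B (ghChain Φ B.a (brgSeg θ v0 v1) 0 ps) z` -/
def brgDF (B : GhB S) (Φ : S → ι → ℝ) (v0 v1 : ι → ℝ → ℝ) (z : S → ℝ) (ps : List GhPos) (θ : ℝ) : ℝ :=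
  B.a / 2 * ghCNuF B Φ (brgSeg θ v0 v1) z 1 (fun _ _ => ⊤)
      (fun σ => brgKer Φ (fun i => brgCum B.a v1 ps ps.length i - brgCum B.a v0 ps ps.length i) (σ 0) (σ 0)) ps
    - 1 / 2 * ∑ j ∈ Finset.range (ps.length + 1), brgGap B.a ps j *
        brgNu2 B (ghChain Φ B.a (brgSeg θ v0 v1) 0 ps) z j
          fun σ => brgKer Φ (fun i => brgCum B.a v1 ps j i - brgCum B.a v0 ps j i) (σ 0) (σ 1)

/-- PATH FORM: derivative in `θ` of `ghCPress B Φ (brgSeg θ v0 v1) z` -/
def brgDPr (B : GhB S) (Φ : S → ι → ℝ) (v0 v1 : ι → ℝ → ℝ) (z : S → ℝ) (θ : ℝ) : ℝ :=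
  B.a / 2 * ghCNu B Φ (brgSeg θ v0 v1) z 1 (fun _ _ => ⊤)
      (fun σ => brgKer Φ (fun i => ghAt B.a (v1 i) (ghPosA B.a) - ghAt B.a (v0 i) (ghPosA B.a)) (σ 0) (σ 0))
    - 1 / 2 * ∫ u in (0 : ℝ)..B.a, ghCNu B Φ (brgSeg θ v0 v1) z 2 (ghR2 (ghPosA u))
        fun σ => brgKer Φ (fun i => ghAt B.a (v1 i) (ghPosA u) - ghAt B.a (v0 i) (ghPosA u)) (σ 0) (σ 1)

theorem brg_pr_eqns_cite : True := by
  have := @brgKer.eq_1
  have := @brgSeg.eq_1
  have := @brgCum.eq_1
  have := @brgMs.eq_1
  have := @brgGap.eq_1
  have := @brgT2.eq_1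
  have := @BrgFine.eq_1
  have := @BrgFk.eq_1
  have := @brgNu2.eq_1
  have := @brgDF.eq_1
  have := @brgDPr.eq_1
  trivial

end

end Claimed.Agent.R286
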