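import Claimed.Agent.R286.Defs.Clk
import Claimed.Agent.R286.Gk.Split

/-!
# Row 286 (S0533), unit BRIDGE, file Rem : REMOVAL OF ONE POSITION FROM A CHAIN      (helper55; prefix `gh_rm_`, defs `ghSkip`, `ghChV`, `ghEndV`)

Chains with ARBITRARY values `V : GhPos → ι → ℝ` (`ghChV Φ V c ps`; `ghChain Φ a v = ghChV Φ (ghClkAt a v)`).
For a strictly sorted list `pre ++ r :: post` the numbers of the chain do not change when the position `r` is removed, if

* (i)  EMPTY: `V r` = the value before `r` (any tree), or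
* (ii) MERGE: the next position `p` has the same mass as `r`, the values are monotone, and no fork lies in `[r, p)`.

Numbers: `ghF` (pressure) and `ghNu` of spin tests with the table `ghRepN q (ghDisc · τ)`.

Use 1 (step clocks are reached exactly): `Brg/StepNu.lean`.
Use 2 (refinement comparison `F0 ⊆ F`): Taylor bound between `V` and `V' r := V (last F0-position ≤ r)` if `r.u <` mass of the next F0-position, `V r` otherwise;
then the positions of `F \ F0` are removed one by one from the chain of `V'`.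
-/

set_option autoImplicit false
set_option linter.unusedSectionVars false

namespace Claimed.Agent.R286

open MeasureTheory ProbabilityTheory

/-! ### sequences with one index deleted -/

/-- delete the index `k` of a sequence -/
def ghSkip {α : Type} (k : ℕ) (f : ℕ → α) : ℕ → α := fun t => if t < k then f t else f (t + 1)

theorem gh_rm_skip_zero {α : Type} (f : ℕ → α) : ghSkip 0 f = fun t => f (t + 1) := by
  funext t; simp [ghSkip]

theorem gh_rm_skip_succ_zero {α : Type} (k : ℕ) (f : ℕ → α) : ghSkip (k + 1) f 0 = f 0 := by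
  simp [ghSkip]

theorem gh_rm_skip_succ {α : Type} (k : ℕ) (f : ℕ → α) :
    (fun t => ghSkip (k + 1) f (t + 1)) = ghSkip k fun t => f (t + 1) := by
  funext t; simp [ghSkip]

/-! ### chains with arbitrary values -/

variable {S ι : Type}

/-- the finite hierarchy which reveals the values `V` at the positions of the list; `c` = already revealed -/
noncomputable def ghChV (Φ : S → ι → ℝ) (V : GhPos → ι → ℝ) : (ι → ℝ) → List GhPos → List (GhLv S ι)
  | _, [] => []
  | c, p :: ps => ghLvF Φ p.u (fun i => V p i - c i) :: ghChV Φ V (V p) ps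

/-- the value revealed at the end of the list -/
def ghEndV (V : GhPos → ι → ℝ) : (ι → ℝ) → List GhPos → ι → ℝ
  | c, [] => c
  | _, p :: ps => ghEndV V (V p) ps

theorem gh_rm_eqns_cite : True := by
  have := @ghSkip.eq_1
  have := @ghChV.eq_1
  have := @ghChV.eq_2
  have := @ghChV.eq_def
  have := @ghChV.induct
  have := @ghEndV.eq_1
  have := @ghEndV.eq_2
  have := @ghEndV.eq_def
  have := @ghEndV.induct
  trivial

theorem gh_rm_chain_eq (Φ : S → ι → ℝ) (a : ℝ) (v : ι → ℝ → ℝ) (c : ι → ℝ) (ps : List GhPos) :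
    ghChain Φ a v c ps = ghChV Φ (ghClkAt a v) c ps := by
  induction ps generalizing c with
  | nil => rfl
  | cons p ps ih => simp only [ghChain, ghChV, ih]

theorem gh_rm_chV_length (Φ : S → ι → ℝ) (V : GhPos → ι → ℝ) (c : ι → ℝ) (ps : List GhPos) :
    (ghChV Φ V c ps).length = ps.length := by
  induction ps generalizing c with
  | nil => rfl
  | cons p ps ih => simp only [ghChV, List.length_cons, ih]

theorem gh_rm_chV_append (Φ : S → ι → ℝ) (V : GhPos → ι → ℝ) (c : ι → ℝ) (ps qs : List GhPos) :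
    ghChV Φ V c (ps ++ qs) = ghChV Φ V c ps ++ ghChV Φ V (ghEndV V c ps) qs := by
  induction ps generalizing c with
  | nil => rfl
  | cons p ps ih => simp only [List.cons_append, ghChV, ghEndV, ih]

/-- the chain depends on the values at its positions only -/
theorem gh_rm_chV_congr (Φ : S → ι → ℝ) {V V' : GhPos → ι → ℝ} (c : ι → ℝ) {ps : List GhPos}
    (h : ∀ p ∈ ps, V p = V' p) : ghChV Φ V c ps = ghChV Φ V' c ps := by
  induction ps generalizing c with
  | nil => rfl
  | cons p ps ih =>
    simp only [ghChV]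
    rw [h p List.mem_cons_self, ih _ fun x hx => h x (List.mem_cons_of_mem _ hx)]

theorem gh_rm_endV_mem (V : GhPos → ι → ℝ) (c : ι → ℝ) (ps : List GhPos) :
    ghEndV V c ps = c ∧ ps = [] ∨ ∃ p ∈ ps, ghEndV V c ps = V p ∧ ∀ x ∈ ps, ps.Pairwise (· < ·) → x ≤ p := by
  induction ps generalizing c with
  | nil => exact Or.inl ⟨rfl, rfl⟩
  | cons p ps ih =>
    right
    rcases ih (V p) with ⟨h1, h2⟩ | ⟨x, hx, h1, h2⟩
    · refine ⟨p, List.mem_cons_self, by simp only [ghEndV, h1], ?_⟩
      intro y hy _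
      subst h2
      simp only [List.mem_cons, List.not_mem_nil, or_false] at hy
      exact hy.le
    · refine ⟨x, List.mem_cons_of_mem _ hx, by simp only [ghEndV, h1], ?_⟩
      intro y hy hs
      rw [List.pairwise_cons] at hs
      rcases List.mem_cons.1 hy with rfl | hy
      · exact (hs.1 x hx).le
      · exact h2 y hy hs.2

/-! ### covariance of the feature levels -/

variable [Fintype S] [Fintype ι]

theorem gh_rm_lvF_cov (Φ : S → ι → ℝ) (m : ℝ) {dv : ι → ℝ} (h : ∀ i, 0 ≤ dv i) (s t : S) :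
    (ghLvF Φ m dv).cov s t = ∑ i, dv i * (Φ s i * Φ t i) := by
  unfold GhLv.cov ghLvF
  refine Finset.sum_congr rfl fun i _ => ?_
  have := Real.mul_self_sqrt (h i)
  calc Real.sqrt (dv i) * Φ s i * (Real.sqrt (dv i) * Φ t i)
      = (Real.sqrt (dv i) * Real.sqrt (dv i)) * (Φ s i * Φ t i) := by ring
    _ = _ := by rw [this]

theorem gh_rm_lvF_zero (Φ : S → ι → ℝ) (m : ℝ) {dv : ι → ℝ} (h : ∀ i, dv i = 0) (s : S) (i : ι) :
    (ghLvF Φ m dv).A s i = 0 := by
  simp [ghLvF, h i]

theorem gh_rm_lvF_cov_add (Φ : S → ι → ℝ) (m m₁ m₂ : ℝ) {c x y : ι → ℝ} (h1 : ∀ i, c i ≤ x i) (h2 : ∀ i, x i ≤ y i)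
    (s t : S) :
    (ghLvF Φ m fun i => y i - c i).cov s t
      = (ghLvF Φ m₁ fun i => x i - c i).cov s t + (ghLvF Φ m₂ fun i => y i - x i).cov s t := by
  rw [gh_rm_lvF_cov Φ m (fun i => by linarith [h1 i, h2 i]), gh_rm_lvF_cov Φ m₁ (fun i => by linarith [h1 i]),
    gh_rm_lvF_cov Φ m₂ (fun i => by linarith [h2 i]), ← Finset.sum_add_distrib]
  exact Finset.sum_congr rfl fun i _ => by ring

/-! ### the pressure -/

/-- (i) removal of an empty position -/
theorem gh_rm_F_empty (B : GhB S) (Φ : S → ι → ℝ) (V : GhPos → ι → ℝ) (c : ι → ℝ) (pre post : List GhPos) (r : GhPos)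
    (h : V r = ghEndV V c pre) :
    ghF B (ghChV Φ V c (pre ++ r :: post)) = ghF B (ghChV Φ V c (pre ++ post)) := by
  rw [gh_rm_chV_append, gh_rm_chV_append]
  simp only [ghChV]
  rw [h]
  refine ghs_F_empty_deep B _ _ _ fun s => ?_
  unfold GhLv.cov
  exact Finset.sum_eq_zero fun i _ => by rw [gh_rm_lvF_zero Φ _ (fun i => sub_self _)]; ring

/-- (ii) removal of a position which has the mass of the next one -/
theorem gh_rm_F_merge {B : GhB S} (hB : B.Ok) (Φ : S → ι → ℝ) (V : GhPos → ι → ℝ) (c : ι → ℝ) (pre post : List GhPos)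
    (r p : GhPos) (hu : r.u = p.u) (h1 : ∀ i, ghEndV V c pre i ≤ V r i) (h2 : ∀ i, V r i ≤ V p i) :
    ghF B (ghChV Φ V c (pre ++ r :: p :: post)) = ghF B (ghChV Φ V c (pre ++ p :: post)) := by
  rw [gh_rm_chV_append, gh_rm_chV_append]
  simp only [ghChV]
  exact ghs_F_merge_deep hB _ _ _ _ _ hu rfl (gh_rm_lvF_cov_add Φ _ _ _ h1 h2)

/-! ### raw tree law: what happens behind a prefix -/

theorem gh_rm_D_congr (B : GhB S) (p : GhLv S ι) {X Y : List (GhLv S ι)} (h : ghF B X = ghF B Y) :
    ghD B p X = ghD B p Y := by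
  funext z ξ
  simp only [ghD, ghF, h]

theorem gh_rm_DT_congr (B : GhB S) {q : ℕ} (p : GhLv S ι) {X Y : List (GhLv S ι)} (h : ghF B X = ghF B Y) :
    ghDT B (q := q) p X = ghDT B p Y := by
  funext r G W
  simp only [ghDT, gh_rm_D_congr B p h]

/-- a replacement `X → Y` of the tail which deletes the first index of the table, behind a prefix -/
theorem gh_rm_nu_deep (B : GhB S) {q : ℕ} (P : (Fin q → S) → ℝ) {X Y : List (GhLv S ι)} (hF : ghF B X = ghF B Y)
    (C : (ℕ → Fin q → Fin q) → Prop)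
    (hb : ∀ rep G, C rep → ghNu B X rep G (fun _ σ => P σ) = ghNu B Y (ghSkip 0 rep) G fun _ σ => P σ) :
    ∀ (pre : List (GhLv S ι)) (rep : ℕ → Fin q → Fin q) (G : Fin q → S → ℝ), C (fun t => rep (t + pre.length)) →
      ghNu B (pre ++ X) rep G (fun _ σ => P σ) = ghNu B (pre ++ Y) (ghSkip pre.length rep) G fun _ σ => P σ
  | [], rep, G, h => hb rep G h
  | p :: pre, rep, G, h => by
      simp only [List.cons_append, ghNu, List.length_cons]
      rw [gh_rm_DT_congr B p (ghs_F_append_congr B pre hF), gh_rm_skip_succ_zero, gh_rm_skip_succ]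
      refine integral_congr_ae (Filter.Eventually.of_forall fun W => ?_)
      simp only
      rw [gh_rm_nu_deep B P hF C hb pre (fun t => rep (t + 1)) _ h]

/-- the tree law uses the table up to the index `length` only -/
theorem gh_rm_nu_rep_congr (B : GhB S) {q : ℕ} (P : (Fin q → S) → ℝ) :
    ∀ (ls : List (GhLv S ι)) (rep rep' : ℕ → Fin q → Fin q) (G : Fin q → S → ℝ), (∀ t, t ≤ ls.length → rep t = rep' t) →
      ghNu B ls rep G (fun _ σ => P σ) = ghNu B ls rep' G fun _ σ => P σ
  | [], rep, rep', G, h => by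
      simp only [ghNu]
      rw [h 0 le_rfl]
  | l :: ls, rep, rep', G, h => by
      simp only [ghNu]
      rw [h 0 (Nat.zero_le _)]
      refine integral_congr_ae (Filter.Eventually.of_forall fun W => ?_)
      simp only
      rw [gh_rm_nu_rep_congr B P ls (fun t => rep (t + 1)) (fun t => rep' (t + 1)) _
        fun t ht => h (t + 1) (by simpa using ht)]

/-! ### raw tree law: an empty level -/

theorem gh_rm_nu_empty0 (B : GhB S) {q : ℕ} (P : (Fin q → S) → ℝ) (l : GhLv S ι) (hl : ∀ s i, l.A s i = 0)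
    (ls : List (GhLv S ι)) (rep : ℕ → Fin q → Fin q) (G : Fin q → S → ℝ) :
    ghNu B (l :: ls) rep G (fun _ σ => P σ) = ghNu B ls (ghSkip 0 rep) G fun _ σ => P σ := by
  have hinc : ∀ ξ, l.inc ξ = 0 := by
    intro ξ; funext s; simp [GhLv.inc, hl]
  have hF : ghF B (l :: ls) = ghF B ls :=
    ghs_F_empty B l ls fun s => by simp [GhLv.cov, hl]
  have hD : ∀ z ξ, ghD B l ls z ξ = 1 := by
    intro z ξ
    simp [ghD, hF, hinc]
  simp only [ghNu, ghDT, hD, hinc, add_zero, ite_self, Finset.prod_const_one, one_mul, gh_rm_skip_zero]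
  simp

/-- **an empty level may be deleted, for ANY table** -/
theorem gh_rm_nu_empty (B : GhB S) {q : ℕ} (P : (Fin q → S) → ℝ) (l : GhLv S ι) (hl : ∀ s i, l.A s i = 0)
    (pre ls : List (GhLv S ι)) (rep : ℕ → Fin q → Fin q) (G : Fin q → S → ℝ) :
    ghNu B (pre ++ l :: ls) rep G (fun _ σ => P σ) = ghNu B (pre ++ ls) (ghSkip pre.length rep) G fun _ σ => P σ :=
  gh_rm_nu_deep B P (ghs_F_empty B l ls fun s => by simp [GhLv.cov, hl]) (fun _ => True)
    (fun rep G _ => gh_rm_nu_empty0 B P l hl ls rep G) pre rep G trivial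

/-! ### raw tree law: measurability in the revealed fields -/

theorem gh_rm_D_meas {B : GhB S} (hB : B.Ok) (l : GhLv S ι) (ls : List (GhLv S ι)) :
    Measurable fun p : (S → ℝ) × (ι → ℝ) => ghD B l ls p.1 p.2 := by
  unfold ghD
  have h1 := ghs_F_measurable hB ls
  have h2 := ghs_F_measurable hB (l :: ls)
  have h3 := ghs_measurable_inc l
  exact Real.measurable_exp.comp (measurable_const.mul
    ((h1.comp (measurable_fst.add (h3.comp measurable_snd))).sub (h2.comp measurable_fst)))

theorem gh_rm_DT_meas {B : GhB S} (hB : B.Ok) {q : ℕ} (l : GhLv S ι) (ls : List (GhLv S ι)) (r : Fin q → Fin q) :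
    Measurable fun p : (Fin q → S → ℝ) × (Fin q → ι → ℝ) => ghDT B l ls r p.1 p.2 := by
  unfold ghDT
  refine Finset.measurable_prod _ fun a _ => ?_
  by_cases h : r a = a
  · simp only [h, if_true]
    have h1 : Measurable fun p : (Fin q → S → ℝ) × (Fin q → ι → ℝ) => (p.1 a, p.2 a) :=
      ((measurable_pi_apply a).comp measurable_fst).prodMk ((measurable_pi_apply a).comp measurable_snd)
    exact (gh_rm_D_meas hB l ls).comp h1
  · simp only [h, if_false]
    exact measurable_const

theorem gh_rm_nu_meas {B : GhB S} (hB : B.Ok) {q : ℕ} (P : (Fin q → S) → ℝ) :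
    ∀ (ls : List (GhLv S ι)) (rep : ℕ → Fin q → Fin q),
      Measurable fun G : Fin q → S → ℝ => ghNu B ls rep G fun _ σ => P σ
  | [], rep => by
      simp only [ghNu]
      refine Finset.measurable_sum _ fun σ _ => Measurable.mul_const ?_ _
      refine Finset.measurable_prod _ fun a _ => ?_
      exact (gh_b_Gw_continuous hB (σ a)).measurable.comp (measurable_pi_apply a)
  | l :: ls, rep => by
      simp only [ghNu]
      have hN := gh_rm_nu_meas hB P ls (fun t => rep (t + 1))
      have hj : Measurable fun p : (Fin q → S → ℝ) × (Fin q → ι → ℝ) => ghDT B l ls (rep 0) p.1 p.2 *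
          ghNu B ls (fun t => rep (t + 1)) (fun a => p.1 a + l.inc (p.2 (rep 0 a))) fun _ σ => P σ := by
        refine (gh_rm_DT_meas hB l ls (rep 0)).mul (hN.comp (measurable_pi_lambda _ fun a => ?_))
        exact ((measurable_pi_apply a).comp measurable_fst).add
          ((ghs_measurable_inc l).comp ((measurable_pi_apply (rep 0 a)).comp measurable_snd))
      exact (hj.stronglyMeasurable.integral_prod_right').measurable

/-! ### raw tree law: two levels of the same mass -/

/-- the sum of two independent levels, for `q` independent copies -/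
theorem gh_rm_law_pi (q : ℕ) (l₁ l₂ l : GhLv S ι) (h : ∀ s t, l.cov s t = l₁.cov s t + l₂.cov s t) :
    ((Measure.pi fun _ : Fin q => ghStd ι).prod (Measure.pi fun _ : Fin q => ghStd ι)).map
        (fun p a => l₁.inc (p.1 a) + l₂.inc (p.2 a))
      = (Measure.pi fun _ : Fin q => ghStd ι).map fun W a => l.inc (W a) := by
  have hm : Measurable fun p : (ι → ℝ) × (ι → ℝ) => l₁.inc p.1 + l₂.inc p.2 :=
    ((ghs_measurable_inc l₁).comp measurable_fst).add ((ghs_measurable_inc l₂).comp measurable_snd)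
  have e1 := (measurePreserving_arrowProdEquivProdArrow (ι → ℝ) (ι → ℝ) (Fin q) (fun _ => ghStd ι)
    fun _ => ghStd ι).map_eq
  have : ∀ _ : Fin q, IsProbabilityMeasure (((ghStd ι).prod (ghStd ι)).map fun p => l₁.inc p.1 + l₂.inc p.2) :=
    fun _ => Measure.isProbabilityMeasure_map hm.aemeasurable
  have hm2 : Measurable fun (p : (Fin q → ι → ℝ) × (Fin q → ι → ℝ)) (a : Fin q) => l₁.inc (p.1 a) + l₂.inc (p.2 a) :=
    measurable_pi_lambda _ fun a =>
      ((ghs_measurable_inc l₁).comp ((measurable_pi_apply a).comp measurable_fst)).add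
        ((ghs_measurable_inc l₂).comp ((measurable_pi_apply a).comp measurable_snd))
  rw [← e1, Measure.map_map hm2 (MeasurableEquiv.arrowProdEquivProdArrow _ _ _).measurable,
    Measure.pi_map_pi (μ := fun _ : Fin q => ghStd ι) (f := fun _ => l.inc)
      fun _ => (ghs_measurable_inc l).aemeasurable]
  have e2 := Measure.pi_map_pi (μ := fun _ : Fin q => (ghStd ι).prod (ghStd ι))
    (f := fun _ p => l₁.inc p.1 + l₂.inc p.2) fun _ => hm.aemeasurable
  rw [ghs_law_add l₁ l₂ l h] at e2
  rw [← e2]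
  rfl

theorem gh_rm_nu_merge0 {B : GhB S} (hB : B.Ok) {q : ℕ} (P : (Fin q → S) → ℝ) (l₁ l₂ l : GhLv S ι)
    (ls : List (GhLv S ι)) (hn : GhNn (l :: ls)) (hm₁ : l₁.m = l.m) (hm₂ : l₂.m = l.m)
    (hc : ∀ s t, l.cov s t = l₁.cov s t + l₂.cov s t) (rep : ℕ → Fin q → Fin q) (G : Fin q → S → ℝ)
    (h01 : rep 0 = rep 1) :
    ghNu B (l₁ :: l₂ :: ls) rep G (fun _ σ => P σ) = ghNu B (l :: ls) (ghSkip 0 rep) G fun _ σ => P σ := by
  have hFm := ghs_F_merge hB l₁ l₂ l ls hm₁ hm₂ hc
  have hF := ghs_F_measurable hB ls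
  have hNm := gh_rm_nu_meas hB P ls (fun t => rep (t + 2))
  -- the common integrand, as a function of the increments of the labels
  let Ψ : (Fin q → S → ℝ) → ℝ := fun X =>
    (∏ a, if rep 0 a = a then Real.exp (l.m * (ghF B ls (G a + X a) - ghF B (l :: ls) (G a))) else 1) *
      ghNu B ls (fun t => rep (t + 2)) (fun a => G a + X (rep 0 a)) fun _ σ => P σ
  have hΨm : Measurable Ψ := by
    refine Measurable.mul (Finset.measurable_prod _ fun a _ => ?_) (hNm.comp (measurable_pi_lambda _ fun a => ?_))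
    · by_cases h : rep 0 a = a
      · simp only [h, if_true]
        exact Real.measurable_exp.comp (measurable_const.mul
          ((hF.comp (measurable_const.add (measurable_pi_apply a))).sub measurable_const))
      · simp only [h, if_false]
        exact measurable_const
    · exact measurable_const.add (measurable_pi_apply (rep 0 a))
  have hg : Measurable fun (W : Fin q → ι → ℝ) (a : Fin q) => l.inc (W a) :=
    measurable_pi_lambda _ fun a => (ghs_measurable_inc l).comp (measurable_pi_apply a)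
  have hf : Measurable fun (p : (Fin q → ι → ℝ) × (Fin q → ι → ℝ)) (a : Fin q) => l₁.inc (p.1 a) + l₂.inc (p.2 a) :=
    measurable_pi_lambda _ fun a =>
      ((ghs_measurable_inc l₁).comp ((measurable_pi_apply a).comp measurable_fst)).add
        ((ghs_measurable_inc l₂).comp ((measurable_pi_apply a).comp measurable_snd))
  have hR : ghNu B (l :: ls) (ghSkip 0 rep) G (fun _ σ => P σ)
      = ∫ W, Ψ (fun a => l.inc (W a)) ∂(Measure.pi fun _ : Fin q => ghStd ι) := by
    simp only [ghNu, gh_rm_skip_zero, zero_add, ← h01]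
    rfl
  have hL : ghNu B (l₁ :: l₂ :: ls) rep G (fun _ σ => P σ)
      = ∫ W₁, ∫ W₂, Ψ (fun a => l₁.inc (W₁ a) + l₂.inc (W₂ a)) ∂(Measure.pi fun _ : Fin q => ghStd ι)
          ∂(Measure.pi fun _ : Fin q => ghStd ι) := by
    simp only [ghNu, zero_add, ← h01]
    refine integral_congr_ae (Filter.Eventually.of_forall fun W₁ => ?_)
    simp only
    rw [← integral_const_mul]
    refine integral_congr_ae (Filter.Eventually.of_forall fun W₂ => ?_)
    simp only [Ψ]
    rw [← mul_assoc]
    congr 1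
    · unfold ghDT
      rw [← Finset.prod_mul_distrib]
      refine Finset.prod_congr rfl fun a _ => ?_
      by_cases h : rep 0 a = a
      · simp only [h, if_true]
        unfold ghD
        rw [← Real.exp_add, hm₁, hm₂, hFm, add_assoc]
        congr 1
        ring
      · simp only [h, if_false, mul_one]
    · congr 1
      funext a
      rw [add_assoc]
  have hi : Integrable (fun W => Ψ (fun a => l.inc (W a))) (Measure.pi fun _ : Fin q => ghStd ι) := by
    refine ((gh_n_DT_integrable B hB l ls hn (rep 0) G).mul_const (∑ σ, |P σ|)).mono'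
      (hΨm.comp hg).aestronglyMeasurable (Filter.Eventually.of_forall fun W => ?_)
    have h1 : Ψ (fun a => l.inc (W a)) = ghDT B l ls (rep 0) G W *
        ghNu B ls (fun t => rep (t + 2)) (fun a => G a + l.inc (W (rep 0 a))) fun _ σ => P σ := rfl
    rw [h1, Real.norm_eq_abs, abs_mul, abs_of_nonneg (gh_n_DT_nonneg B l ls _ _ _)]
    refine mul_le_mul_of_nonneg_left (gh_n_abs_le B hB _ ls hn.tail _ _ _ fun _ σ => ?_) (gh_n_DT_nonneg B l ls _ _ _)
    exact Finset.single_le_sum (f := fun σ => |P σ|) (fun _ _ => abs_nonneg _) (Finset.mem_univ σ)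
  have hi1 : Integrable Ψ ((Measure.pi fun _ : Fin q => ghStd ι).map fun W a => l.inc (W a)) :=
    (integrable_map_measure hΨm.aestronglyMeasurable hg.aemeasurable).mpr hi
  rw [← gh_rm_law_pi q l₁ l₂ l hc] at hi1
  have hi2 := (integrable_map_measure hΨm.aestronglyMeasurable hf.aemeasurable).mp hi1
  rw [hL, hR, ← integral_map hg.aemeasurable hΨm.aestronglyMeasurable, ← gh_rm_law_pi q l₁ l₂ l hc,
    integral_map hf.aemeasurable hΨm.aestronglyMeasurable]
  exact (integral_prod _ hi2).symm

/-- **two consecutive levels of the same mass merge, if the table does not change between them** -/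
theorem gh_rm_nu_merge {B : GhB S} (hB : B.Ok) {q : ℕ} (P : (Fin q → S) → ℝ) (l₁ l₂ l : GhLv S ι)
    (pre ls : List (GhLv S ι)) (hn : GhNn (l :: ls)) (hm₁ : l₁.m = l.m) (hm₂ : l₂.m = l.m)
    (hc : ∀ s t, l.cov s t = l₁.cov s t + l₂.cov s t) (rep : ℕ → Fin q → Fin q) (G : Fin q → S → ℝ)
    (h01 : rep pre.length = rep (pre.length + 1)) :
    ghNu B (pre ++ l₁ :: l₂ :: ls) rep G (fun _ σ => P σ)
      = ghNu B (pre ++ l :: ls) (ghSkip pre.length rep) G fun _ σ => P σ :=
  gh_rm_nu_deep B P (ghs_F_merge hB l₁ l₂ l ls hm₁ hm₂ hc) (fun rep => rep 0 = rep 1)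
    (fun rep G h => gh_rm_nu_merge0 hB P l₁ l₂ l ls hn hm₁ hm₂ hc rep G h) pre rep G
    (by simpa [add_comm] using h01)

/-! ### the tables of a real tree on a chain and on the chain without one position -/

/-- normal form of `ghIdx` (in `Defs/Clk` the LIST is coerced to `WithTop GhPos`) -/
theorem gh_rm_idx_eq (ps : List GhPos) (p : WithTop GhPos) :
    ghIdx ps p = (ps.filter fun x : GhPos => decide ((x : WithTop GhPos) ≤ p)).length + if p = ⊤ then 1 else 0 := by
  unfold ghIdx
  congr 1
  have : (do let a ← ps; pure (a : WithTop GhPos)) = ps.map (fun x : GhPos => (x : WithTop GhPos)) := by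
    simp [List.map_eq_flatMap]
  rw [this, List.filter_map, List.length_map]
  rfl

theorem gh_rm_idx_insert (pre post : List GhPos) (r : GhPos) (p : WithTop GhPos) :
    ghIdx (pre ++ r :: post) p = ghIdx (pre ++ post) p + if (r : WithTop GhPos) ≤ p then 1 else 0 := by
  simp only [gh_rm_idx_eq]
  simp only [List.filter_append, List.filter_cons, List.length_append]
  by_cases h : (r : WithTop GhPos) ≤ p
  · simp only [h, decide_true, if_true, List.length_cons]
    omega
  · simp only [h, decide_false, if_false]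
    simp

theorem gh_rm_idx_ge {pre : List GhPos} (post : List GhPos) {r : GhPos} {p : WithTop GhPos} (h1 : ∀ x ∈ pre, x < r)
    (h : (r : WithTop GhPos) ≤ p) : pre.length ≤ ghIdx (pre ++ post) p := by
  rw [gh_rm_idx_eq]
  have : pre.filter (fun x : GhPos => decide ((x : WithTop GhPos) ≤ p)) = pre := by
    rw [List.filter_eq_self]
    intro x hx
    exact decide_eq_true ((WithTop.coe_le_coe.2 (h1 x hx).le).trans h)
  simp only [List.filter_append, List.length_append, this]
  omega

theorem gh_rm_idx_le (pre : List GhPos) {post : List GhPos} {r : GhPos} {p : WithTop GhPos} (h2 : ∀ y ∈ post, r < y)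
    (h : ¬ (r : WithTop GhPos) ≤ p) : ghIdx (pre ++ post) p ≤ pre.length := by
  rw [gh_rm_idx_eq]
  have h3 : post.filter (fun x : GhPos => decide ((x : WithTop GhPos) ≤ p)) = [] := by
    rw [List.filter_eq_nil_iff]
    intro y hy hyp
    exact h ((WithTop.coe_le_coe.2 (h2 y hy).le).trans (of_decide_eq_true hyp))
  have h4 : p ≠ ⊤ := fun hp => h (hp ▸ le_top)
  simp only [List.filter_append, List.length_append, h3, List.length_nil, h4, if_false, add_zero]
  exact List.length_filter_le _ _

theorem gh_rm_repN_congr (q : ℕ) {sh sh' : ℕ → ℕ → ℕ} {t t' : ℕ}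
    (h : ∀ a b : Fin q, t < sh a.1 b.1 ↔ t' < sh' a.1 b.1) : ghRepN q sh t = ghRepN q sh' t' := by
  funext a
  unfold ghRepN
  congr 1
  ext b
  simp only [Finset.mem_filter, Finset.mem_univ, true_and, h a b]

/-- the table on the chain without `r` = the table on the chain, with the index of `r` deleted -/
theorem gh_rm_repN_skip (q : ℕ) (τ : ℕ → ℕ → WithTop GhPos) {pre post : List GhPos} {r : GhPos}
    (h1 : ∀ x ∈ pre, x < r) (h2 : ∀ y ∈ post, r < y) :
    ghRepN q (ghDisc (pre ++ post) τ) = ghSkip pre.length (ghRepN q (ghDisc (pre ++ r :: post) τ)) := by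
  funext t
  unfold ghSkip
  by_cases ht : t < pre.length
  · rw [if_pos ht]
    refine gh_rm_repN_congr q fun a b => ?_
    unfold ghDisc
    rw [gh_rm_idx_insert]
    by_cases h : (r : WithTop GhPos) ≤ τ a.1 b.1
    · have := gh_rm_idx_ge post h1 h
      rw [if_pos h]
      omega
    · rw [if_neg h, add_zero]
  · rw [if_neg ht]
    refine gh_rm_repN_congr q fun a b => ?_
    unfold ghDisc
    rw [gh_rm_idx_insert]
    by_cases h : (r : WithTop GhPos) ≤ τ a.1 b.1
    · rw [if_pos h]
      omega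
    · have := gh_rm_idx_le pre h2 h
      rw [if_neg h]
      omega

/-- no fork in `[r, p)`: the table does not change between `r` and the next position `p` -/
theorem gh_rm_repN_same (q : ℕ) (τ : ℕ → ℕ → WithTop GhPos) {pre post : List GhPos} {r p : GhPos}
    (h1 : ∀ x ∈ pre, x < r) (hrp : r < p) (h2 : ∀ y ∈ post, p < y)
    (hτ : ∀ x y, x < q → y < q → ¬ ((r : WithTop GhPos) ≤ τ x y ∧ τ x y < (p : WithTop GhPos))) :
    ghRepN q (ghDisc (pre ++ r :: p :: post) τ) pre.length
      = ghRepN q (ghDisc (pre ++ r :: p :: post) τ) (pre.length + 1) := by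
  refine gh_rm_repN_congr q fun a b => ?_
  unfold ghDisc
  have h2' : ∀ y ∈ p :: post, r < y := by
    intro y hy
    rcases List.mem_cons.1 hy with rfl | hy
    · exact hrp
    · exact hrp.trans (h2 y hy)
  rw [gh_rm_idx_insert]
  by_cases h : (r : WithTop GhPos) ≤ τ a.1 b.1
  · have hp : (p : WithTop GhPos) ≤ τ a.1 b.1 := by
      by_contra hcon
      exact hτ a.1 b.1 a.2 b.2 ⟨h, not_le.1 hcon⟩
    have h3 := gh_rm_idx_insert pre post p (τ a.1 b.1)
    have h4 := gh_rm_idx_ge post (fun x hx => (h1 x hx).trans hrp) hp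
    rw [if_pos hp] at h3
    rw [if_pos h]
    omega
  · have := gh_rm_idx_le pre h2' h
    rw [if_neg h]
    omega

/-! ### the tree numbers of a chain -/

/-- tree expectation of a spin test on the chain `ps` with the values `V` -/
noncomputable def ghNuV (B : GhB S) (Φ : S → ι → ℝ) (V : GhPos → ι → ℝ) (z : S → ℝ) (q : ℕ)
    (τ : ℕ → ℕ → WithTop GhPos) (P : (Fin q → S) → ℝ) (ps : List GhPos) : ℝ :=
  ghNu B (ghChV Φ V 0 ps) (ghRepN q (ghDisc ps τ)) (fun _ => z) fun _ σ => P σ

theorem gh_rm_nuV_eqns_cite : True := by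
  have := @ghNuV.eq_1
  trivial

theorem gh_rm_cnuF_eq (B : GhB S) (Φ : S → ι → ℝ) (v : ι → ℝ → ℝ) (z : S → ℝ) (q : ℕ) (τ : ℕ → ℕ → WithTop GhPos)
    (P : (Fin q → S) → ℝ) (ps : List GhPos) :
    ghCNuF B Φ v z q τ P ps = ghNuV B Φ (ghClkAt B.a v) z q τ P ps := by
  unfold ghCNuF ghNuV
  rw [gh_rm_chain_eq]

theorem gh_rm_chV_nn (Φ : S → ι → ℝ) (V : GhPos → ι → ℝ) (c : ι → ℝ) {ps : List GhPos} (h : ∀ x ∈ ps, 0 ≤ x.u) :
    GhNn (ghChV Φ V c ps) := by
  induction ps generalizing c with
  | nil => exact gh_b_nn_nil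
  | cons p ps ih =>
    intro l hl
    simp only [ghChV] at hl
    rcases List.mem_cons.1 hl with rfl | hl
    · exact h p List.mem_cons_self
    · exact ih _ (fun x hx => h x (List.mem_cons_of_mem _ hx)) l hl

/-- **(i) removal of an empty position, ANY tree** -/
theorem gh_rm_nuV_empty (B : GhB S) (Φ : S → ι → ℝ) (V : GhPos → ι → ℝ) (z : S → ℝ) (q : ℕ)
    (τ : ℕ → ℕ → WithTop GhPos) (P : (Fin q → S) → ℝ) {pre post : List GhPos} {r : GhPos}
    (h1 : ∀ x ∈ pre, x < r) (h2 : ∀ y ∈ post, r < y) (h : V r = ghEndV V 0 pre) :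
    ghNuV B Φ V z q τ P (pre ++ r :: post) = ghNuV B Φ V z q τ P (pre ++ post) := by
  unfold ghNuV
  rw [gh_rm_repN_skip q τ h1 h2, gh_rm_chV_append, gh_rm_chV_append]
  simp only [ghChV]
  rw [h]
  have := gh_rm_nu_empty B P (ghLvF Φ r.u fun i => ghEndV V 0 pre i - ghEndV V 0 pre i)
    (gh_rm_lvF_zero Φ _ fun i => sub_self _) (ghChV Φ V 0 pre) (ghChV Φ V (ghEndV V 0 pre) post)
    (ghRepN q (ghDisc (pre ++ r :: post) τ)) (fun _ => z)
  rw [gh_rm_chV_length] at this
  exact this

/-- **(ii) removal of a position which has the mass of the next one, no fork in between** -/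
theorem gh_rm_nuV_merge {B : GhB S} (hB : B.Ok) (Φ : S → ι → ℝ) (V : GhPos → ι → ℝ) (z : S → ℝ) (q : ℕ)
    (τ : ℕ → ℕ → WithTop GhPos) (P : (Fin q → S) → ℝ) {pre post : List GhPos} {r p : GhPos}
    (h1 : ∀ x ∈ pre, x < r) (hrp : r < p) (h2 : ∀ y ∈ post, p < y) (hnn : ∀ y ∈ p :: post, 0 ≤ y.u)
    (hu : r.u = p.u) (hV1 : ∀ i, ghEndV V 0 pre i ≤ V r i) (hV2 : ∀ i, V r i ≤ V p i)
    (hτ : ∀ x y, x < q → y < q → ¬ ((r : WithTop GhPos) ≤ τ x y ∧ τ x y < (p : WithTop GhPos))) :
    ghNuV B Φ V z q τ P (pre ++ r :: p :: post) = ghNuV B Φ V z q τ P (pre ++ p :: post) := by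
  have h2' : ∀ y ∈ p :: post, r < y := by
    intro y hy
    rcases List.mem_cons.1 hy with rfl | hy
    · exact hrp
    · exact hrp.trans (h2 y hy)
  unfold ghNuV
  rw [gh_rm_repN_skip q τ h1 h2', gh_rm_chV_append, gh_rm_chV_append]
  simp only [ghChV]
  have hn : GhNn (ghLvF Φ p.u (fun i => V p i - ghEndV V 0 pre i) :: ghChV Φ V (V p) post) :=
    gh_rm_chV_nn Φ V (ghEndV V 0 pre) hnn
  have := gh_rm_nu_merge hB P (ghLvF Φ r.u fun i => V r i - ghEndV V 0 pre i) (ghLvF Φ p.u fun i => V p i - V r i)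
    (ghLvF Φ p.u fun i => V p i - ghEndV V 0 pre i) (ghChV Φ V 0 pre) (ghChV Φ V (V p) post) hn hu rfl
    (gh_rm_lvF_cov_add Φ _ _ _ hV1 hV2) (ghRepN q (ghDisc (pre ++ r :: p :: post) τ)) (fun _ => z)
  rw [gh_rm_chV_length] at this
  exact this (gh_rm_repN_same q τ h1 hrp h2 hτ)

end Claimed.Agent.R286
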