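import Claimed.Agent.R286.Brg.ChV
import Claimed.Agent.R286.Brg.Rem
import Claimed.Agent.R286.Brg.Defs
import Claimed.Agent.R286.Brg.PrDefs

/-!
# Row 286 (S0533), Brg/Refine : REFINEMENT OF A CHAIN (block A of the bridge)      (owner helper148; prefix `gh_br_`)

TEX[PE:prop:found-limits], finite level.      `ps <+ ps'` valid chains.  The numbers of the two finite hierarchies differ by at most (constant) x (modulus `ghOsc` of `ps`).
Proof = removal lemmas of 55 (`Brg/Rem`, raw, sorry free) + the engine (`Brg/ChV`, from `tr_taylor`, `tr_pressure_deriv` of 150):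
 (I)   the new positions which have the mass of a later position of `ps` are removed (`gh_rm_nuV_merge`): `ps' -> ghBrThin ps ps'`;
 (II)  on the thinned chain the values `W` are compared with the HELD values `ghBrHeld W ps` (value at the last position of `ps`): engine, distance `≤ ghOsc`;
 (III) for the held values the new positions are empty: removed (`gh_rm_nuV_empty`, any tree).
FORKS: each fork is a position of `ps`, or no later position of `ps` has its mass (`GhBrFk'`; covers `GhHasForks` of 262 and `BrgFk` of 132).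

* `gh_br_refine_nu`, `gh_br_refine_F`      the general statements
* `gh_br_clkC0`, `gh_br_clkLip`            = `exit_clkC0`, `exit_clkLip` (262)
* `gh_br_ask_nu_refine`, `gh_br_ask_F_refine`, `gh_br_ask_nuF_lip`      = the asks (R), (T) of 132 (`Brg/PrAsk`)
-/

set_option autoImplicit false

namespace Claimed.Agent.R286

open MeasureTheory ProbabilityTheory Filter Topology

noncomputable section

/-! ### lists -/

/-- induction along single removals -/
theorem gh_br_sublist_ind {α : Type} {ps ps' : List α} (h : ps.Sublist ps') :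
    ∀ motive : List α → Prop, motive ps →
      (∀ (l₁ : List α) (r : α) (l₂ : List α), ps.Sublist (l₁ ++ l₂) → motive (l₁ ++ l₂) → motive (l₁ ++ r :: l₂)) →
      motive ps' := by
  induction h with
  | slnil => intro motive h0 _; exact h0
  | cons r h ih =>
    intro motive h0 hstep
    exact hstep [] r _ h (ih motive h0 hstep)
  | cons_cons r h ih =>
    intro motive h0 hstep
    exact ih (fun L => motive (r :: L)) h0 fun l₁ x l₂ hs hm => hstep (r :: l₁) x l₂ (hs.cons_cons r) hm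

variable {S ι : Type}

theorem gh_br_ch_chV (Φ : S → ι → ℝ) (V : GhPos → ι → ℝ) (c : ι → ℝ) (ps : List GhPos) :
    ghBrCh Φ V c ps = ghChV Φ V c ps := by
  induction ps generalizing c with
  | nil => rfl
  | cons p ps ih =>
    have := ih (V p)
    unfold ghBrCh at this ⊢
    simp only [ghBrHs, ghChV, List.map_cons, this]

/-- the value held since the last position of `ps` -/
def ghBrHeld (W : GhPos → ι → ℝ) (ps : List GhPos) : GhPos → ι → ℝ :=
  fun r => ghEndV W 0 (ps.filter fun p => decide (p ≤ r))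

/-- the positions which are kept: those of `ps`, and those of mass smaller than the mass of every later position of `ps` -/
def GhBrKeep (ps : List GhPos) (r : GhPos) : Prop := r ∈ ps ∨ ∀ p ∈ ps, r ≤ p → r.u < p.u

open Classical in
/-- the thinned chain -/
def ghBrThin (ps ps' : List GhPos) : List GhPos := ps'.filter fun r => decide (GhBrKeep ps r)

/-- compatibility of the forks with the chain `ps` -/
def GhBrFk' (q : ℕ) (τ : ℕ → ℕ → WithTop GhPos) (ps : List GhPos) : Prop :=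
  ∀ x y, x < q → y < q → ∀ f : GhPos, τ x y = (f : WithTop GhPos) → f ∈ ps ∨ ∀ p ∈ ps, f < p → f.u < p.u

/-- monotone nonnegative values on the valid positions -/
structure GhBrVal (a : ℝ) (W : GhPos → ι → ℝ) : Prop where
  nonneg : ∀ p : GhPos, p.Ok a → ∀ i, 0 ≤ W p i
  mono : ∀ p p' : GhPos, p.Ok a → p'.Ok a → p ≤ p' → ∀ i, W p i ≤ W p' i

theorem gh_br_refine_eqns_cite : True := by
  have := @ghBrHeld.eq_1
  have := @GhBrKeep.eq_1
  have := @ghBrThin.eq_1
  have := @GhBrFk'.eq_1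
  trivial

theorem gh_br_thin_sub (ps ps' : List GhPos) : (ghBrThin ps ps').Sublist ps' := List.filter_sublist

theorem gh_br_sub_thin {ps ps' : List GhPos} (h : ps.Sublist ps') : ps.Sublist (ghBrThin ps ps') := by
  classical
  unfold ghBrThin
  have h1 := h.filter fun r => decide (GhBrKeep ps r)
  have h2 : ps.filter (fun r => decide (GhBrKeep ps r)) = ps := by
    rw [List.filter_eq_self]
    intro r hr
    exact decide_eq_true (Or.inl hr)
  rwa [h2] at h1

theorem gh_br_mem_thin {ps ps' : List GhPos} {r : GhPos} : r ∈ ghBrThin ps ps' ↔ r ∈ ps' ∧ GhBrKeep ps r := by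
  classical
  unfold ghBrThin
  simp [List.mem_filter]

theorem gh_br_endV_le {a : ℝ} {W : GhPos → ι → ℝ} (hW : GhBrVal a W) {l : List GhPos} {r : GhPos} (hl : ∀ x ∈ l, x.Ok a)
    (hr : r.Ok a) (hlr : ∀ x ∈ l, x ≤ r) (i : ι) : ghEndV W 0 l i ≤ W r i := by
  rcases gh_rm_endV_mem W 0 l with ⟨h1, -⟩ | ⟨x, hx, h1, -⟩
  · rw [h1]; exact hW.nonneg r hr i
  · rw [h1]; exact hW.mono x r (hl x hx) hr (hlr x hx) i

theorem gh_br_endV_nonneg {a : ℝ} {W : GhPos → ι → ℝ} (hW : GhBrVal a W) {l : List GhPos} (hl : ∀ x ∈ l, x.Ok a) (i : ι) :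
    0 ≤ ghEndV W 0 l i := by
  rcases gh_rm_endV_mem W 0 l with ⟨h1, -⟩ | ⟨x, hx, h1, -⟩
  · rw [h1]; exact le_rfl
  · rw [h1]; exact hW.nonneg x (hl x hx) i

/-- on `ps` the held values are the values -/
theorem gh_br_held_self (W : GhPos → ι → ℝ) {ps : List GhPos} (hs : ps.Pairwise (· < ·)) {p : GhPos} (hp : p ∈ ps) :
    ghBrHeld W ps p = W p := by
  unfold ghBrHeld
  have hpf : p ∈ ps.filter fun x => decide (x ≤ p) := List.mem_filter.mpr ⟨hp, by simp⟩
  rcases gh_rm_endV_mem W 0 (ps.filter fun x => decide (x ≤ p)) with ⟨-, h2⟩ | ⟨x, hx, h1, h2⟩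
  · rw [h2] at hpf; exact absurd hpf List.not_mem_nil
  · have h3 : p ≤ x := h2 p hpf (hs.sublist List.filter_sublist)
    have h4 : x ≤ p := by simpa using (List.mem_filter.mp hx).2
    rw [h1, le_antisymm h4 h3]

theorem gh_br_held_le {a : ℝ} {W : GhPos → ι → ℝ} (hW : GhBrVal a W) {ps : List GhPos} (hok : ∀ p ∈ ps, p.Ok a) {r : GhPos}
    (hr : r.Ok a) (i : ι) : ghBrHeld W ps r i ≤ W r i := by
  unfold ghBrHeld
  apply gh_br_endV_le hW (fun x hx => hok x (List.mem_filter.mp hx).1) hr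
  intro x hx
  simpa using (List.mem_filter.mp hx).2

theorem gh_br_held_mono {a : ℝ} {W : GhPos → ι → ℝ} (hW : GhBrVal a W) {ps : List GhPos} (hs : ps.Pairwise (· < ·))
    (hok : ∀ p ∈ ps, p.Ok a) {r r' : GhPos} (hrr : r ≤ r') (i : ι) : ghBrHeld W ps r i ≤ ghBrHeld W ps r' i := by
  unfold ghBrHeld
  have hok' : ∀ x ∈ ps.filter (fun p => decide (p ≤ r')), x.Ok a := fun x hx => hok x (List.mem_filter.mp hx).1
  rcases gh_rm_endV_mem W 0 (ps.filter fun p => decide (p ≤ r)) with ⟨h1, -⟩ | ⟨x, hx, h1, -⟩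
  · rw [h1]; exact gh_br_endV_nonneg hW hok' i
  · rw [h1]
    have hx1 := List.mem_filter.mp hx
    have hxr : x ≤ r := by simpa using hx1.2
    have hx' : x ∈ ps.filter fun p => decide (p ≤ r') := List.mem_filter.mpr ⟨hx1.1, by simpa using hxr.trans hrr⟩
    rcases gh_rm_endV_mem W 0 (ps.filter fun p => decide (p ≤ r')) with ⟨-, h2⟩ | ⟨y, hy, h3, h4⟩
    · rw [h2] at hx'; exact absurd hx' List.not_mem_nil
    · rw [h3]
      exact hW.mono x y (hok x hx1.1) (hok' y hy) (h4 x hx' (hs.sublist List.filter_sublist)) i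

/-! ### the two generic reductions -/

theorem gh_br_pw_split {l₁ l₂ : List GhPos} {r : GhPos} (h : (l₁ ++ r :: l₂).Pairwise (· < ·)) :
    (∀ x ∈ l₁, x < r) ∧ (∀ y ∈ l₂, r < y) ∧ r ∉ l₁ ++ l₂ := by
  rw [List.pairwise_append] at h
  obtain ⟨-, h2, h3⟩ := h
  rw [List.pairwise_cons] at h2
  refine ⟨fun x hx => h3 x hx r (by simp), h2.1, ?_⟩
  intro hr
  rcases List.mem_append.mp hr with hr | hr
  · exact lt_irrefl _ (h3 r hr r (by simp))
  · exact lt_irrefl _ (h2.1 r hr)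

theorem gh_br_drop_sub {α : Type} (l₁ l₂ : List α) (r : α) : (l₁ ++ l₂).Sublist (l₁ ++ r :: l₂) :=
  List.Sublist.append (List.Sublist.refl l₁) (List.sublist_cons_self r l₂)

/-- (I) generic: the positions which are not kept are removed one by one; each of them has the mass of its successor -/
theorem gh_br_thin_gen {ps ps' : List GhPos} (hs' : ps'.Pairwise (· < ·)) (hsub : ps.Sublist ps') (Q : List GhPos → ℝ)
    (hQ : ∀ (l₁ : List GhPos) (r s : GhPos) (l₂ : List GhPos), (l₁ ++ r :: s :: l₂).Sublist ps' →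
      ps.Sublist (l₁ ++ s :: l₂) → r ∉ ps → (∃ p ∈ ps, s ≤ p ∧ p.u = r.u) → Q (l₁ ++ r :: s :: l₂) = Q (l₁ ++ s :: l₂)) :
    Q ps' = Q (ghBrThin ps ps') := by
  have key := gh_br_sublist_ind (gh_br_thin_sub ps ps') (fun L => L.Sublist ps' → Q L = Q (ghBrThin ps ps'))
    (fun _ => rfl) ?_
  · exact key (List.Sublist.refl _)
  intro l₁ r l₂ h3 ih hL
  have hsorted := hs'.sublist hL
  obtain ⟨h1, h2, hr⟩ := gh_br_pw_split hsorted
  have hr' : r ∈ ps' := hL.subset (by simp)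
  have hnk : ¬ GhBrKeep ps r := fun hk => hr (h3.subset (gh_br_mem_thin.mpr ⟨hr', hk⟩))
  unfold GhBrKeep at hnk
  push Not at hnk
  obtain ⟨hrps, p, hp, hrp, hu⟩ := hnk
  have hp3 : p ∈ l₁ ++ l₂ := h3.subset (gh_br_mem_thin.mpr ⟨hsub.subset hp, Or.inl hp⟩)
  have hp2 : p ∈ l₂ := by
    rcases List.mem_append.mp hp3 with h | h
    · exact absurd (h1 p h) (not_lt.mpr hrp)
    · exact h
  rw [← ih ((gh_br_drop_sub l₁ l₂ r).trans hL)]
  cases l₂ with
  | nil => exact absurd hp2 List.not_mem_nil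
  | cons s l₂ =>
    have hsp : s ≤ p := by
      rcases List.mem_cons.mp hp2 with rfl | h
      · exact le_rfl
      · have h5 := (List.pairwise_append.mp hsorted).2.1
        exact ((List.pairwise_cons.mp (List.pairwise_cons.mp h5).2).1 p h).le
    have hpu : p.u = r.u := by
      rcases (gh_os_pos_le_iff r p).1 hrp with h | h
      · exact absurd h (not_lt.mpr hu)
      · exact h.1.symm
    exact hQ l₁ r s l₂ hL ((gh_br_sub_thin hsub).trans h3) hrps ⟨p, hp, hsp, hpu⟩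

/-- (III) generic: for the held values the positions outside `ps` are empty -/
theorem gh_br_held_gen {ps ps₃ : List GhPos} (hs₃ : ps₃.Pairwise (· < ·)) (hsub : ps.Sublist ps₃) (W : GhPos → ι → ℝ)
    (Q : List GhPos → ℝ)
    (hQ : ∀ (l₁ : List GhPos) (r : GhPos) (l₂ : List GhPos), (l₁ ++ r :: l₂).Sublist ps₃ →
      ghBrHeld W ps r = ghEndV (ghBrHeld W ps) 0 l₁ → Q (l₁ ++ r :: l₂) = Q (l₁ ++ l₂)) :
    Q ps₃ = Q ps := by
  have key := gh_br_sublist_ind hsub (fun L => L.Sublist ps₃ → Q L = Q ps) (fun _ => rfl) ?_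
  · exact key (List.Sublist.refl _)
  intro l₁ r l₂ h3 ih hL
  have hsorted := hs₃.sublist hL
  obtain ⟨h1, h2, hr⟩ := gh_br_pw_split hsorted
  rw [← ih ((gh_br_drop_sub l₁ l₂ r).trans hL)]
  apply hQ l₁ r l₂ hL
  have hl1s : l₁.Pairwise (· < ·) := (List.pairwise_append.mp hsorted).1
  rcases gh_rm_endV_mem (ghBrHeld W ps) 0 l₁ with ⟨e1, e2⟩ | ⟨x, hx, e1, e2⟩
  · rw [e1]
    unfold ghBrHeld
    have : ps.filter (fun p => decide (p ≤ r)) = [] := by
      rw [List.filter_eq_nil_iff]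
      intro p hp
      have hp3 : p ∈ l₁ ++ l₂ := h3.subset hp
      rw [e2, List.nil_append] at hp3
      simpa using h2 p hp3
    rw [this]; rfl
  · rw [e1]
    unfold ghBrHeld
    congr 1
    apply List.filter_congr
    intro p hp
    have hp3 : p ∈ l₁ ++ l₂ := h3.subset hp
    have : p ≤ r ↔ p ≤ x := by
      constructor
      · intro hpr
        rcases List.mem_append.mp hp3 with h | h
        · exact e2 p h hl1s
        · exact absurd (h2 p h) (not_lt.mpr hpr)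
      · intro hpx
        exact hpx.trans (h1 x hx).le
    simp [this]

/-! ### the clocks as values; the modulus -/

theorem gh_br_clk_val {a : ℝ} (ha : 0 ≤ a) {v : ι → ℝ → ℝ} (hv : GhClk a v) : GhBrVal a (ghClkAt a v) where
  nonneg := fun _ hp i => gh_os_at_nonneg ha (hv i) hp.2.2.1
  mono := fun _ _ hp hp' h i => gh_os_at_mono ha (hv i) hp.2.2.2 hp'.2.2.1 h

theorem gh_br_at_le_left {a : ℝ} {c : ℝ → ℝ} (ha : 0 ≤ a) (hc : GhClk1 a c) {r : GhPos} (hr : r.lam ≤ 1) {u : ℝ}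
    (h : r.u < u) : ghAt a c r ≤ Function.leftLim (ghClamp a c) u :=
  (gh_os_at_le_right ha hc hr).trans ((gh_os_clamp_mono ha hc).rightLim_le_leftLim h)

/-- what a kept position outside `ps` has seen since the last position of `ps` is at most the oscillation -/
theorem gh_br_osc_gap {a : ℝ} (ha : 0 ≤ a) {v : ι → ℝ → ℝ} (hv : GhClk a v) (i : ι) {r : GhPos} (hr : r.Ok a) :
    ∀ (ps : List GhPos) (c0 : ι → ℝ), ps.Pairwise (· < ·) → (∀ p ∈ ps, r ≤ p → r.u < p.u) →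
      ghClkAt a v r i - ghEndV (ghClkAt a v) c0 (ps.filter fun p => decide (p ≤ r)) i ≤ ghOsc a (v i) (c0 i) ps
  | [], c0, _, _ => by
      simp only [List.filter_nil, ghEndV, ghOsc]
      have := gh_os_at_le_top ha (hv i) hr
      unfold ghClkAt
      linarith
  | p :: ps, c0, hs, hk => by
      rw [ghOsc]
      by_cases hpr : p ≤ r
      · rw [List.filter_cons_of_pos (by simpa using hpr)]
        simp only [ghEndV]
        exact (gh_br_osc_gap ha hv i hr ps (ghClkAt a v p) (List.pairwise_cons.mp hs).2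
          fun x hx => hk x (by simp [hx])).trans (le_max_right _ _)
      · have hrp : r < p := not_le.mp hpr
        have hnil : (p :: ps).filter (fun x => decide (x ≤ r)) = [] := by
          rw [List.filter_eq_nil_iff]
          intro x hx
          rcases List.mem_cons.mp hx with rfl | hx
          · simpa using hrp
          · simpa using hrp.trans ((List.pairwise_cons.mp hs).1 x hx)
        rw [hnil]
        simp only [ghEndV]
        have h1 := gh_br_at_le_left ha (hv i) hr.2.2.2 (hk p (by simp) hrp.le)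
        refine le_trans ?_ (le_max_left _ _)
        unfold ghClkAt
        linarith

variable [Fintype ι]

theorem gh_br_ker_le (Φ : S → ι → ℝ) {D O : ι → ℝ} (h0 : ∀ i, 0 ≤ D i) (h1 : ∀ i, D i ≤ O i) {M : ℝ}
    (hM : ∀ s, ∑ i, O i * Φ s i ^ 2 ≤ M) (s t : S) : |ghBrKer Φ D s t| ≤ M := by
  unfold ghBrKer
  calc |∑ i, D i * (Φ s i * Φ t i)| ≤ ∑ i, |D i * (Φ s i * Φ t i)| := Finset.abs_sum_le_sum_abs _ _
    _ ≤ ∑ i, (O i * Φ s i ^ 2 + O i * Φ t i ^ 2) / 2 := by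
        refine Finset.sum_le_sum fun i _ => ?_
        rw [abs_mul, abs_of_nonneg (h0 i)]
        have h2 : |Φ s i * Φ t i| ≤ (Φ s i ^ 2 + Φ t i ^ 2) / 2 := by
          rw [abs_le]
          constructor <;> nlinarith [sq_nonneg (Φ s i - Φ t i), sq_nonneg (Φ s i + Φ t i)]
        have h3 : 0 ≤ (Φ s i ^ 2 + Φ t i ^ 2) / 2 := by positivity
        calc D i * |Φ s i * Φ t i| ≤ D i * ((Φ s i ^ 2 + Φ t i ^ 2) / 2) := mul_le_mul_of_nonneg_left h2 (h0 i)
          _ ≤ O i * ((Φ s i ^ 2 + Φ t i ^ 2) / 2) := mul_le_mul_of_nonneg_right (h1 i) h3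
          _ = _ := by ring
    _ = ((∑ i, O i * Φ s i ^ 2) + ∑ i, O i * Φ t i ^ 2) / 2 := by
        rw [← Finset.sum_add_distrib, Finset.sum_div]
    _ ≤ M := by linarith [hM s, hM t]

/-! ### the refinement comparison -/

omit [Fintype ι] in
theorem gh_br_adm_of_val {a : ℝ} {W : GhPos → ι → ℝ} (hW : GhBrVal a W) {ps : List GhPos} (hs : ps.Pairwise (· < ·))
    (hok : ∀ p ∈ ps, p.Ok a) : GhBrAdm a W 0 ps where
  sorted := hs
  ok := hok
  base := fun p hp i => hW.nonneg p (hok p hp) i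
  mono := by
    have h2 : ps.Pairwise fun p p' => p.Ok a ∧ p'.Ok a := by
      rw [List.pairwise_iff_forall_sublist]
      intro x y hxy
      exact ⟨hok x (hxy.subset (by simp)), hok y (hxy.subset (by simp))⟩
    exact (hs.and h2).imp fun {p p'} h i => hW.mono p p' h.2.1 h.2.2 h.1.le i

omit [Fintype ι] in
theorem gh_br_adm_held {a : ℝ} {W : GhPos → ι → ℝ} (hW : GhBrVal a W) {ps ps₃ : List GhPos} (hs : ps.Pairwise (· < ·))
    (hok : ∀ p ∈ ps, p.Ok a) (hs₃ : ps₃.Pairwise (· < ·)) (hok₃ : ∀ p ∈ ps₃, p.Ok a) : GhBrAdm a (ghBrHeld W ps) 0 ps₃ where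
  sorted := hs₃
  ok := hok₃
  base := fun _ _ i => gh_br_endV_nonneg hW (fun x hx => hok x (List.mem_filter.mp hx).1) i
  mono := hs₃.imp fun h i => gh_br_held_mono hW hs hok h.le i

/-- distance of the values and the held values on the thinned chain -/
theorem gh_br_dist {a : ℝ} (ha : 0 ≤ a) (Φ : S → ι → ℝ) {v : ι → ℝ → ℝ} (hv : GhClk a v) {ps ps' : List GhPos}
    (hs : ps.Pairwise (· < ·)) (hok : ∀ p ∈ ps, p.Ok a) (hok' : ∀ p ∈ ps', p.Ok a) {M : ℝ}
    (hM : ∀ s, ∑ i, ghOsc a (v i) 0 ps * Φ s i ^ 2 ≤ M) :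
    ∀ r ∈ ghBrThin ps ps', ∀ s t,
      |ghBrKer Φ (fun i => ghClkAt a v r i - ghBrHeld (ghClkAt a v) ps r i) s t| ≤ M := by
  intro r hr s t
  obtain ⟨hr', hk⟩ := gh_br_mem_thin.mp hr
  have hW := gh_br_clk_val ha hv
  refine gh_br_ker_le Φ (O := fun i => ghOsc a (v i) 0 ps) (fun i => ?_) (fun i => ?_) hM s t
  · have := gh_br_held_le hW hok (hok' r hr') i
    linarith
  · rcases hk with hk | hk
    · rw [gh_br_held_self _ hs hk, sub_self]
      exact gh_os_osc_nonneg ha (hv i) ps 0 hok (gh_os_at_nonneg ha (hv i) (by simp [ghPosA, GhPos.lam]))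
    · exact gh_br_osc_gap ha hv i (hok' r hr') ps 0 hs hk

variable [Fintype S]

/-- **REFINEMENT, tree numbers** TEX[PE:prop:found-limits] -/
theorem gh_br_refine_nu {B : GhB S} (hB : B.Ok) (Φ : S → ι → ℝ) {v : ι → ℝ → ℝ} (hv : GhClk B.a v) {ps ps' : List GhPos}
    (hs' : ps'.Pairwise (· < ·)) (hok' : ∀ p ∈ ps', p.Ok B.a) (hsub : ps.Sublist ps') {M : ℝ}
    (hM : ∀ s, ∑ i, ghOsc B.a (v i) 0 ps * Φ s i ^ 2 ≤ M) (z : S → ℝ) {q : ℕ} {τ : ℕ → ℕ → WithTop GhPos}
    (hτ : GhIsRT B.a q τ) (hfk : GhBrFk' q τ ps) (P : (Fin q → S) → ℝ) {K : ℝ} (hK : ∀ σ, |P σ| ≤ K) :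
    |ghCNuF B Φ v z q τ P ps' - ghCNuF B Φ v z q τ P ps| ≤ 2 * B.a ^ 2 * q * (q + 1) * M * K := by
  have ha : 0 ≤ B.a := hB.pos.le
  have hs : ps.Pairwise (· < ·) := hs'.sublist hsub
  have hok : ∀ p ∈ ps, p.Ok B.a := fun p hp => hok' p (hsub.subset hp)
  set W := ghClkAt B.a v with hWdef
  have hW : GhBrVal B.a W := gh_br_clk_val ha hv
  set ps₃ := ghBrThin ps ps' with hps₃
  have hs₃ : ps₃.Pairwise (· < ·) := hs'.sublist (gh_br_thin_sub ps ps')
  have hok₃ : ∀ p ∈ ps₃, p.Ok B.a := fun p hp => hok' p ((gh_br_thin_sub ps ps').subset hp)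
  rw [gh_rm_cnuF_eq, gh_rm_cnuF_eq]
  -- (I)
  have e1 : ghNuV B Φ W z q τ P ps' = ghNuV B Φ W z q τ P ps₃ := by
    apply gh_br_thin_gen hs' hsub (ghNuV B Φ W z q τ P)
    intro l₁ r s l₂ hL hps hr ⟨p, hp, hsp, hpu⟩
    have hsorted := hs'.sublist hL
    obtain ⟨h1, h2, -⟩ := gh_br_pw_split hsorted
    have hrs : r < s := h2 s (by simp)
    have h3 : ∀ y ∈ l₂, s < y :=
      (List.pairwise_cons.mp (List.pairwise_cons.mp (List.pairwise_append.mp hsorted).2.1).2).1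
    have hokL : ∀ x ∈ l₁ ++ r :: s :: l₂, x.Ok B.a := fun x hx => hok' x (hL.subset hx)
    have hu : r.u = s.u := by
      have a1 := gh_br_pos_u_le hrs
      have a2 : s.u ≤ p.u := by
        rcases hsp.eq_or_lt with rfl | h
        · exact le_rfl
        · exact gh_br_pos_u_le h
      linarith
    refine gh_rm_nuV_merge hB Φ W z q τ P h1 hrs h3 (fun y hy => (hokL y (by simp [List.mem_cons.mp hy])).1) hu
      (fun i => gh_br_endV_le hW (fun x hx => hokL x (by simp [hx])) (hokL r (by simp)) (fun x hx => (h1 x hx).le) i)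
      (fun i => hW.mono r s (hokL r (by simp)) (hokL s (by simp)) hrs.le i) ?_
    rintro x y hx hy ⟨c1, c2⟩
    obtain ⟨f, hf⟩ := WithTop.ne_top_iff_exists.mp (ne_top_of_lt c2)
    rw [← hf] at c1 c2
    have c1' : r ≤ f := WithTop.coe_le_coe.mp c1
    have c2' : f < s := WithTop.coe_lt_coe.mp c2
    rcases hfk x y hx hy f hf.symm with hfp | hfp
    · rcases List.mem_append.mp (hps.subset hfp) with h | h
      · exact absurd (h1 f h) (not_lt.mpr c1')
      · rcases List.mem_cons.mp h with rfl | h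
        · exact lt_irrefl _ c2'
        · exact lt_asymm (h3 f h) c2'
    · have b1 := hfp p hp (lt_of_lt_of_le c2' hsp)
      have b2 : r.u ≤ f.u := by
        rcases c1'.eq_or_lt with rfl | h
        · exact le_rfl
        · exact gh_br_pos_u_le h
      linarith
  -- (III)
  have e3 : ghNuV B Φ (ghBrHeld W ps) z q τ P ps₃ = ghNuV B Φ (ghBrHeld W ps) z q τ P ps := by
    apply gh_br_held_gen hs₃ (gh_br_sub_thin hsub) W (ghNuV B Φ (ghBrHeld W ps) z q τ P)
    intro l₁ r l₂ hL hr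
    obtain ⟨h1, h2, -⟩ := gh_br_pw_split (hs₃.sublist hL)
    exact gh_rm_nuV_empty B Φ _ z q τ P h1 h2 hr
  have e4 : ghNuV B Φ (ghBrHeld W ps) z q τ P ps = ghNuV B Φ W z q τ P ps := by
    unfold ghNuV
    rw [gh_rm_chV_congr Φ 0 fun p hp => gh_br_held_self W hs hp]
  -- (II)
  have hd := gh_br_dist ha Φ hv hs hok hok' hM
  have hM0 : 0 ≤ M := by
    obtain ⟨s⟩ := gh_br_nonempty hB
    refine le_trans ?_ (hM s)
    exact Finset.sum_nonneg fun i _ => mul_nonneg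
      (gh_os_osc_nonneg ha (hv i) ps 0 hok (gh_os_at_nonneg ha (hv i) (by simp [ghPosA, GhPos.lam]))) (sq_nonneg _)
  have e2 := gh_br_nu_engine hB Φ (gh_br_adm_held hW hs hok hs₃ hok₃) (gh_br_adm_of_val hW hs₃ hok₃) z hτ P hK hM0 hd
  unfold ghBrNu at e2
  rw [gh_br_ch_chV, gh_br_ch_chV] at e2
  rw [e1, ← e4, ← e3]
  exact e2


/-- **REFINEMENT, root continuation** TEX[PE:prop:found-limits] -/
theorem gh_br_refine_F {B : GhB S} (hB : B.Ok) (Φ : S → ι → ℝ) {v : ι → ℝ → ℝ} (hv : GhClk B.a v) {ps ps' : List GhPos}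
    (hs' : ps'.Pairwise (· < ·)) (hok' : ∀ p ∈ ps', p.Ok B.a) (hsub : ps.Sublist ps') {M : ℝ}
    (hM : ∀ s, ∑ i, ghOsc B.a (v i) 0 ps * Φ s i ^ 2 ≤ M) (z : S → ℝ) :
    |ghF B (ghChain Φ B.a v 0 ps') z - ghF B (ghChain Φ B.a v 0 ps) z| ≤ B.a * M := by
  have ha : 0 ≤ B.a := hB.pos.le
  have hs : ps.Pairwise (· < ·) := hs'.sublist hsub
  have hok : ∀ p ∈ ps, p.Ok B.a := fun p hp => hok' p (hsub.subset hp)
  set W := ghClkAt B.a v with hWdef
  have hW : GhBrVal B.a W := gh_br_clk_val ha hv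
  set ps₃ := ghBrThin ps ps' with hps₃
  have hs₃ : ps₃.Pairwise (· < ·) := hs'.sublist (gh_br_thin_sub ps ps')
  have hok₃ : ∀ p ∈ ps₃, p.Ok B.a := fun p hp => hok' p ((gh_br_thin_sub ps ps').subset hp)
  rw [gh_rm_chain_eq, gh_rm_chain_eq]
  have e1 : ghF B (ghChV Φ W 0 ps') z = ghF B (ghChV Φ W 0 ps₃) z := by
    apply gh_br_thin_gen hs' hsub (fun L => ghF B (ghChV Φ W 0 L) z)
    intro l₁ r s l₂ hL hps hr ⟨p, hp, hsp, hpu⟩
    have hsorted := hs'.sublist hL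
    obtain ⟨h1, h2, -⟩ := gh_br_pw_split hsorted
    have hrs : r < s := h2 s (by simp)
    have hokL : ∀ x ∈ l₁ ++ r :: s :: l₂, x.Ok B.a := fun x hx => hok' x (hL.subset hx)
    have hu : r.u = s.u := by
      have a1 := gh_br_pos_u_le hrs
      have a2 : s.u ≤ p.u := by
        rcases hsp.eq_or_lt with rfl | h
        · exact le_rfl
        · exact gh_br_pos_u_le h
      linarith
    exact congrFun (gh_rm_F_merge hB Φ W 0 l₁ l₂ r s hu
      (fun i => gh_br_endV_le hW (fun x hx => hokL x (by simp [hx])) (hokL r (by simp)) (fun x hx => (h1 x hx).le) i)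
      (fun i => hW.mono r s (hokL r (by simp)) (hokL s (by simp)) hrs.le i)) z
  have e3 : ghF B (ghChV Φ (ghBrHeld W ps) 0 ps₃) z = ghF B (ghChV Φ (ghBrHeld W ps) 0 ps) z := by
    apply gh_br_held_gen hs₃ (gh_br_sub_thin hsub) W (fun L => ghF B (ghChV Φ (ghBrHeld W ps) 0 L) z)
    intro l₁ r l₂ _ hr
    exact congrFun (gh_rm_F_empty B Φ _ 0 l₁ l₂ r hr) z
  have e4 : ghF B (ghChV Φ (ghBrHeld W ps) 0 ps) z = ghF B (ghChV Φ W 0 ps) z := by
    rw [gh_rm_chV_congr Φ 0 fun p hp => gh_br_held_self W hs hp]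
  have hd := gh_br_dist ha Φ hv hs hok hok' hM
  have hM0 : 0 ≤ M := by
    obtain ⟨s⟩ := gh_br_nonempty hB
    refine le_trans ?_ (hM s)
    exact Finset.sum_nonneg fun i _ => mul_nonneg
      (gh_os_osc_nonneg ha (hv i) ps 0 hok (gh_os_at_nonneg ha (hv i) (by simp [ghPosA, GhPos.lam]))) (sq_nonneg _)
  have e2 := gh_br_F_engine hB Φ (gh_br_adm_held hW hs hok hs₃ hok₃) (gh_br_adm_of_val hW hs₃ hok₃) z hM0 hd
  unfold ghBrF at e2
  rw [gh_br_ch_chV, gh_br_ch_chV] at e2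
  rw [e1, ← e4, ← e3]
  exact e2

/-! ### the exits of 262 and the asks of 132 -/

omit [Fintype S] in
theorem gh_br_ker_ghKer (Φ : S → ι → ℝ) (c : ι → ℝ) (s t : S) : ghBrKer Φ c s t = ghKer Φ c s t := by
  unfold ghBrKer ghKer
  exact Finset.sum_congr rfl fun i _ => by ring

omit [Fintype S] in
theorem gh_br_ker_brgKer (Φ : S → ι → ℝ) (c : ι → ℝ) (s t : S) : ghBrKer Φ c s t = brgKer Φ c s t := by
  unfold ghBrKer brgKer
  exact Finset.sum_congr rfl fun i _ => by ring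

/-- = `exit_clkC0` -/
theorem gh_br_clkC0 {B : GhB S} (hB : B.Ok) (Φ : S → ι → ℝ) {v : ι → ℝ → ℝ}
    (hv : GhClk B.a v) {ps ps' : List GhPos} (hps' : GhChOk B.a ps') (hsub : ps.Sublist ps') {M : ℝ}
    (hM : GhOscLe B.a Φ v ps M) (z : S → ℝ) :
    |ghF B (ghChain Φ B.a v 0 ps') z - ghF B (ghChain Φ B.a v 0 ps) z| ≤ B.a * M ∧
    ∀ (q : ℕ) (τ : ℕ → ℕ → WithTop GhPos), GhIsRT B.a q τ → GhHasForks q τ ps →
      ∀ (P : (Fin q → S) → ℝ) (K : ℝ), (∀ σ, |P σ| ≤ K) →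
        |ghCNuF B Φ v z q τ P ps' - ghCNuF B Φ v z q τ P ps| ≤ 2 * B.a ^ 2 * q * (q + 1) * M * K := by
  have hM' : ∀ s, ∑ i, ghOsc B.a (v i) 0 ps * Φ s i ^ 2 ≤ M := by
    intro s
    refine le_trans (le_of_eq ?_) (hM s)
    unfold ghKer
    exact Finset.sum_congr rfl fun i _ => by ring
  refine ⟨gh_br_refine_F hB Φ hv hps'.1 hps'.2 hsub hM' z, ?_⟩
  intro q τ hτ hfk P K hK
  exact gh_br_refine_nu hB Φ hv hps'.1 hps'.2 hsub hM' z hτ (fun x y hx hy f hf => Or.inl (hfk x y hx hy f hf)) P hK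

/-- = `exit_clkLip` -/
theorem gh_br_clkLip {B : GhB S} (hB : B.Ok) (Φ : S → ι → ℝ) {v v' : ι → ℝ → ℝ}
    (hv : GhClk B.a v) (hv' : GhClk B.a v') {ps : List GhPos} (hps : GhChOk B.a ps) {M : ℝ} (hM0 : 0 ≤ M)
    (hM : ∀ p ∈ ps, ∀ s t, |ghKer Φ (fun i => ghClkAt B.a v' p i - ghClkAt B.a v p i) s t| ≤ M) (z : S → ℝ) :
    |ghF B (ghChain Φ B.a v' 0 ps) z - ghF B (ghChain Φ B.a v 0 ps) z| ≤ B.a * M ∧
    ∀ (q : ℕ) (τ : ℕ → ℕ → WithTop GhPos), GhIsRT B.a q τ →
      ∀ (P : (Fin q → S) → ℝ) (K : ℝ), (∀ σ, |P σ| ≤ K) →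
        |ghCNuF B Φ v' z q τ P ps - ghCNuF B Φ v z q τ P ps| ≤ 2 * B.a ^ 2 * q * (q + 1) * M * K := by
  have ha : 0 ≤ B.a := hB.pos.le
  have h1 := gh_br_adm_of_val (gh_br_clk_val ha hv) hps.1 hps.2
  have h2 := gh_br_adm_of_val (gh_br_clk_val ha hv') hps.1 hps.2
  have hM' : ∀ p ∈ ps, ∀ s t, |ghBrKer Φ (fun i => ghClkAt B.a v' p i - ghClkAt B.a v p i) s t| ≤ M := by
    intro p hp s t
    rw [gh_br_ker_ghKer]
    exact hM p hp s t
  constructor
  · have := gh_br_F_engine hB Φ h1 h2 z hM0 hM'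
    unfold ghBrF at this
    rw [gh_br_ch_chain, gh_br_ch_chain]
    exact this
  · intro q τ hτ P K hK
    have := gh_br_nu_engine hB Φ h1 h2 z hτ P hK hM0 hM'
    unfold ghBrNu at this
    unfold ghCNuF
    rw [gh_br_ch_chain, gh_br_ch_chain]
    exact this

theorem gh_br_ps_sub {a : ℝ} {F F' : Finset GhPos} (h : F ⊆ F') : (ghPs a F).Sublist (ghPs a F') := by
  apply List.sublist_of_subperm_of_pairwise (r := (· ≤ ·)) _ (gh_os_ps_pairwise a F) (gh_os_ps_pairwise a F')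
  apply List.subperm_of_subset (gh_os_ps_nodup a F)
  intro p hp
  rw [gh_os_ps_mem] at hp ⊢
  exact ⟨h hp.1, hp.2⟩

/-- = ask (R) of 132, tree numbers -/
theorem gh_br_ask_nu_refine {B : GhB S} (hB : B.Ok) (Φ : S → ι → ℝ) {v : ι → ℝ → ℝ} (hv : GhClk B.a v) (z : S → ℝ) {q : ℕ}
    {τ : ℕ → ℕ → WithTop GhPos} (hτ : GhIsRT B.a q τ) {F F' : Finset GhPos} (hFF : F ⊆ F') (hfk : BrgFk B.a q τ F) {M : ℝ}
    (hM : BrgFine B.a Φ v (ghPs B.a F) M) (P : (Fin q → S) → ℝ) {K : ℝ} (hK : ∀ σ, |P σ| ≤ K) :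
    |ghCNuF B Φ v z q τ P (ghPs B.a F') - ghCNuF B Φ v z q τ P (ghPs B.a F)| ≤ 2 * B.a ^ 2 * q * (q + 1) * M * K := by
  refine gh_br_refine_nu hB Φ hv (gh_os_ps_lt _ _) (fun p hp => (gh_os_ps_mem.mp hp).2) (gh_br_ps_sub hFF) hM z hτ ?_ P hK
  intro x y hx hy f hf
  rcases hfk x y hx hy f hf with h | h
  · exact Or.inl (gh_os_ps_mem.mpr ⟨h, hτ.ok x y hx hy f hf⟩)
  · exact Or.inr fun p hp hfp => h p (gh_os_ps_mem.mp hp).1 (gh_os_ps_mem.mp hp).2 hfp

/-- = ask (R) of 132, continuation -/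
theorem gh_br_ask_F_refine {B : GhB S} (hB : B.Ok) (Φ : S → ι → ℝ) {v : ι → ℝ → ℝ} (hv : GhClk B.a v) (z : S → ℝ)
    {F F' : Finset GhPos} (hFF : F ⊆ F') {M : ℝ} (hM : BrgFine B.a Φ v (ghPs B.a F) M) :
    |ghF B (ghChain Φ B.a v 0 (ghPs B.a F')) z - ghF B (ghChain Φ B.a v 0 (ghPs B.a F)) z| ≤ B.a * M :=
  gh_br_refine_F hB Φ hv (gh_os_ps_lt _ _) (fun _ hp => (gh_os_ps_mem.mp hp).2) (gh_br_ps_sub hFF) hM z

/-- = ask (T) of 132 (with `0 ≤ M`: on the empty chain the hypothesis on `M` is void) -/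
theorem gh_br_ask_nuF_lip {B : GhB S} (hB : B.Ok) (Φ : S → ι → ℝ) {v v' : ι → ℝ → ℝ} (hv : GhClk B.a v) (hv' : GhClk B.a v')
    (z : S → ℝ) {q : ℕ} {τ : ℕ → ℕ → WithTop GhPos} (hτ : GhIsRT B.a q τ) (F : Finset GhPos) {M : ℝ} (hM0 : 0 ≤ M)
    (hM : ∀ p ∈ ghPs B.a F, ∀ s t, |brgKer Φ (fun i => ghAt B.a (v' i) p - ghAt B.a (v i) p) s t| ≤ M)
    (P : (Fin q → S) → ℝ) {K : ℝ} (hK : ∀ σ, |P σ| ≤ K) :
    |ghCNuF B Φ v' z q τ P (ghPs B.a F) - ghCNuF B Φ v z q τ P (ghPs B.a F)| ≤ 2 * B.a ^ 2 * q * (q + 1) * M * K :=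
  (gh_br_clkLip hB Φ hv hv' ⟨gh_os_ps_lt _ _, fun _ hp => (gh_os_ps_mem.mp hp).2⟩ hM0
    (fun p hp s t => by rw [← gh_br_ker_ghKer, gh_br_ker_brgKer]; exact hM p hp s t) z).2 q τ hτ P K hK

end

end Claimed.Agent.R286
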