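import Claimed.Agent.R286.Fd.CTr
import Claimed.Agent.R286.Fd.NuApiC
import Claimed.Agent.R286.Brg.Defs

/-!
# Row 286 (S0533), unit BRIDGE, file Tab : the discrete table of a real tree on a chain; `ghCNuF` = `trNu`      (owner helper42; prefix `brg_t_`)      0 sorry

* `brg_t_idx_mono`, `brg_t_idx_le`, `brg_t_idx_top`   the index `ghIdx ps p`
* `brg_t_disc`        `GhIsRT a q τ → IsTr ps.length q (ghDisc ps τ)`
* `brg_t_repN`        for a table which is a tree: `ghNu .. (ghRepN q sh) ..  = ghNu .. (trRep q sh) ..`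
* `brg_t_nuF`         `ghCNuF B Φ v z q τ P ps = trNu B (ghChain Φ B.a v 0 ps) q (ghDisc ps τ) z (fun σ => P fun x => σ x)`
-/

set_option autoImplicit false
set_option linter.unusedSectionVars false

namespace Claimed.Agent.R286

open MeasureTheory ProbabilityTheory

/-- `ghIdx` in plain form (the definition filters the list of the coerced positions) -/
theorem brg_t_idx_eq (ps : List GhPos) (p : WithTop GhPos) :
    ghIdx ps p = (ps.filter fun x : GhPos => decide ((x : WithTop GhPos) ≤ p)).length + if p = ⊤ then 1 else 0 := by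
  unfold ghIdx
  congr 1
  induction ps with
  | nil => rfl
  | cons x ps ih =>
    simp only [List.filter_cons] at ih ⊢
    simp only [List.bind_eq_flatMap, List.flatMap_cons, List.pure_def, List.singleton_append, List.filter_cons] at ih ⊢
    split_ifs <;> simp [ih]

theorem brg_t_idx_le (ps : List GhPos) (p : WithTop GhPos) : ghIdx ps p ≤ ps.length + 1 := by
  rw [brg_t_idx_eq]
  have h1 := List.length_filter_le (fun x : GhPos => decide ((x : WithTop GhPos) ≤ p)) ps
  split_ifs <;> omega

theorem brg_t_idx_top (ps : List GhPos) : ghIdx ps ⊤ = ps.length + 1 := by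
  rw [brg_t_idx_eq]
  simp

theorem brg_t_idx_coe (ps : List GhPos) (p : GhPos) :
    ghIdx ps (p : WithTop GhPos) = (ps.filter fun x : GhPos => decide (x ≤ p)).length := by
  rw [brg_t_idx_eq]
  simp

theorem brg_t_idx_coe_le (ps : List GhPos) (p : GhPos) : ghIdx ps (p : WithTop GhPos) ≤ ps.length := by
  rw [brg_t_idx_coe]
  exact List.length_filter_le _ ps

theorem brg_t_idx_mono (ps : List GhPos) : Monotone (ghIdx ps) := by
  intro p p' h
  by_cases hp' : p' = ⊤
  · subst hp'
    rw [brg_t_idx_top]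
    exact brg_t_idx_le ps p
  · have hp : p ≠ ⊤ := fun h' => hp' (top_le_iff.1 (h' ▸ h))
    rw [brg_t_idx_eq, brg_t_idx_eq, if_neg hp, if_neg hp', add_zero, add_zero]
    apply List.Sublist.length_le
    apply List.monotone_filter_right
    intro x hx
    simp only [decide_eq_true_eq] at hx ⊢
    exact hx.trans h

/-- the discrete table of a real tree on a chain is a tree -/
theorem brg_t_disc {a : ℝ} {q : ℕ} {τ : ℕ → ℕ → WithTop GhPos} (hτ : GhIsRT a q τ) (ps : List GhPos) :
    IsTr ps.length q (ghDisc ps τ) where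
  le := fun x y _ _ => brg_t_idx_le ps _
  diag := fun x hx => by unfold ghDisc; rw [hτ.diag x hx, brg_t_idx_top]
  symm := fun x y hx hy => by unfold ghDisc; rw [hτ.symm x y hx hy]
  ultra := fun x y z hx hy hz => by
    unfold ghDisc
    rw [← (brg_t_idx_mono ps).map_min]
    exact brg_t_idx_mono ps (hτ.ultra x y z hx hy hz)

/-- the `GhTree` of a table which is a tree -/
def brgTree {N q : ℕ} {sh : ℕ → ℕ → ℕ} (h : IsTr N q sh) : GhTree q where
  sh := fun x y => sh x.1 y.1
  symm := fun x y => h.symm _ _ x.2 y.2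
  ultra := fun x y z _ => h.ultra _ _ _ x.2 y.2 z.2

theorem brg_t_eqns_cite : True := by
  have := @brgTree.eq_1
  trivial

theorem brg_t_rep_eq {N q : ℕ} {sh : ℕ → ℕ → ℕ} (h : IsTr N q sh) : ghRepN q sh = (brgTree h).rep := rfl

variable {S ι : Type} [Fintype S] [Fintype ι]

/-- the two choices of representatives give the same numbers -/
theorem brg_t_repN {B : GhB S} (hB : B.Ok) {ls : List (GhLv S ι)} (hls : GhNn ls) {N q : ℕ} {sh : ℕ → ℕ → ℕ} (h : IsTr N q sh)
    (z : S → ℝ) (P : (ℕ → Fin q → ι → ℝ) → (Fin q → S) → ℝ) :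
    ghNu B ls (ghRepN q sh) (fun _ => z) P = ghNu B ls (fun t => trRep q sh t) (fun _ => z) P := by
  have h1 := gh_n_inv B hB ls hls (id : Fin q → Fin q) (ghRepN q sh) (fun t => trRep q sh t)
    (by rw [brg_t_rep_eq h]; exact gh_n_rep_ok _) (tb2_repOk h)
    (by
      intro t x y
      rw [brg_t_rep_eq h, tb2_rep_iff h, gh_n_rep_iff]
      exact ⟨fun h' => h'.imp Eq.symm id, fun h' => h'.imp Eq.symm id⟩)
    (fun _ => z) (fun _ _ _ => rfl) P
  simpa using h1

theorem brg_t_chain_length (Φ : S → ι → ℝ) (a : ℝ) (v : ι → ℝ → ℝ) (ps : List GhPos) :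
    ∀ c : ι → ℝ, (ghChain Φ a v c ps).length = ps.length := by
  induction ps with
  | nil => intro c; rfl
  | cons p ps ih => intro c; simp [ghChain, ih]

theorem brg_t_chain_nn (Φ : S → ι → ℝ) (a : ℝ) (v : ι → ℝ → ℝ) (ps : List GhPos) (hps : ∀ p ∈ ps, p.Ok a) :
    ∀ c : ι → ℝ, GhNn (ghChain Φ a v c ps) := by
  induction ps with
  | nil => intro c l hl; exact absurd hl List.not_mem_nil
  | cons p ps ih =>
    intro c l hl
    simp only [ghChain, List.mem_cons] at hl
    rcases hl with rfl | hl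
    · exact (hps p List.mem_cons_self).1
    · exact ih (fun r hr => hps r (List.mem_cons_of_mem _ hr)) _ l hl

theorem brg_t_ext [Inhabited S] {q : ℕ} (σ : Fin q → S) : (fun x : Fin q => trExt σ x.1) = σ := by
  funext x
  simp [trExt, x.2]

/-- **the numbers of `Defs/Clk` on one chain are tree numbers of `Defs/Tr`** -/
theorem brg_t_nuF [Inhabited S] {B : GhB S} (hB : B.Ok) (Φ : S → ι → ℝ) (v : ι → ℝ → ℝ) (z : S → ℝ) {q : ℕ}
    {τ : ℕ → ℕ → WithTop GhPos} (hτ : GhIsRT B.a q τ) (P : (Fin q → S) → ℝ) {ps : List GhPos} (hps : ∀ p ∈ ps, p.Ok B.a) :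
    ghCNuF B Φ v z q τ P ps = trNu B (ghChain Φ B.a v 0 ps) q (ghDisc ps τ) z fun σ => P fun x => σ x.1 := by
  unfold ghCNuF trNu
  rw [brg_t_repN hB (brg_t_chain_nn Φ B.a v ps hps 0) (brg_t_disc hτ ps)]
  simp only [brg_t_ext]

theorem brg_t_uses {q : ℕ} (P : (Fin q → S) → ℝ) : TrUses q fun σ : ℕ → S => P fun x => σ x.1 := by
  intro σ σ' h
  have : (fun x : Fin q => σ x.1) = fun x : Fin q => σ' x.1 := by
    funext x
    exact h x.1 x.2
  simp only [this]

end Claimed.Agent.R286
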