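import Claimed.Agent.R286.Brg.Rem
import Claimed.Agent.R286.Brg.Osc

/-!
# Row 286 (S0533), unit BRIDGE, file Thin : THINNING OF A CHAIN      (helper55; prefix `gh_th_`)      0 sorry

`K` = the positions which are KEPT.  A strictly sorted chain `ps` (masses `≥ 0`) with monotone values `V ≥ 0` has the same numbers as `ps.filter K`, if every kept
position is in `ps` and every `r ∈ ps` which is not kept is

* EMPTY: `V r = 0`, or `V r = V k` for a kept `k < r`;  or
* MERGED: there is a kept `k > r` of the same mass, with no fork in `[r, k)`.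

`gh_th_gen` (any functional with the two removal properties), `gh_th_F` (pressure), `gh_th_nu` (tree numbers of spin tests).
-/

set_option autoImplicit false
set_option linter.unusedSectionVars false

namespace Claimed.Agent.R286

variable {S ι : Type}

theorem gh_th_u_mono {p q : GhPos} (h : p ≤ q) : p.u ≤ q.u := by
  rcases (gh_os_pos_le_iff p q).1 h with h | h
  · exact h.le
  · exact h.1.le

/-- value before `r` on a sorted monotone chain, lower bound -/
theorem gh_th_end_le (V : GhPos → ι → ℝ) {pre : List GhPos} {r : GhPos} (hV0 : ∀ i, 0 ≤ V r i)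
    (hVm : ∀ x ∈ pre, ∀ i, V x i ≤ V r i) (i : ι) : ghEndV V 0 pre i ≤ V r i := by
  rcases gh_rm_endV_mem V 0 pre with ⟨h, _⟩ | ⟨p, hp, h, _⟩
  · rw [h]; exact hV0 i
  · rw [h]; exact hVm p hp i

/-- **thinning**, for any functional `Q` of chains with the two removal properties; `NF r p` = "no fork in `[r, p)`" -/
theorem gh_th_gen {α : Type} (V : GhPos → ι → ℝ) (Q : List GhPos → α) (NF : GhPos → GhPos → Prop)
    (hNF : ∀ r p k, p ≤ k → NF r k → NF r p)
    (hE : ∀ (pre post : List GhPos) (r : GhPos), (∀ x ∈ pre, x < r) → (∀ y ∈ post, r < y) → V r = ghEndV V 0 pre →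
      Q (pre ++ r :: post) = Q (pre ++ post))
    (hM : ∀ (pre post : List GhPos) (r p : GhPos), (∀ x ∈ pre, x < r) → r < p → (∀ y ∈ post, p < y) →
      (∀ y ∈ p :: post, 0 ≤ y.u) → r.u = p.u → (∀ i, ghEndV V 0 pre i ≤ V r i) → (∀ i, V r i ≤ V p i) → NF r p →
      Q (pre ++ r :: p :: post) = Q (pre ++ p :: post))
    (K : GhPos → Prop) [DecidablePred K] :
    ∀ (post pre : List GhPos), (pre ++ post).Pairwise (· < ·) → (∀ x ∈ pre ++ post, 0 ≤ x.u) →
      (∀ k, K k → k ∈ pre ++ post) → (∀ x ∈ pre ++ post, ∀ i, 0 ≤ V x i) →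
      (∀ x ∈ pre ++ post, ∀ y ∈ pre ++ post, x ≤ y → ∀ i, V x i ≤ V y i) →
      (∀ r ∈ post, ¬ K r → (V r = 0 ∨ ∃ k, K k ∧ k < r ∧ V k = V r) ∨ ∃ k, K k ∧ r < k ∧ k.u = r.u ∧ NF r k) →
      Q (pre ++ post) = Q (pre ++ post.filter fun x => decide (K x))
  | [], pre, _, _, _, _, _, _ => by simp
  | r :: post, pre, hs, hnn, hK, hV0, hVm, hr => by
      have hs' := List.pairwise_append.1 hs
      have hpre : ∀ x ∈ pre, x < r := fun x hx => hs'.2.2 x hx r List.mem_cons_self
      have hpost : ∀ y ∈ post, r < y := (List.pairwise_cons.1 hs'.2.1).1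
      have hrm : r ∈ pre ++ r :: post := List.mem_append_right _ List.mem_cons_self
      by_cases hKr : K r
      · -- kept: move it to the prefix
        have e : pre ++ r :: post = (pre ++ [r]) ++ post := by simp
        have ih := gh_th_gen V Q NF hNF hE hM K post (pre ++ [r]) (e ▸ hs) (e ▸ hnn) (e ▸ hK) (e ▸ hV0) (e ▸ hVm)
          (fun x hx => hr x (List.mem_cons_of_mem _ hx))
        rw [List.filter_cons_of_pos (by simpa using hKr), e, ih]
        simp
      · -- removed
        have hsub : ∀ x, x ∈ pre ++ post → x ∈ pre ++ r :: post := by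
          intro x hx
          rcases List.mem_append.1 hx with h | h
          · exact List.mem_append_left _ h
          · exact List.mem_append_right _ (List.mem_cons_of_mem _ h)
        have hs2 : (pre ++ post).Pairwise (· < ·) :=
          hs.sublist (List.Sublist.append_left (List.sublist_cons_self r post) pre)
        have hK2 : ∀ k, K k → k ∈ pre ++ post := by
          intro k hk
          rcases List.mem_append.1 (hK k hk) with h | h
          · exact List.mem_append_left _ h
          · rcases List.mem_cons.1 h with rfl | h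
            · exact absurd hk hKr
            · exact List.mem_append_right _ h
        have ih := gh_th_gen V Q NF hNF hE hM K post pre hs2 (fun x hx => hnn x (hsub x hx)) hK2
          (fun x hx => hV0 x (hsub x hx)) (fun x hx y hy => hVm x (hsub x hx) y (hsub y hy))
          (fun x hx => hr x (List.mem_cons_of_mem _ hx))
        rw [List.filter_cons_of_neg (by simpa using hKr), ← ih]
        have hle : ∀ x ∈ pre, ∀ i, V x i ≤ V r i := fun x hx =>
          hVm x (List.mem_append_left _ hx) r hrm (hpre x hx).le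
        rcases hr r List.mem_cons_self hKr with hem | ⟨k, hk, hrk, hu, hnf⟩
        · -- empty
          refine hE pre post r hpre hpost ?_
          rcases gh_rm_endV_mem V 0 pre with ⟨h, hnil⟩ | ⟨p, hp, h, hmax⟩
          · rcases hem with h0 | ⟨k, hk, hkr, _⟩
            · rw [h, h0]
            · exfalso
              subst hnil
              rcases List.mem_cons.1 (by simpa using hK k hk) with rfl | h'
              · exact lt_irrefl _ hkr
              · exact lt_asymm hkr (hpost k h')
          · rw [h]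
            funext i
            refine le_antisymm ?_ (hle p hp i)
            rcases hem with h0 | ⟨k, hk, hkr, hkV⟩
            · rw [h0]; exact hV0 p (List.mem_append_left _ hp) i
            · have hkpre : k ∈ pre := by
                rcases List.mem_append.1 (hK k hk) with h' | h'
                · exact h'
                · exfalso
                  rcases List.mem_cons.1 h' with rfl | h'
                  · exact lt_irrefl _ hkr
                  · exact lt_asymm hkr (hpost k h')
              rw [← hkV]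
              exact hVm k (List.mem_append_left _ hkpre) p (List.mem_append_left _ hp) (hmax k hkpre hs'.1) i
        · -- merged with the next position
          have hkpost : k ∈ post := by
            rcases List.mem_append.1 (hK k hk) with h' | h'
            · exact absurd (hpre k h') (lt_asymm hrk)
            · rcases List.mem_cons.1 h' with rfl | h'
              · exact absurd hrk (lt_irrefl _)
              · exact h'
          match post, hkpost, hpost, hs', hnn, hVm, hrm with
          | p :: post', hkpost, hpost, hs', hnn, hVm, hrm =>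
            have hrp : r < p := hpost p List.mem_cons_self
            have hs3 := List.pairwise_cons.1 (List.pairwise_cons.1 hs'.2.1).2
            have hpk : p ≤ k := by
              rcases List.mem_cons.1 hkpost with rfl | h'
              · exact le_rfl
              · exact (hs3.1 k h').le
            have hpm : p ∈ pre ++ r :: p :: post' :=
              List.mem_append_right _ (List.mem_cons_of_mem _ List.mem_cons_self)
            refine hM pre post' r p hpre hrp hs3.1
              (fun y hy => hnn y (List.mem_append_right _ (List.mem_cons_of_mem _ hy))) ?_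
              (gh_th_end_le V (hV0 r hrm) hle) (hVm r hrm p hpm hrp.le) (hNF r p k hpk hnf)
            exact le_antisymm (gh_th_u_mono hrp.le) (hu ▸ gh_th_u_mono hpk)

variable [Fintype S] [Fintype ι]

/-- **thinning for the pressure** -/
theorem gh_th_F {B : GhB S} (hB : B.Ok) (Φ : S → ι → ℝ) (V : GhPos → ι → ℝ) (K : GhPos → Prop) [DecidablePred K]
    {ps : List GhPos} (hs : ps.Pairwise (· < ·)) (hnn : ∀ x ∈ ps, 0 ≤ x.u) (hK : ∀ k, K k → k ∈ ps)
    (hV0 : ∀ x ∈ ps, ∀ i, 0 ≤ V x i) (hVm : ∀ x ∈ ps, ∀ y ∈ ps, x ≤ y → ∀ i, V x i ≤ V y i)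
    (hr : ∀ r ∈ ps, ¬ K r → (V r = 0 ∨ ∃ k, K k ∧ k < r ∧ V k = V r) ∨ ∃ k, K k ∧ r < k ∧ k.u = r.u) :
    ghF B (ghChV Φ V 0 ps) = ghF B (ghChV Φ V 0 (ps.filter fun x => decide (K x))) :=
  gh_th_gen V (fun ps => ghF B (ghChV Φ V 0 ps)) (fun _ _ => True) (fun _ _ _ _ _ => trivial)
    (fun pre post r _ _ h => gh_rm_F_empty B Φ V 0 pre post r h)
    (fun pre post r p _ _ _ _ hu h1 h2 _ => gh_rm_F_merge hB Φ V 0 pre post r p hu h1 h2) K ps [] hs hnn hK hV0 hVm
    (fun r hr' hKr => (hr r hr' hKr).imp id fun ⟨k, h1, h2, h3⟩ => ⟨k, h1, h2, h3, trivial⟩)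

/-- **thinning for the tree numbers of spin tests** -/
theorem gh_th_nu {B : GhB S} (hB : B.Ok) (Φ : S → ι → ℝ) (V : GhPos → ι → ℝ) (z : S → ℝ) (q : ℕ)
    (τ : ℕ → ℕ → WithTop GhPos) (P : (Fin q → S) → ℝ) (K : GhPos → Prop) [DecidablePred K]
    {ps : List GhPos} (hs : ps.Pairwise (· < ·)) (hnn : ∀ x ∈ ps, 0 ≤ x.u) (hK : ∀ k, K k → k ∈ ps)
    (hV0 : ∀ x ∈ ps, ∀ i, 0 ≤ V x i) (hVm : ∀ x ∈ ps, ∀ y ∈ ps, x ≤ y → ∀ i, V x i ≤ V y i)
    (hr : ∀ r ∈ ps, ¬ K r → (V r = 0 ∨ ∃ k, K k ∧ k < r ∧ V k = V r) ∨ ∃ k, K k ∧ r < k ∧ k.u = r.u ∧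
      ∀ x y, x < q → y < q → ¬ ((r : WithTop GhPos) ≤ τ x y ∧ τ x y < (k : WithTop GhPos))) :
    ghNuV B Φ V z q τ P ps = ghNuV B Φ V z q τ P (ps.filter fun x => decide (K x)) :=
  gh_th_gen V (ghNuV B Φ V z q τ P)
    (fun r k => ∀ x y, x < q → y < q → ¬ ((r : WithTop GhPos) ≤ τ x y ∧ τ x y < (k : WithTop GhPos)))
    (fun _ _ _ hpk h x y hx hy hc => h x y hx hy ⟨hc.1, lt_of_lt_of_le hc.2 (WithTop.coe_le_coe.2 hpk)⟩)
    (fun _ _ _ h1 h2 h => gh_rm_nuV_empty B Φ V z q τ P h1 h2 h)
    (fun _ _ _ _ h1 hrp h2 hnn hu hV1 hV2 hτ => gh_rm_nuV_merge hB Φ V z q τ P h1 hrp h2 hnn hu hV1 hV2 hτ)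
    K ps [] hs hnn hK hV0 hVm hr

end Claimed.Agent.R286
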