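import Claimed.Agent.R286.Brg.Engine
import Claimed.Agent.R286.Brg.Tab
import Claimed.Agent.R286.Brg.Refine
import Claimed.Agent.R286.Brg.Thin

/-!
# Row 286 (S0533), unit BRIDGE, file LipPf : PART 1 proof of `exit_clkLip` (two families of clocks on one chain; prefix `brg_l_`);   PART 2 THE GENERAL FORK LEMMA `brg_fk_multi` (prefix `brg_fk_`)      (owner helper42)      0 sorry
-/

set_option autoImplicit false
set_option linter.unusedSectionVars false

namespace Claimed.Agent.R286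

open MeasureTheory ProbabilityTheory Set

variable {S ι : Type} [Fintype S] [Fintype ι]

theorem brg_l_nu_abs [Inhabited S] {B : GhB S} (hB : B.Ok) {ls : List (GhLv S ι)} (hls : GhNn ls) (q : ℕ) (τ : ℕ → ℕ → ℕ) (z : S → ℝ)
    (P : (ℕ → S) → ℝ) (M : ℝ) (hP : ∀ σ, |P σ| ≤ M) : |trNu B ls q τ z P| ≤ M := by
  unfold trNu
  exact gh_n_abs_le B hB M ls hls _ _ _ (fun _ σ => hP _)

theorem brg_l_tr1 (N : ℕ) : IsTr N 1 (fun _ _ => N + 1) where
  le := fun _ _ _ _ => le_rfl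
  diag := fun _ _ => rfl
  symm := fun _ _ _ _ => rfl
  ultra := fun _ _ _ _ _ _ => by simp

theorem brg_l_F_gc [Inhabited S] {B : GhB S} (hB : B.Ok) (Φ : S → ι → ℝ) (hs : List (ℝ × (ι → ℝ))) (z : S → ℝ) :
    ghF B (brgLs Φ hs) z = ghF B (gcLs (brgFeat Φ) hs) z := by
  apply gh_F_cov_congr hB
  · simp [brgLs, gcLs]
  · intro j
    unfold trMs brgLs gcLs
    simp only [List.getElem?_map, Option.map_map]
    rfl
  · intro j h h' s t
    simp only [brgLs, gcLs, List.getElem_map]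
    exact brg_e_cov Φ _ _ s t

/-- ENGINE for the pressure, affine family form -/
theorem brg_l_F_aff [Inhabited S] {B : GhB S} (hB : B.Ok) (Φ : S → ι → ℝ) {H : List (ℝ × (ι → ℝ) × (ι → ℝ))} (hH : GcAffAdm B.a H)
    (z : S → ℝ) (M : ℝ) (hM : ∀ t s s', |trV (gcDK (brgFeat Φ) H) H.length t s s'| ≤ M) :
    |ghF B (brgLs Φ (gcAff H 1)) z - ghF B (brgLs Φ (gcAff H 0)) z| ≤ B.a * M := by
  rw [brg_l_F_gc hB, brg_l_F_gc hB]
  have hb : ∀ θ ∈ Icc (0 : ℝ) 1, ‖(1 / 2 * trSum (gcMs B.a H) H.length 1 (fun _ _ => H.length + 1) fun τ₂ =>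
        gcNu B (brgFeat Φ) H θ 2 τ₂ z fun σ => trV (gcDK (brgFeat Φ) H) H.length (τ₂ 0 1) (σ 0) (σ 1))‖ ≤ B.a * M := by
    intro θ _
    obtain ⟨hadm, hlen, hms⟩ := gc_adm (B := B) (brgFeat Φ) hH θ
    have hms' : trMs B (gcLs (brgFeat Φ) (gcAff H θ)) = gcMs B.a H := funext hms
    obtain ⟨h1, h2⟩ := tr_ms_isMs hB hadm
    rw [hms', hlen] at h1 h2
    set Ψ : (ℕ → ℕ → ℕ) → ℝ := fun τ₂ =>
        gcNu B (brgFeat Φ) H θ 2 τ₂ z fun σ => trV (gcDK (brgFeat Φ) H) H.length (τ₂ 0 1) (σ 0) (σ 1) with hΨ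
    have h3 : |trSumK (gcMs B.a H) H.length 1 1 (fun _ _ => H.length + 1) Ψ|
        ≤ (2 * gcMs B.a H H.length) ^ 1 * (∏ i ∈ Finset.range 1, (((1 : ℕ) : ℝ) + i)) * M :=
      (tr_sumK_le 1 Ψ).trans (tr_absK_le (brg_l_tr1 H.length) h1 1 Ψ M (fun τ' _ =>
        brg_l_nu_abs hB (hadm.ghNn le_rfl) _ _ _ _ M (fun σ => hM _ _ _)))
    have h4 : trSumK (gcMs B.a H) H.length 1 1 (fun _ _ => H.length + 1) Ψ
        = trSum (gcMs B.a H) H.length 1 (fun _ _ => H.length + 1) Ψ := by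
      simp [trSumK]
    rw [h4, h2] at h3
    rw [Real.norm_eq_abs, abs_mul, abs_of_nonneg (by norm_num : (0 : ℝ) ≤ 1 / 2)]
    have h5 : (2 * B.a) ^ 1 * (∏ i ∈ Finset.range 1, (((1 : ℕ) : ℝ) + i)) * M = 2 * (B.a * M) := by
      simp; ring
    rw [h5] at h3
    linarith
  have h := (convex_Icc (0 : ℝ) 1).norm_image_sub_le_of_norm_hasDerivWithin_le
    (fun θ hθ => tr_pressure_deriv hB (brgFeat Φ) hH z hθ) hb
    (left_mem_Icc.2 zero_le_one) (right_mem_Icc.2 zero_le_one)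
  simpa [Real.norm_eq_abs] using h

theorem brg_l_inh {B : GhB S} (hB : B.Ok) : Nonempty S := by
  by_contra h
  rw [not_nonempty_iff] at h
  have := hB.sum
  simp at this

/-- **proof of `exit_clkLip`** -/
theorem brg_l_main {B : GhB S} (hB : B.Ok) (Φ : S → ι → ℝ) {v v' : ι → ℝ → ℝ}
    (hv : GhClk B.a v) (hv' : GhClk B.a v') {ps : List GhPos} (hps : GhChOk B.a ps) {M : ℝ} (hM0 : 0 ≤ M)
    (hM : ∀ p ∈ ps, ∀ s t, |ghKer Φ (fun i => ghClkAt B.a v' p i - ghClkAt B.a v p i) s t| ≤ M) (z : S → ℝ) :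
    |ghF B (ghChain Φ B.a v' 0 ps) z - ghF B (ghChain Φ B.a v 0 ps) z| ≤ B.a * M ∧
    ∀ (q : ℕ) (τ : ℕ → ℕ → WithTop GhPos), GhIsRT B.a q τ →
      ∀ (P : (Fin q → S) → ℝ) (K : ℝ), (∀ σ, |P σ| ≤ K) →
        |ghCNuF B Φ v' z q τ P ps - ghCNuF B Φ v z q τ P ps| ≤ 2 * B.a ^ 2 * q * (q + 1) * M * K := by
  have : Inhabited S := ⟨Classical.choice (brg_l_inh hB)⟩
  have ha : 0 ≤ B.a := hB.pos.le
  constructor
  · have hadm := (brg_e_H_adm ha hv hv' ps 0 0 hps.1 hps.2 (fun p hp i =>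
      ⟨gh_os_at_nonneg ha (hv i) (hps.2 p hp).2.2.1, gh_os_at_nonneg ha (hv' i) (hps.2 p hp).2.2.1⟩)).1
    have hlen := brg_e_H_length B.a v v' ps 0 0
    have hker0 : ∀ s s', ghKer Φ (fun i => (0 : ι → ℝ) i - (0 : ι → ℝ) i) s s' = 0 := by
      intro s s'; simp [ghKer]
    have h := brg_l_F_aff hB Φ hadm z M (by
      intro t s s'
      have h1 := brg_e_trV Φ B.a v v' M s s' ps 0 0 (by rw [hker0]; simpa using hM0) (fun p hp => hM p hp s s') t
      rw [hker0, add_zero] at h1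
      rw [hlen]
      exact h1)
    rw [brg_e_H_zero, brg_e_H_one] at h
    exact h
  · intro q τ hτ P K hK
    rw [brg_t_nuF hB Φ v' z hτ P hps.2, brg_t_nuF hB Φ v z hτ P hps.2]
    exact brg_e_chain hB Φ hv hv' hps (brg_t_disc hτ ps) z _ (brg_t_uses P) M K hM0 hM (fun σ => hK _)

/-! ## PART 2 : THE GENERAL FORK LEMMA      (helper42; prefix `brg_fk_`, defs `brgRm*`)      0 sorry

Two real trees `τ, τ'` on ONE chain which differ only inside finitely many intervals `[x_k, x_k']` of positions (`x_k` in the chain): for every pair of labels `τ = τ'`, or both forks lie in one of the intervals.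
Then the tree numbers differ by at most `4 a² q (q+1) M K`, `M` = sum of the growths of the diagonal of the cumulative kernel on the intervals.   NO term in the masses; EQUAL FORKS CAN BE SEPARATED.
PROOF.  REMOVE the increments of the values on all the intervals (`brgRmL`; the removals commute with monotonicity: increments only decrease): engine of 148 for each of the two trees;
for the new values the positions of `(x_k, x_k']` are empty: thinning of 55; on the thinned chain the two trees have the same table. -/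

section fork
variable {κ : Type}

open Classical in
/-- the increments of the values on `(x, x']` are removed -/
noncomputable def brgRm (V : GhPos → κ → ℝ) (x x' : GhPos) : GhPos → κ → ℝ :=
  fun r i => if r ≤ x then V r i else if r ≤ x' then V x i else V r i - (V x' i - V x i)

/-- removal on a list of intervals -/
noncomputable def brgRmL (V : GhPos → κ → ℝ) : List (GhPos × GhPos) → GhPos → κ → ℝ
  | [] => V
  | e :: L => brgRm (brgRmL V L) e.1 e.2

theorem brg_fk_eqns_cite : True := by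
  have := @brgRm.eq_1
  have := @brgRmL.eq_1
  have := @brgRmL.eq_2
  have := @brgRmL.eq_def
  have := @brgRmL.induct
  trivial

/-- monotone on the valid positions -/
def BrgMon (a : ℝ) (W : GhPos → κ → ℝ) : Prop := ∀ s s' : GhPos, s.Ok a → s'.Ok a → s ≤ s' → ∀ i, W s i ≤ W s' i

theorem brg_fk_rm_dom {a : ℝ} {W : GhPos → κ → ℝ} (hW : BrgMon a W) {x x' : GhPos} (hx : x.Ok a) (hx' : x'.Ok a) (hxx : x ≤ x')
    {s s' : GhPos} (hs : s.Ok a) (hs' : s'.Ok a) (h : s ≤ s') (i : κ) :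
    0 ≤ brgRm W x x' s' i - brgRm W x x' s i ∧ brgRm W x x' s' i - brgRm W x x' s i ≤ W s' i - W s i := by
  unfold brgRm
  have m0 := hW s s' hs hs' h i
  have m1 := hW x x' hx hx' hxx i
  by_cases h1 : s' ≤ x
  · have h2 : s ≤ x := h.trans h1
    simp only [h1, h2, if_true]
    exact ⟨by linarith, le_rfl⟩
  · have h1' : x ≤ s' := (not_le.1 h1).le
    by_cases h2 : s ≤ x
    · by_cases h3 : s' ≤ x'
      · simp only [h1, h2, h3, if_true, if_false]
        exact ⟨by linarith [hW s x hs hx h2 i], by linarith [hW x s' hx hs' h1' i]⟩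
      · simp only [h1, h2, h3, if_true, if_false]
        have := hW x' s' hx' hs' (not_le.1 h3).le i
        have := hW s x hs hx h2 i
        exact ⟨by linarith, by linarith⟩
    · by_cases h3 : s' ≤ x'
      · have h4 : s ≤ x' := h.trans h3
        simp only [h1, h2, h3, h4, if_true, if_false]
        exact ⟨by linarith, by linarith⟩
      · by_cases h4 : s ≤ x'
        · simp only [h1, h2, h3, h4, if_true, if_false]
          have := hW x' s' hx' hs' (not_le.1 h3).le i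
          have := hW s x' hs hx' h4 i
          exact ⟨by linarith, by linarith⟩
        · simp only [h1, h2, h3, h4, if_false]
          exact ⟨by linarith, by linarith⟩

theorem brg_fk_rm_flat (W : GhPos → κ → ℝ) {x x' s : GhPos} (h1 : x ≤ s) (h2 : s ≤ x') (i : κ) : brgRm W x x' s i = W x i := by
  unfold brgRm
  by_cases h : s ≤ x
  · rw [if_pos h, le_antisymm h h1]
  · rw [if_neg h, if_pos h2]

theorem brg_fk_rm_low (W : GhPos → κ → ℝ) {x x' s : GhPos} (h : s ≤ x) (i : κ) : brgRm W x x' s i = W s i := by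
  unfold brgRm
  rw [if_pos h]

theorem brg_fk_rm_le {a : ℝ} {W : GhPos → κ → ℝ} (hW : BrgMon a W) {x x' : GhPos} (hx : x.Ok a) (hx' : x'.Ok a) (hxx : x ≤ x')
    {r : GhPos} (hr : r.Ok a) (i : κ) : 0 ≤ W r i - brgRm W x x' r i ∧ W r i - brgRm W x x' r i ≤ W x' i - W x i := by
  unfold brgRm
  have m1 := hW x x' hx hx' hxx i
  by_cases h1 : r ≤ x
  · simp only [h1, if_true]
    exact ⟨by linarith, by linarith⟩
  · by_cases h2 : r ≤ x'
    · simp only [h1, h2, if_true, if_false]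
      exact ⟨by linarith [hW x r hx hr (not_le.1 h1).le i], by linarith [hW r x' hr hx' h2 i]⟩
    · simp only [h1, h2, if_false]
      exact ⟨by linarith, by linarith⟩

/-- admissible list of intervals -/
def BrgIv (a : ℝ) (L : List (GhPos × GhPos)) : Prop := ∀ e ∈ L, e.1.Ok a ∧ e.2.Ok a ∧ e.1 ≤ e.2

theorem brg_fk_iv_tail {a : ℝ} {e : GhPos × GhPos} {L : List (GhPos × GhPos)} (h : BrgIv a (e :: L)) : BrgIv a L :=
  fun e' he' => h e' (List.mem_cons_of_mem _ he')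

/-- the increments of the new values are nonnegative and below the old ones -/
theorem brg_fk_dom {a : ℝ} {V : GhPos → κ → ℝ} (hV : BrgMon a V) : ∀ (L : List (GhPos × GhPos)), BrgIv a L →
    ∀ {s s' : GhPos}, s.Ok a → s'.Ok a → s ≤ s' → ∀ i,
      0 ≤ brgRmL V L s' i - brgRmL V L s i ∧ brgRmL V L s' i - brgRmL V L s i ≤ V s' i - V s i
  | [], _, s, s', hs, hs', h, i => ⟨sub_nonneg.2 (hV s s' hs hs' h i), le_rfl⟩
  | e :: L, hL, s, s', hs, hs', h, i => by
      have ih := fun {s s' : GhPos} (hs : s.Ok a) (hs' : s'.Ok a) (h : s ≤ s') i => brg_fk_dom hV L (brg_fk_iv_tail hL) hs hs' h i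
      have hW : BrgMon a (brgRmL V L) := fun s s' hs hs' h i => sub_nonneg.1 (ih hs hs' h i).1
      obtain ⟨e1, e2, e3⟩ := hL e List.mem_cons_self
      have := brg_fk_rm_dom hW e1 e2 e3 hs hs' h i
      exact ⟨this.1, this.2.trans (ih hs hs' h i).2⟩

theorem brg_fk_mon {a : ℝ} {V : GhPos → κ → ℝ} (hV : BrgMon a V) {L : List (GhPos × GhPos)} (hL : BrgIv a L) :
    BrgMon a (brgRmL V L) := fun _ _ hs hs' h i => sub_nonneg.1 (brg_fk_dom hV L hL hs hs' h i).1

/-- the new values are constant on each interval -/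
theorem brg_fk_flat {a : ℝ} {V : GhPos → κ → ℝ} (hV : BrgMon a V) : ∀ (L : List (GhPos × GhPos)), BrgIv a L →
    ∀ e ∈ L, ∀ {s : GhPos}, s.Ok a → e.1 ≤ s → s ≤ e.2 → ∀ i, brgRmL V L s i = brgRmL V L e.1 i
  | [], _, e, he, _, _, _, _, _ => by simp at he
  | e₀ :: L, hL, e, he, s, hs, h1, h2, i => by
      obtain ⟨e1, e2, e3⟩ := hL e₀ List.mem_cons_self
      rcases List.mem_cons.1 he with rfl | he'
      · show brgRm (brgRmL V L) e.1 e.2 s i = brgRm (brgRmL V L) e.1 e.2 e.1 i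
        rw [brg_fk_rm_flat _ h1 h2, brg_fk_rm_flat _ le_rfl e3]
      · have ih := brg_fk_flat hV L (brg_fk_iv_tail hL) e he' hs h1 h2 i
        have hW := brg_fk_mon hV (brg_fk_iv_tail hL)
        have := brg_fk_rm_dom hW e1 e2 e3 (hL e he).1 hs h1 i
        show brgRm (brgRmL V L) e₀.1 e₀.2 s i = brgRm (brgRmL V L) e₀.1 e₀.2 e.1 i
        rw [ih, sub_self] at this
        linarith [this.1, this.2]

/-- what has been removed -/
theorem brg_fk_removed {a : ℝ} {V : GhPos → κ → ℝ} (hV : BrgMon a V) : ∀ (L : List (GhPos × GhPos)), BrgIv a L →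
    ∀ {r : GhPos}, r.Ok a → ∀ i,
      0 ≤ V r i - brgRmL V L r i ∧ V r i - brgRmL V L r i ≤ (L.map fun e => V e.2 i - V e.1 i).sum
  | [], _, r, _, i => by simp [brgRmL]
  | e :: L, hL, r, hr, i => by
      obtain ⟨e1, e2, e3⟩ := hL e List.mem_cons_self
      have ih := brg_fk_removed hV L (brg_fk_iv_tail hL) hr i
      have hW := brg_fk_mon hV (brg_fk_iv_tail hL)
      have h1 := brg_fk_rm_le hW e1 e2 e3 hr i
      have h2 := (brg_fk_dom hV L (brg_fk_iv_tail hL) e1 e2 e3 i).2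
      simp only [List.map_cons, List.sum_cons]
      show 0 ≤ V r i - brgRm (brgRmL V L) e.1 e.2 r i ∧ V r i - brgRm (brgRmL V L) e.1 e.2 r i ≤ _
      exact ⟨by linarith [ih.1, h1.1], by linarith [ih.2, h1.2]⟩

/-- nothing is removed below all the intervals -/
theorem brg_fk_low (V : GhPos → κ → ℝ) : ∀ (L : List (GhPos × GhPos)) {s : GhPos}, (∀ e ∈ L, s ≤ e.1) → ∀ i, brgRmL V L s i = V s i
  | [], _, _, _ => rfl
  | e :: L, s, h, i => by
      show brgRm (brgRmL V L) e.1 e.2 s i = V s i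
      rw [brg_fk_rm_low _ (h e List.mem_cons_self), brg_fk_low V L fun e' he' => h e' (List.mem_cons_of_mem _ he')]

theorem brg_fk_bot_le {a : ℝ} {p : GhPos} (hp : p.Ok a) : ghPosB 0 ≤ p := by
  rw [gh_os_pos_le_iff]
  rcases hp.1.lt_or_eq with h | h
  · left; simpa [ghPosB, GhPos.u] using h
  · right; exact ⟨by simpa [ghPosB, GhPos.u] using h, by simpa [ghPosB, GhPos.lam] using hp.2.2.1⟩

theorem brg_fk_val {a : ℝ} (ha : 0 ≤ a) {V : GhPos → κ → ℝ} (hV : GhBrVal a V) {L : List (GhPos × GhPos)} (hL : BrgIv a L) :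
    GhBrVal a (brgRmL V L) where
  nonneg := fun p hp i => by
    have hb : (ghPosB 0).Ok a := ⟨by simp [ghPosB, GhPos.u], by simpa [ghPosB, GhPos.u] using ha, by simp [ghPosB, GhPos.lam],
      by simp [ghPosB, GhPos.lam]⟩
    have h1 := brg_fk_mon (fun s s' hs hs' h i => hV.mono s s' hs hs' h i) hL (ghPosB 0) p hb hp (brg_fk_bot_le hp) i
    rw [brg_fk_low V L fun e he => brg_fk_bot_le (hL e he).1] at h1
    exact (hV.nonneg _ hb i).trans h1
  mono := fun p p' hp hp' h i => brg_fk_mon (fun s s' hs hs' h i => hV.mono s s' hs hs' h i) hL p p' hp hp' h i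

theorem brg_fk_repN_congr {q : ℕ} {sh sh' : ℕ → ℕ → ℕ} (h : ∀ x y, x < q → y < q → sh x y = sh' x y) :
    ghRepN q sh = ghRepN q sh' := by
  funext t a
  unfold ghRepN
  have e : (Finset.univ.filter fun b : Fin q => b = a ∨ t < sh a.1 b.1) = Finset.univ.filter fun b : Fin q => b = a ∨ t < sh' a.1 b.1 :=
    Finset.filter_congr fun b _ => by rw [h a.1 b.1 a.2 b.2]
  simp only [e]

/-- on a chain without positions in `(x, x']` all the positions of `[x, x']` have the same index -/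
theorem brg_fk_idx {ps : List GhPos} {x x' : GhPos} (h : ∀ r ∈ ps, ¬ (x < r ∧ r ≤ x')) {o : WithTop GhPos}
    (h1 : (x : WithTop GhPos) ≤ o) (h2 : o ≤ (x' : WithTop GhPos)) : ghIdx ps o = ghIdx ps (x : WithTop GhPos) := by
  have ho : o ≠ ⊤ := fun e => by rw [e] at h2; simp at h2
  rw [gh_rm_idx_eq, gh_rm_idx_eq, if_neg ho, if_neg (WithTop.coe_ne_top)]
  congr 2
  refine List.filter_congr fun r hr => ?_
  simp only [decide_eq_decide]
  constructor
  · intro h3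
    by_contra h4
    exact h r hr ⟨not_le.1 fun h5 => h4 (WithTop.coe_le_coe.2 h5), WithTop.coe_le_coe.1 (h3.trans h2)⟩
  · intro h3
    exact h3.trans h1

theorem brg_fk_sum_swap {α : Type} [Fintype κ] (L : List α) (f : α → κ → ℝ) (g : κ → ℝ) :
    ∑ i, (L.map fun e => f e i).sum * g i = (L.map fun e => ∑ i, f e i * g i).sum := by
  induction L with
  | nil => simp
  | cons e L ih =>
    simp only [List.map_cons, List.sum_cons, add_mul, Finset.sum_add_distrib, ih]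

end fork

/-- the general fork lemma for value chains -/
theorem brg_fk_multiV {B : GhB S} (hB : B.Ok) (Φ : S → ι → ℝ) {V : GhPos → ι → ℝ} (hV : GhBrVal B.a V)
    {ps : List GhPos} (hps : GhChOk B.a ps) (z : S → ℝ) {q : ℕ} {τ τ' : ℕ → ℕ → WithTop GhPos}
    (hτ : GhIsRT B.a q τ) (hτ' : GhIsRT B.a q τ') (L : List (GhPos × GhPos))
    (hL : ∀ e ∈ L, e.1 ∈ ps ∧ e.2.Ok B.a ∧ e.1 ≤ e.2)
    (hd : ∀ y w, y < q → w < q → τ y w = τ' y w ∨ ∃ e ∈ L, (e.1 : WithTop GhPos) ≤ τ y w ∧ τ y w ≤ (e.2 : WithTop GhPos) ∧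
      (e.1 : WithTop GhPos) ≤ τ' y w ∧ τ' y w ≤ (e.2 : WithTop GhPos)) {M : ℝ}
    (hM' : ∀ s, ∑ i, (L.map fun e => V e.2 i - V e.1 i).sum * Φ s i ^ 2 ≤ M)
    (P : (Fin q → S) → ℝ) {K : ℝ} (hP : ∀ σ, |P σ| ≤ K) :
    |ghBrNu B Φ V z q τ' P ps - ghBrNu B Φ V z q τ P ps| ≤ 4 * B.a ^ 2 * q * (q + 1) * M * K := by
  classical
  have ha : 0 ≤ B.a := hB.pos.le
  have hVm : BrgMon B.a V := fun s s' hs hs' h i => hV.mono s s' hs hs' h i
  have hIv : BrgIv B.a L := fun e he => ⟨hps.2 _ (hL e he).1, (hL e he).2.1, (hL e he).2.2⟩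
  obtain ⟨V2, hV2def⟩ : ∃ V2 : GhPos → ι → ℝ, V2 = brgRmL V L := ⟨_, rfl⟩
  have hV2 : GhBrVal B.a V2 := hV2def ▸ brg_fk_val ha hV hIv
  have hrem : ∀ r : GhPos, r.Ok B.a → ∀ i, 0 ≤ V r i - V2 r i ∧ V r i - V2 r i ≤ (L.map fun e => V e.2 i - V e.1 i).sum := by
    intro r hr i
    rw [hV2def]
    exact brg_fk_removed hVm L hIv hr i
  have hflat : ∀ e ∈ L, ∀ s : GhPos, s.Ok B.a → e.1 ≤ s → s ≤ e.2 → V2 s = V2 e.1 := by
    intro e he s hs h1 h2
    funext i
    rw [hV2def]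
    exact brg_fk_flat hVm L hIv e he hs h1 h2 i
  clear hV2def
  have a1 := gh_br_adm_of_val hV hps.1 hps.2
  have a2 := gh_br_adm_of_val hV2 hps.1 hps.2
  have hM0 : 0 ≤ M := by
    obtain ⟨s⟩ := gh_br_nonempty hB
    refine le_trans (Finset.sum_nonneg fun i _ => ?_) (hM' s)
    refine mul_nonneg (List.sum_nonneg fun x hx => ?_) (sq_nonneg _)
    obtain ⟨e, he, rfl⟩ := List.mem_map.1 hx
    exact sub_nonneg.2 (hVm _ _ (hIv e he).1 (hIv e he).2.1 (hIv e he).2.2 i)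
  have hk : ∀ p ∈ ps, ∀ s t, |ghBrKer Φ (fun i => V p i - V2 p i) s t| ≤ M := fun p hp s t =>
    gh_br_ker_le Φ (D := fun i => V p i - V2 p i) (O := fun i => (L.map fun e => V e.2 i - V e.1 i).sum)
      (fun i => (hrem p (hps.2 p hp) i).1) (fun i => (hrem p (hps.2 p hp) i).2) hM' s t
  have e1 := gh_br_nu_engine hB Φ a2 a1 z hτ P hP hM0 hk
  have e2 := gh_br_nu_engine hB Φ a2 a1 z hτ' P hP hM0 hk
  -- thinning
  obtain ⟨Kp, hKp⟩ : ∃ Kp : GhPos → Prop, ∀ r, Kp r ↔ (r ∈ ps ∧ ¬ ∃ e ∈ L, e.1 < r ∧ r ≤ e.2) := ⟨_, fun _ => Iff.rfl⟩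
  have hthin : ∀ τ₀ : ℕ → ℕ → WithTop GhPos, ghBrNu B Φ V2 z q τ₀ P ps
      = ghNuV B Φ V2 z q τ₀ P (ps.filter fun r => decide (Kp r)) := by
    intro τ₀
    have h0 : ghBrNu B Φ V2 z q τ₀ P ps = ghNuV B Φ V2 z q τ₀ P ps := by
      unfold ghBrNu ghNuV
      rw [gh_br_ch_chV]
    rw [h0]
    refine gh_th_nu hB Φ V2 z q τ₀ P Kp hps.1
      (fun r hr => (hps.2 r hr).1) (fun k hk => ((hKp k).1 hk).1) (fun r hr i => hV2.nonneg r (hps.2 r hr) i)
      (fun r hr r' hr' h i => hV2.mono r r' (hps.2 r hr) (hps.2 r' hr') h i) ?_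
    intro r hr hKr
    refine Or.inl (Or.inr ?_)
    -- the least position of the chain with the value of `r`
    obtain ⟨A, hA⟩ : ∃ A : Finset GhPos, ∀ s, s ∈ A ↔ (s ∈ ps ∧ s ≤ r ∧ V2 s = V2 r) :=
      ⟨ps.toFinset.filter fun s => s ≤ r ∧ V2 s = V2 r, fun s => by simp⟩
    have hrA : r ∈ A := (hA r).2 ⟨hr, le_rfl, rfl⟩
    have hmA := (hA _).1 (Finset.min'_mem A ⟨r, hrA⟩)
    have hmK : Kp (A.min' ⟨r, hrA⟩) := by
      refine (hKp _).2 ⟨hmA.1, ?_⟩
      rintro ⟨e, he, h1, h2⟩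
      have h3 : e.1 ∈ A := by
        refine (hA _).2 ⟨(hL e he).1, h1.le.trans hmA.2.1, ?_⟩
        rw [← hmA.2.2]
        exact (hflat e he _ (hps.2 _ hmA.1) h1.le h2).symm
      exact absurd (Finset.min'_le A _ h3) (not_le.2 h1)
    refine ⟨A.min' ⟨r, hrA⟩, hmK, lt_of_le_of_ne hmA.2.1 ?_, hmA.2.2⟩
    intro hEq
    rw [hEq] at hmK
    exact hKr hmK
  have e3 : ghBrNu B Φ V2 z q τ' P ps = ghBrNu B Φ V2 z q τ P ps := by
    rw [hthin, hthin]
    unfold ghNuV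
    have hrep : ghRepN q (ghDisc (ps.filter fun r => decide (Kp r)) τ') = ghRepN q (ghDisc (ps.filter fun r => decide (Kp r)) τ) := by
      refine brg_fk_repN_congr fun y w hy hw => ?_
      unfold ghDisc
      rcases hd y w hy hw with h | ⟨e, he, h1, h2, h3, h4⟩
      · rw [h]
      · have hno : ∀ r ∈ ps.filter (fun r => decide (Kp r)), ¬ (e.1 < r ∧ r ≤ e.2) := by
          intro r hr hc
          exact ((hKp r).1 (of_decide_eq_true (List.mem_filter.1 hr).2)).2 ⟨e, he, hc⟩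
        rw [brg_fk_idx hno h3 h4, brg_fk_idx hno h1 h2]
    rw [hrep]
  rw [e3] at e2
  have t1 := abs_le.1 e1
  have t2 := abs_le.1 e2
  rw [abs_le]
  constructor <;> linarith [t1.1, t1.2, t2.1, t2.2]

/-- **THE GENERAL FORK LEMMA** on one chain -/
theorem brg_fk_multi {B : GhB S} (hB : B.Ok) (Φ : S → ι → ℝ) {v : ι → ℝ → ℝ}
    (hv : GhClk B.a v) {ps : List GhPos} (hps : GhChOk B.a ps) (z : S → ℝ) {q : ℕ} {τ τ' : ℕ → ℕ → WithTop GhPos}
    (hτ : GhIsRT B.a q τ) (hτ' : GhIsRT B.a q τ') (L : List (GhPos × GhPos))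
    (hL : ∀ e ∈ L, e.1 ∈ ps ∧ e.2.Ok B.a ∧ e.1 ≤ e.2)
    (hd : ∀ y w, y < q → w < q → τ y w = τ' y w ∨ ∃ e ∈ L, (e.1 : WithTop GhPos) ≤ τ y w ∧ τ y w ≤ (e.2 : WithTop GhPos) ∧
      (e.1 : WithTop GhPos) ≤ τ' y w ∧ τ' y w ≤ (e.2 : WithTop GhPos)) {M : ℝ}
    (hM : ∀ s, (L.map fun e => ghKer Φ (fun i => ghClkAt B.a v e.2 i - ghClkAt B.a v e.1 i) s s).sum ≤ M)
    (P : (Fin q → S) → ℝ) {K : ℝ} (hP : ∀ σ, |P σ| ≤ K) :
    |ghCNuF B Φ v z q τ' P ps - ghCNuF B Φ v z q τ P ps| ≤ 4 * B.a ^ 2 * q * (q + 1) * M * K := by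
  have hV : GhBrVal B.a (ghClkAt B.a v) := gh_br_clk_val hB.pos.le hv
  have hM' : ∀ s, ∑ i, (L.map fun e => ghClkAt B.a v e.2 i - ghClkAt B.a v e.1 i).sum * Φ s i ^ 2 ≤ M := by
    intro s
    rw [brg_fk_sum_swap L (fun e i => ghClkAt B.a v e.2 i - ghClkAt B.a v e.1 i) fun i => Φ s i ^ 2]
    refine le_trans (le_of_eq ?_) (hM s)
    congr 1
    refine List.map_congr_left fun e _ => ?_
    unfold ghKer
    exact Finset.sum_congr rfl fun i _ => by ring
  have c1 : ∀ τ₀ : ℕ → ℕ → WithTop GhPos, ghCNuF B Φ v z q τ₀ P ps = ghBrNu B Φ (ghClkAt B.a v) z q τ₀ P ps := by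
    intro τ₀
    unfold ghCNuF ghBrNu
    rw [gh_br_ch_chain]
  rw [c1, c1]
  exact brg_fk_multiV hB Φ hV hps z hτ hτ' L hL hd hM' P hP

end Claimed.Agent.R286
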