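import Claimed.Agent.R286.Defs.Clk

/-!
# Row 286 (S0533), Brg/Net : the limit operator `ghLim` (net of finite sets of positions)      (owner helper262; prefix `gh_nt_`; sorry free)

Paper free.  Everything a consumer needs to work with `ghLim a Q` / `GhLimEx a Q` of `Defs/Clk.lean`:
* `gh_nt_unique`, `gh_nt_ex_of_tendsto`       the limit is THE limit;
* `gh_nt_const`, `gh_nt_add`, `gh_nt_sub`, `gh_nt_mul`, `gh_nt_const_mul`, `gh_nt_sum`, `gh_nt_congr`      algebra;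
* **`gh_nt_mem`** TRANSFER (shape (U) of the protocol): a CLOSED condition on finitely many numbers which holds on all chains beyond some `F₀` holds for the limits;
  `gh_nt_le`, `gh_nt_le_const`, `gh_nt_const_le`, `gh_nt_abs_le`;
* **`gh_nt_cauchy`** existence + RATE from a refinement estimate: `|Q (ghPs a F') - Q (ghPs a F)| ≤ ω F` for `F₀ ⊆ F ⊆ F'`, `ω → 0` along the net
  ⟹ `GhLimEx a Q` and `|Q (ghPs a F) - ghLim a Q| ≤ ω F` for every `F ⊇ F₀`.
-/

set_option autoImplicit false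

namespace Claimed.Agent.R286

open Filter Topology

variable {a : ℝ} {Q Q' : List GhPos → ℝ}

theorem gh_nt_ex_of_tendsto {L : ℝ} (h : Tendsto (fun F : Finset GhPos => Q (ghPs a F)) atTop (𝓝 L)) :
    GhLimEx a Q ∧ ghLim a Q = L := by
  have h1 : ghLim a Q = L := h.limUnder_eq
  refine ⟨?_, h1⟩
  unfold GhLimEx
  rw [h1]
  exact h

theorem gh_nt_unique {L : ℝ} (hL : Tendsto (fun F : Finset GhPos => Q (ghPs a F)) atTop (𝓝 L)) :
    ghLim a Q = L := (gh_nt_ex_of_tendsto hL).2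

theorem gh_nt_const (a c : ℝ) : GhLimEx a (fun _ => c) ∧ ghLim a (fun _ => c) = c :=
  gh_nt_ex_of_tendsto tendsto_const_nhds

theorem gh_nt_add (h : GhLimEx a Q) (h' : GhLimEx a Q') :
    GhLimEx a (fun ps => Q ps + Q' ps) ∧ ghLim a (fun ps => Q ps + Q' ps) = ghLim a Q + ghLim a Q' :=
  gh_nt_ex_of_tendsto (Tendsto.add h h')

theorem gh_nt_sub (h : GhLimEx a Q) (h' : GhLimEx a Q') :
    GhLimEx a (fun ps => Q ps - Q' ps) ∧ ghLim a (fun ps => Q ps - Q' ps) = ghLim a Q - ghLim a Q' :=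
  gh_nt_ex_of_tendsto (Tendsto.sub h h')

theorem gh_nt_mul (h : GhLimEx a Q) (h' : GhLimEx a Q') :
    GhLimEx a (fun ps => Q ps * Q' ps) ∧ ghLim a (fun ps => Q ps * Q' ps) = ghLim a Q * ghLim a Q' :=
  gh_nt_ex_of_tendsto (Tendsto.mul h h')

theorem gh_nt_const_mul (c : ℝ) (h : GhLimEx a Q) :
    GhLimEx a (fun ps => c * Q ps) ∧ ghLim a (fun ps => c * Q ps) = c * ghLim a Q :=
  gh_nt_ex_of_tendsto (Tendsto.const_mul c h)

theorem gh_nt_pow (h : GhLimEx a Q) (k : ℕ) :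
    GhLimEx a (fun ps => Q ps ^ k) ∧ ghLim a (fun ps => Q ps ^ k) = ghLim a Q ^ k :=
  gh_nt_ex_of_tendsto (Tendsto.pow h k)

theorem gh_nt_sum {κ : Type} (t : Finset κ) (R : κ → List GhPos → ℝ) (h : ∀ k ∈ t, GhLimEx a (R k)) :
    GhLimEx a (fun ps => ∑ k ∈ t, R k ps) ∧ ghLim a (fun ps => ∑ k ∈ t, R k ps) = ∑ k ∈ t, ghLim a (R k) :=
  gh_nt_ex_of_tendsto (tendsto_finsetSum t fun k hk => h k hk)

/-- composition with a function which is continuous at the limit -/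
theorem gh_nt_comp (h : GhLimEx a Q) {f : ℝ → ℝ} (hf : ContinuousAt f (ghLim a Q)) :
    GhLimEx a (fun ps => f (Q ps)) ∧ ghLim a (fun ps => f (Q ps)) = f (ghLim a Q) :=
  gh_nt_ex_of_tendsto (Tendsto.comp hf h)

/-- only the chains beyond some finite set matter -/
theorem gh_nt_congr (F₀ : Finset GhPos) (hQ : ∀ F, F₀ ⊆ F → Q (ghPs a F) = Q' (ghPs a F)) :
    ghLim a Q = ghLim a Q' ∧ (GhLimEx a Q → GhLimEx a Q') := by
  have hev : (fun F : Finset GhPos => Q (ghPs a F)) =ᶠ[atTop] fun F => Q' (ghPs a F) :=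
    (eventually_ge_atTop F₀).mono fun F hF => hQ F hF
  have h1 : ghLim a Q = ghLim a Q' := by
    unfold ghLim limUnder
    rw [Filter.map_congr hev]
  refine ⟨h1, fun h => ?_⟩
  unfold GhLimEx at *
  rw [← h1]
  exact h.congr' hev

/-- **TRANSFER**: a closed condition on finitely many numbers which holds on all the chains beyond `F₀` holds for the limits -/
theorem gh_nt_mem {κ : Type} [Finite κ] (R : κ → List GhPos → ℝ) (h : ∀ k, GhLimEx a (R k)) {K : Set (κ → ℝ)} (hK : IsClosed K)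
    (F₀ : Finset GhPos) (hF : ∀ F, F₀ ⊆ F → (fun k => R k (ghPs a F)) ∈ K) : (fun k => ghLim a (R k)) ∈ K := by
  have ht : Tendsto (fun F : Finset GhPos => fun k => R k (ghPs a F)) atTop (𝓝 fun k => ghLim a (R k)) :=
    tendsto_pi_nhds.2 h
  exact hK.mem_of_tendsto ht ((eventually_ge_atTop F₀).mono fun F hF' => hF F hF')

theorem gh_nt_le (h : GhLimEx a Q) (h' : GhLimEx a Q') (F₀ : Finset GhPos)
    (hF : ∀ F, F₀ ⊆ F → Q (ghPs a F) ≤ Q' (ghPs a F)) : ghLim a Q ≤ ghLim a Q' :=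
  le_of_tendsto_of_tendsto h h' ((eventually_ge_atTop F₀).mono fun F hF' => hF F hF')

theorem gh_nt_le_const (h : GhLimEx a Q) {c : ℝ} (F₀ : Finset GhPos) (hF : ∀ F, F₀ ⊆ F → Q (ghPs a F) ≤ c) :
    ghLim a Q ≤ c :=
  le_of_tendsto h ((eventually_ge_atTop F₀).mono fun F hF' => hF F hF')

theorem gh_nt_const_le (h : GhLimEx a Q) {c : ℝ} (F₀ : Finset GhPos) (hF : ∀ F, F₀ ⊆ F → c ≤ Q (ghPs a F)) :
    c ≤ ghLim a Q :=
  ge_of_tendsto h ((eventually_ge_atTop F₀).mono fun F hF' => hF F hF')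

theorem gh_nt_abs_le (h : GhLimEx a Q) {c : ℝ} (F₀ : Finset GhPos) (hF : ∀ F, F₀ ⊆ F → |Q (ghPs a F)| ≤ c) :
    |ghLim a Q| ≤ c :=
  abs_le.2 ⟨gh_nt_const_le h F₀ fun F hF' => (abs_le.1 (hF F hF')).1, gh_nt_le_const h F₀ fun F hF' => (abs_le.1 (hF F hF')).2⟩

/-- **existence and rate from a refinement estimate** -/
theorem gh_nt_cauchy (F₀ : Finset GhPos) (ω : Finset GhPos → ℝ) (hω : Tendsto ω atTop (𝓝 0))
    (href : ∀ F F', F₀ ⊆ F → F ⊆ F' → |Q (ghPs a F') - Q (ghPs a F)| ≤ ω F) :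
    GhLimEx a Q ∧ ∀ F, F₀ ⊆ F → |Q (ghPs a F) - ghLim a Q| ≤ ω F := by
  classical
  have hc : CauchySeq fun F : Finset GhPos => Q (ghPs a F) := by
    rw [Metric.cauchySeq_iff']
    intro ε hε
    have h1 : ∀ᶠ F in atTop, ω F < ε := (tendsto_order.1 hω).2 ε hε
    obtain ⟨F₁, hF₁⟩ := (h1.and (eventually_ge_atTop F₀)).exists
    refine ⟨F₁, fun F hF => ?_⟩
    rw [Real.dist_eq]
    exact (href F₁ F hF₁.2 hF).trans_lt hF₁.1
  have hex : GhLimEx a Q := hc.tendsto_limUnder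
  refine ⟨hex, fun F hF => ?_⟩
  have h2 : Tendsto (fun F' : Finset GhPos => |Q (ghPs a F') - Q (ghPs a F)|) atTop (𝓝 |ghLim a Q - Q (ghPs a F)|) :=
    (Tendsto.sub_const hex _).abs
  rw [abs_sub_comm]
  exact le_of_tendsto h2 ((eventually_ge_atTop F).mono fun F' hF' => href F F' hF hF')

end Claimed.Agent.R286
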