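import Claimed.Agent.R286.Brg.Net
import Claimed.Agent.R286.Brg.Osc
import Claimed.Agent.R286.Exit.ClkC0
import Claimed.Agent.R286.Brg.LipPf
import Claimed.Agent.R286.Exit.ClkC2
import Claimed.Agent.R286.Exit.ClkC4
import Claimed.Agent.R286.Fd.ClkDefs

/-!
# Row 286 (S0533), Brg/Path : THE BRIDGE, PATH FORMS      (owner helper262; prefix `gh_pt_`; sorry free, from the finite-chain exits ClkC0, ClkLip, ClkC2, ClkC4 + Brg/Net + Brg/Osc)

General feature model `(B, Φ)`, coordinate clocks `v` with `GhClk B.a v`, real tree `τ` with `GhIsRT B.a q τ`, spin test `P`, `|P| ≤ K`.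
* `gh_pt_ps_sub`, `gh_pt_ps_of_ok`, `gh_pt_ps_ok`      chains of finite sets;
* `ghOm`, `gh_pt_om_tendsto`, `gh_pt_om_le`              a modulus which tends to `0` along the net;
* **C1** `gh_pt_ex_nu`, `gh_pt_ex_pr` (the limits exist), `gh_pt_close_nu`, `gh_pt_close_pr` (RATE on every valid chain, uniform in tree / test / source);
* `gh_pt_lip_nu`, `gh_pt_lip_pr`      Lipschitz in the clocks (sup distance of the cumulative kernels at all valid positions);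
* **C2** `gh_pt_fork`, `gh_pt_star`   fork modulus;
* `gh_pt_nonneg`, `gh_pt_const`, `gh_pt_add_mul`, `gh_pt_abs_le`      the tree law of a path is a positive normalised linear functional;
* **C4** `gh_pt_mono`                 monotonicity in the fork;
* `gh_pt_star_intble`                 `u ↦ ν_{star at (u,1)}[P]` is a difference of monotone functions: interval integrable.
-/

set_option autoImplicit false
set_option linter.unusedSectionVars false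

namespace Claimed.Agent.R286

open Filter Topology MeasureTheory

/-! ### chains of finite sets -/

theorem gh_pt_ps_ok (a : ℝ) (F : Finset GhPos) : GhChOk a (ghPs a F) :=
  ⟨gh_os_ps_lt a F, fun _ hp => (gh_os_ps_mem.1 hp).2⟩

theorem gh_pt_sub_of_subset {a : ℝ} {ps ps' : List GhPos} (h : GhChOk a ps) (h' : GhChOk a ps') (hs : ps ⊆ ps') :
    ps.Sublist ps' :=
  List.sublist_of_subperm_of_pairwise (r := (· < ·)) (List.subperm_of_subset h.1.nodup hs) h.1 h'.1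

theorem gh_pt_ps_sub (a : ℝ) {F F' : Finset GhPos} (h : F ⊆ F') : (ghPs a F).Sublist (ghPs a F') :=
  gh_pt_sub_of_subset (gh_pt_ps_ok a F) (gh_pt_ps_ok a F') fun _ hp =>
    gh_os_ps_mem.2 ⟨h (gh_os_ps_mem.1 hp).1, (gh_os_ps_mem.1 hp).2⟩

theorem gh_pt_sub_ps {a : ℝ} {ps : List GhPos} (h : GhChOk a ps) {F : Finset GhPos} (hF : ∀ p ∈ ps, p ∈ F) :
    ps.Sublist (ghPs a F) :=
  gh_pt_sub_of_subset h (gh_pt_ps_ok a F) fun p hp => gh_os_ps_mem.2 ⟨hF p hp, h.2 p hp⟩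

theorem gh_pt_forks {a : ℝ} {q : ℕ} {τ : ℕ → ℕ → WithTop GhPos} (hτ : GhIsRT a q τ) {F : Finset GhPos}
    (hF : ghForks q τ ⊆ F) : GhHasForks q τ (ghPs a F) := by
  intro x y hx hy p hp
  refine gh_os_ps_mem.2 ⟨hF ?_, hτ.ok x y hx hy p hp⟩
  unfold ghForks
  refine Finset.mem_image.2 ⟨(x, y), Finset.mem_product.2 ⟨Finset.mem_range.2 hx, Finset.mem_range.2 hy⟩, ?_⟩
  simp [hp]

/-! ### a modulus which tends to zero -/

section
variable {S ι : Type} [Fintype S] [Fintype ι]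

/-- a modulus of the chain `ps` -/
noncomputable def ghOm (a : ℝ) (Φ : S → ι → ℝ) (v : ι → ℝ → ℝ) (ps : List GhPos) : ℝ :=
  ∑ s, ghKer Φ (fun i => ghOsc a (v i) 0 ps) s s

theorem gh_pt_ker_diag_nonneg (Φ : S → ι → ℝ) {c : ι → ℝ} (hc : ∀ i, 0 ≤ c i) (s : S) : 0 ≤ ghKer Φ c s s := by
  unfold ghKer
  refine Finset.sum_nonneg fun i _ => ?_
  rw [mul_assoc]
  exact mul_nonneg (hc i) (mul_self_nonneg _)

theorem gh_pt_osc_nonneg {a : ℝ} (ha : 0 ≤ a) {v : ι → ℝ → ℝ} (hv : GhClk a v) {ps : List GhPos} (hps : GhChOk a ps) (i : ι) :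
    0 ≤ ghOsc a (v i) 0 ps :=
  gh_os_osc_nonneg ha (hv i) ps 0 hps.2 (gh_os_at_nonneg ha (hv i) (by simp [ghPosA, GhPos.lam]))

theorem gh_pt_om_le {a : ℝ} (ha : 0 ≤ a) (Φ : S → ι → ℝ) {v : ι → ℝ → ℝ} (hv : GhClk a v) {ps : List GhPos}
    (hps : GhChOk a ps) : GhOscLe a Φ v ps (ghOm a Φ v ps) := by
  intro s
  unfold ghOm
  exact Finset.single_le_sum (f := fun s => ghKer Φ (fun i => ghOsc a (v i) 0 ps) s s)
    (fun t _ => gh_pt_ker_diag_nonneg Φ (gh_pt_osc_nonneg ha hv hps) t) (Finset.mem_univ s)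

theorem gh_pt_om_tendsto {a : ℝ} (ha : 0 ≤ a) (Φ : S → ι → ℝ) {v : ι → ℝ → ℝ} (hv : GhClk a v) :
    Tendsto (fun F : Finset GhPos => ghOm a Φ v (ghPs a F)) atTop (𝓝 0) := by
  unfold ghOm ghKer
  have h : Tendsto (fun F : Finset GhPos => ∑ s, ∑ i, ghOsc a (v i) 0 (ghPs a F) * Φ s i * Φ s i) atTop
      (𝓝 (∑ _s : S, ∑ i, (0 : ℝ) * Φ _s i * Φ _s i)) :=
    tendsto_finsetSum _ fun s _ => tendsto_finsetSum _ fun i _ =>
      ((gh_os_tendsto ha (hv i)).mul_const _).mul_const _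
  simpa using h

variable {B : GhB S}

/-! ### C1 : existence and rate -/

theorem gh_pt_bound (q : ℕ) (P : (Fin q → S) → ℝ) : ∃ K : ℝ, 0 ≤ K ∧ ∀ σ, |P σ| ≤ K :=
  ⟨∑ σ, |P σ|, Finset.sum_nonneg fun _ _ => abs_nonneg _, fun σ =>
    Finset.single_le_sum (f := fun σ => |P σ|) (fun _ _ => abs_nonneg _) (Finset.mem_univ σ)⟩

/-- the pressure of a path exists -/
theorem gh_pt_ex_pr (hB : B.Ok) (Φ : S → ι → ℝ) {v : ι → ℝ → ℝ} (hv : GhClk B.a v) (z : S → ℝ) :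
    GhLimEx B.a fun ps => ghF B (ghChain Φ B.a v 0 ps) z := by
  refine (gh_nt_cauchy (Q := fun ps => ghF B (ghChain Φ B.a v 0 ps) z) ∅
    (fun F => B.a * ghOm B.a Φ v (ghPs B.a F)) ?_ ?_).1
  · simpa using (gh_pt_om_tendsto hB.pos.le Φ hv).const_mul B.a
  · intro F F' _ hFF
    exact (exit_clkC0 hB Φ hv (gh_pt_ps_ok _ F') (gh_pt_ps_sub _ hFF)
      (gh_pt_om_le hB.pos.le Φ hv (gh_pt_ps_ok _ F)) z).1

/-- the tree numbers of a path exist -/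
theorem gh_pt_ex_nu (hB : B.Ok) (Φ : S → ι → ℝ) {v : ι → ℝ → ℝ} (hv : GhClk B.a v) (z : S → ℝ) {q : ℕ}
    {τ : ℕ → ℕ → WithTop GhPos} (hτ : GhIsRT B.a q τ) (P : (Fin q → S) → ℝ) :
    GhLimEx B.a (ghCNuF B Φ v z q τ P) := by
  obtain ⟨K, _, hK⟩ := gh_pt_bound q P
  refine (gh_nt_cauchy (Q := ghCNuF B Φ v z q τ P) (ghForks q τ)
    (fun F => 2 * B.a ^ 2 * q * (q + 1) * ghOm B.a Φ v (ghPs B.a F) * K) ?_ ?_).1
  · simpa using ((gh_pt_om_tendsto hB.pos.le Φ hv).const_mul (2 * B.a ^ 2 * q * (q + 1))).mul_const K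
  · intro F F' hF hFF
    exact (exit_clkC0 hB Φ hv (gh_pt_ps_ok _ F') (gh_pt_ps_sub _ hFF)
      (gh_pt_om_le hB.pos.le Φ hv (gh_pt_ps_ok _ F)) z).2 q τ hτ (gh_pt_forks hτ hF) P K hK

/-- **C1, pressure**: rate on every valid chain -/
theorem gh_pt_close_pr (hB : B.Ok) (Φ : S → ι → ℝ) {v : ι → ℝ → ℝ} (hv : GhClk B.a v) {ps : List GhPos}
    (hps : GhChOk B.a ps) {M : ℝ} (hM : GhOscLe B.a Φ v ps M) (z : S → ℝ) :
    |ghCPress B Φ v z - ghF B (ghChain Φ B.a v 0 ps) z| ≤ B.a * M := by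
  classical
  have h := gh_pt_ex_pr hB Φ hv z
  have h2 : Tendsto (fun F : Finset GhPos => |ghF B (ghChain Φ B.a v 0 (ghPs B.a F)) z - ghF B (ghChain Φ B.a v 0 ps) z|)
      atTop (𝓝 |ghCPress B Φ v z - ghF B (ghChain Φ B.a v 0 ps) z|) := (Tendsto.sub_const h _).abs
  refine le_of_tendsto h2 ((eventually_ge_atTop ps.toFinset).mono fun F hF => ?_)
  exact (exit_clkC0 hB Φ hv (gh_pt_ps_ok _ F) (gh_pt_sub_ps hps fun p hp => hF (List.mem_toFinset.2 hp)) hM z).1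

/-- **C1, tree numbers**: rate on every valid chain which contains the forks; uniform in the tree, the test and the source -/
theorem gh_pt_close_nu (hB : B.Ok) (Φ : S → ι → ℝ) {v : ι → ℝ → ℝ} (hv : GhClk B.a v) {ps : List GhPos}
    (hps : GhChOk B.a ps) {M : ℝ} (hM : GhOscLe B.a Φ v ps M) (z : S → ℝ) {q : ℕ} {τ : ℕ → ℕ → WithTop GhPos}
    (hτ : GhIsRT B.a q τ) (hf : GhHasForks q τ ps) (P : (Fin q → S) → ℝ) {K : ℝ} (hK : ∀ σ, |P σ| ≤ K) :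
    |ghCNu B Φ v z q τ P - ghCNuF B Φ v z q τ P ps| ≤ 2 * B.a ^ 2 * q * (q + 1) * M * K := by
  classical
  have h := gh_pt_ex_nu hB Φ hv z hτ P
  have h2 : Tendsto (fun F : Finset GhPos => |ghCNuF B Φ v z q τ P (ghPs B.a F) - ghCNuF B Φ v z q τ P ps|)
      atTop (𝓝 |ghCNu B Φ v z q τ P - ghCNuF B Φ v z q τ P ps|) := (Tendsto.sub_const h _).abs
  refine le_of_tendsto h2 ((eventually_ge_atTop ps.toFinset).mono fun F hF => ?_)
  exact (exit_clkC0 hB Φ hv (gh_pt_ps_ok _ F) (gh_pt_sub_ps hps fun p hp => hF (List.mem_toFinset.2 hp)) hM z).2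
    q τ hτ hf P K hK

/-! ### Lipschitz in the clocks -/

theorem gh_pt_lip_pr (hB : B.Ok) (Φ : S → ι → ℝ) {v v' : ι → ℝ → ℝ} (hv : GhClk B.a v) (hv' : GhClk B.a v') {M : ℝ}
    (hM0 : 0 ≤ M) (hM : ∀ p : GhPos, p.Ok B.a → ∀ s t, |ghKer Φ (fun i => ghClkAt B.a v' p i - ghClkAt B.a v p i) s t| ≤ M)
    (z : S → ℝ) : |ghCPress B Φ v' z - ghCPress B Φ v z| ≤ B.a * M := by
  have h2 := (Tendsto.sub (gh_pt_ex_pr hB Φ hv' z) (gh_pt_ex_pr hB Φ hv z)).abs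
  refine le_of_tendsto h2 (Eventually.of_forall fun F => ?_)
  exact (brg_l_main hB Φ hv hv' (gh_pt_ps_ok _ F) hM0 (fun p hp => hM p (gh_os_ps_mem.1 hp).2) z).1

theorem gh_pt_lip_nu (hB : B.Ok) (Φ : S → ι → ℝ) {v v' : ι → ℝ → ℝ} (hv : GhClk B.a v) (hv' : GhClk B.a v') {M : ℝ}
    (hM0 : 0 ≤ M) (hM : ∀ p : GhPos, p.Ok B.a → ∀ s t, |ghKer Φ (fun i => ghClkAt B.a v' p i - ghClkAt B.a v p i) s t| ≤ M)
    (z : S → ℝ) {q : ℕ} {τ : ℕ → ℕ → WithTop GhPos} (hτ : GhIsRT B.a q τ) (P : (Fin q → S) → ℝ) {K : ℝ}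
    (hK : ∀ σ, |P σ| ≤ K) :
    |ghCNu B Φ v' z q τ P - ghCNu B Φ v z q τ P| ≤ 2 * B.a ^ 2 * q * (q + 1) * M * K := by
  have h2 := (Tendsto.sub (gh_pt_ex_nu hB Φ hv' z hτ P) (gh_pt_ex_nu hB Φ hv z hτ P)).abs
  refine le_of_tendsto h2 (Eventually.of_forall fun F => ?_)
  exact (brg_l_main hB Φ hv hv' (gh_pt_ps_ok _ F) hM0 (fun p hp => hM p (gh_os_ps_mem.1 hp).2) z).2 q τ hτ P K hK

/-! ### C2 : fork modulus -/

/-- **C2** -/
theorem gh_pt_fork (hB : B.Ok) (Φ : S → ι → ℝ) {v : ι → ℝ → ℝ} (hv : GhClk B.a v) (z : S → ℝ) {q : ℕ}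
    {τ : ℕ → ℕ → WithTop GhPos} (hτ : GhIsRT B.a q τ) {x x' : GhPos} (hx : x.Ok B.a) (hx' : x'.Ok B.a) (hxx : x ≤ x')
    (hno : ∀ y w, y < q → w < q → ¬ ((x : WithTop GhPos) < τ y w ∧ τ y w ≤ (x' : WithTop GhPos))) {M : ℝ}
    (hM : ∀ s, ghKer Φ (fun i => ghClkAt B.a v x' i - ghClkAt B.a v x i) s s ≤ M)
    (P : (Fin q → S) → ℝ) {K : ℝ} (hP : ∀ σ, |P σ| ≤ K) :
    GhIsRT B.a q (ghRMove τ x x') ∧
    |ghCNu B Φ v z q (ghRMove τ x x') P - ghCNu B Φ v z q τ P| ≤ 4 * B.a ^ 2 * q * (q + 1) * M * K := by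
  classical
  have hmem : ∀ F : Finset GhPos, {x, x'} ⊆ F → x ∈ ghPs B.a F ∧ x' ∈ ghPs B.a F := fun F hF =>
    ⟨gh_os_ps_mem.2 ⟨hF (by simp), hx⟩, gh_os_ps_mem.2 ⟨hF (by simp), hx'⟩⟩
  have hτ' : GhIsRT B.a q (ghRMove τ x x') :=
    (exit_clkC2 hB Φ hv (gh_pt_ps_ok _ {x, x'}) z hτ (hmem _ subset_rfl).1 (hmem _ subset_rfl).2 hxx hno hM P hP).1
  refine ⟨hτ', ?_⟩
  have h2 := (Tendsto.sub (gh_pt_ex_nu hB Φ hv z hτ' P) (gh_pt_ex_nu hB Φ hv z hτ P)).abs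
  refine le_of_tendsto h2 ((eventually_ge_atTop {x, x'}).mono fun F hF => ?_)
  exact (exit_clkC2 hB Φ hv (gh_pt_ps_ok _ F) z hτ (hmem F hF).1 (hmem F hF).2 hxx hno hM P hP).2

theorem gh_pt_star_rt {a : ℝ} (q : ℕ) {p : GhPos} (hp : p.Ok a) : GhIsRT a q (ghR2 p) where
  diag := fun x _ => by simp [ghR2]
  symm := fun x y _ _ => by simp [ghR2, eq_comm]
  ultra := fun x y z _ _ _ => by
    unfold ghR2
    by_cases hxz : x = z
    · simp [hxz]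
    · by_cases hxy : x = y
      · subst hxy; simp [hxz]
      · simp [hxy, hxz]
  ok := fun x y _ _ r hr => by
    unfold ghR2 at hr
    by_cases hxy : x = y
    · simp [hxy] at hr
    · simp only [hxy, if_false] at hr
      rw [← WithTop.coe_injective hr]; exact hp

theorem gh_pt_move_star (p p' : GhPos) : ghRMove (ghR2 p) p p' = ghR2 p' := by
  funext x y
  unfold ghRMove ghR2
  by_cases hxy : x = y <;> simp [hxy]

/-- C2 for stars: all the labels fork at one position -/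
theorem gh_pt_star (hB : B.Ok) (Φ : S → ι → ℝ) {v : ι → ℝ → ℝ} (hv : GhClk B.a v) (z : S → ℝ) (q : ℕ)
    {x x' : GhPos} (hx : x.Ok B.a) (hx' : x'.Ok B.a) (hxx : x ≤ x') {M : ℝ}
    (hM : ∀ s, ghKer Φ (fun i => ghClkAt B.a v x' i - ghClkAt B.a v x i) s s ≤ M)
    (P : (Fin q → S) → ℝ) {K : ℝ} (hP : ∀ σ, |P σ| ≤ K) :
    |ghCNu B Φ v z q (ghR2 x') P - ghCNu B Φ v z q (ghR2 x) P| ≤ 4 * B.a ^ 2 * q * (q + 1) * M * K := by
  have h := (gh_pt_fork hB Φ hv z (gh_pt_star_rt q hx) hx hx' hxx ?_ hM P hP).2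
  · rwa [gh_pt_move_star] at h
  · intro y w _ _ hh
    unfold ghR2 at hh
    by_cases hyw : y = w
    · simp [hyw] at hh
    · simp [hyw] at hh

/-! ### positivity, normalisation, linearity, monotonicity -/

theorem gh_pt_nonneg (hB : B.Ok) (Φ : S → ι → ℝ) {v : ι → ℝ → ℝ} (hv : GhClk B.a v) (z : S → ℝ) {q : ℕ}
    {τ : ℕ → ℕ → WithTop GhPos} (hτ : GhIsRT B.a q τ) {P : (Fin q → S) → ℝ} (hP : ∀ σ, 0 ≤ P σ) :
    0 ≤ ghCNu B Φ v z q τ P :=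
  gh_nt_const_le (gh_pt_ex_nu hB Φ hv z hτ P) ∅ fun F _ => (exit_clkC4 hB Φ hv (gh_pt_ps_ok _ F) z).1 q τ P hP

theorem gh_pt_const (hB : B.Ok) (Φ : S → ι → ℝ) {v : ι → ℝ → ℝ} (hv : GhClk B.a v) (z : S → ℝ) (q : ℕ)
    (τ : ℕ → ℕ → WithTop GhPos) (c : ℝ) : ghCNu B Φ v z q τ (fun _ => c) = c := by
  have h := (gh_nt_congr (a := B.a) (Q := ghCNuF B Φ v z q τ fun _ => c) (Q' := fun _ => c) ∅
    fun F _ => (exit_clkC4 hB Φ hv (gh_pt_ps_ok _ F) z).2.1 q τ c).1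
  exact h.trans (gh_nt_const B.a c).2

theorem gh_pt_add_mul (hB : B.Ok) (Φ : S → ι → ℝ) {v : ι → ℝ → ℝ} (hv : GhClk B.a v) (z : S → ℝ) {q : ℕ}
    {τ : ℕ → ℕ → WithTop GhPos} (hτ : GhIsRT B.a q τ) (P P' : (Fin q → S) → ℝ) (c : ℝ) :
    ghCNu B Φ v z q τ (fun σ => P σ + c * P' σ) = ghCNu B Φ v z q τ P + c * ghCNu B Φ v z q τ P' := by
  have h := (gh_nt_congr (a := B.a) (Q := ghCNuF B Φ v z q τ fun σ => P σ + c * P' σ)
    (Q' := fun ps => ghCNuF B Φ v z q τ P ps + c * ghCNuF B Φ v z q τ P' ps) ∅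
    fun F _ => (exit_clkC4 hB Φ hv (gh_pt_ps_ok _ F) z).2.2.1 q τ P P' c).1
  have h1 := gh_pt_ex_nu hB Φ hv z hτ P
  have h2 := gh_nt_const_mul c (gh_pt_ex_nu hB Φ hv z hτ P')
  refine h.trans ((gh_nt_add h1 h2.1).2.trans ?_)
  rw [h2.2]
  rfl

theorem gh_pt_mono_test (hB : B.Ok) (Φ : S → ι → ℝ) {v : ι → ℝ → ℝ} (hv : GhClk B.a v) (z : S → ℝ) {q : ℕ}
    {τ : ℕ → ℕ → WithTop GhPos} (hτ : GhIsRT B.a q τ) {P P' : (Fin q → S) → ℝ} (h : ∀ σ, P σ ≤ P' σ) :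
    ghCNu B Φ v z q τ P ≤ ghCNu B Φ v z q τ P' := by
  have h1 := gh_pt_nonneg hB Φ hv z hτ (P := fun σ => P' σ + (-1) * P σ) fun σ => by linarith [h σ]
  rw [gh_pt_add_mul hB Φ hv z hτ] at h1
  linarith

theorem gh_pt_abs_le (hB : B.Ok) (Φ : S → ι → ℝ) {v : ι → ℝ → ℝ} (hv : GhClk B.a v) (z : S → ℝ) {q : ℕ}
    {τ : ℕ → ℕ → WithTop GhPos} (hτ : GhIsRT B.a q τ) {P : (Fin q → S) → ℝ} {K : ℝ} (hK : ∀ σ, |P σ| ≤ K) :
    |ghCNu B Φ v z q τ P| ≤ K := by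
  have h1 := gh_pt_mono_test hB Φ hv z hτ (P := P) (P' := fun _ => K) fun σ => (abs_le.1 (hK σ)).2
  have h2 := gh_pt_mono_test hB Φ hv z hτ (P := fun _ => -K) (P' := P) fun σ => (abs_le.1 (hK σ)).1
  rw [gh_pt_const hB Φ hv] at h1 h2
  exact abs_le.2 ⟨h2, h1⟩

/-- **C4**: a positive definite test of two labels is nondecreasing in the fork -/
theorem gh_pt_mono (hB : B.Ok) (Φ : S → ι → ℝ) {v : ι → ℝ → ℝ} (hv : GhClk B.a v) (z : S → ℝ) {κ : Type} [Fintype κ]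
    (φ : κ → S → ℝ) {p p' : GhPos} (hp : p.Ok B.a) (hp' : p'.Ok B.a) (h : p ≤ p') :
    ghCNu B Φ v z 2 (ghR2 p) (fun σ => ∑ k, φ k (σ 0) * φ k (σ 1))
      ≤ ghCNu B Φ v z 2 (ghR2 p') (fun σ => ∑ k, φ k (σ 0) * φ k (σ 1)) :=
  gh_nt_le (gh_pt_ex_nu hB Φ hv z (gh_pt_star_rt 2 hp) _) (gh_pt_ex_nu hB Φ hv z (gh_pt_star_rt 2 hp') _) ∅
    fun F _ => (exit_clkC4 hB Φ hv (gh_pt_ps_ok _ F) z).2.2.2 φ p p' h

/-! ### integrability in the mass of the fork -/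

/-- the total diagonal of the cumulative kernel after the mass `u` -/
noncomputable def ghDg (a : ℝ) (Φ : S → ι → ℝ) (v : ι → ℝ → ℝ) (u : ℝ) : ℝ :=
  ∑ s, ghKer Φ (ghClkAt a v (ghPosA u)) s s

theorem gh_pt_posA_le {u u' : ℝ} (h : u ≤ u') : ghPosA u ≤ ghPosA u' := by
  rw [gh_os_pos_le_iff]
  rcases h.lt_or_eq with h | h
  · left; simpa [ghPosA, GhPos.u] using h
  · right; simp [ghPosA, GhPos.u, GhPos.lam, h]

theorem gh_pt_ker_sub (Φ : S → ι → ℝ) (c c' : ι → ℝ) (s t : S) :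
    ghKer Φ (fun i => c i - c' i) s t = ghKer Φ c s t - ghKer Φ c' s t := by
  unfold ghKer
  rw [← Finset.sum_sub_distrib]
  exact Finset.sum_congr rfl fun i _ => by ring

theorem gh_pt_dg_sub {a : ℝ} (ha : 0 ≤ a) (Φ : S → ι → ℝ) {v : ι → ℝ → ℝ} (hv : GhClk a v) {u u' : ℝ} (h : u ≤ u') (s : S) :
    0 ≤ ghKer Φ (fun i => ghClkAt a v (ghPosA u') i - ghClkAt a v (ghPosA u) i) s s ∧
    ghKer Φ (fun i => ghClkAt a v (ghPosA u') i - ghClkAt a v (ghPosA u) i) s s ≤ ghDg a Φ v u' - ghDg a Φ v u := by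
  have h0 : ∀ t, 0 ≤ ghKer Φ (fun i => ghClkAt a v (ghPosA u') i - ghClkAt a v (ghPosA u) i) t t := fun t =>
    gh_pt_ker_diag_nonneg Φ (fun i => sub_nonneg.2
      (gh_os_at_mono ha (hv i) (by simp [ghPosA, GhPos.lam]) (by simp [ghPosA, GhPos.lam]) (gh_pt_posA_le h))) t
  refine ⟨h0 s, ?_⟩
  unfold ghDg
  rw [← Finset.sum_sub_distrib]
  have h1 : ∀ t, ghKer Φ (ghClkAt a v (ghPosA u')) t t - ghKer Φ (ghClkAt a v (ghPosA u)) t t
      = ghKer Φ (fun i => ghClkAt a v (ghPosA u') i - ghClkAt a v (ghPosA u) i) t t := fun t =>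
    (gh_pt_ker_sub Φ _ _ t t).symm
  simp_rw [h1]
  exact Finset.single_le_sum (f := fun t => ghKer Φ (fun i => ghClkAt a v (ghPosA u') i - ghClkAt a v (ghPosA u) i) t t)
    (fun t _ => h0 t) (Finset.mem_univ s)

theorem gh_pt_dg_mono {a : ℝ} (ha : 0 ≤ a) [Nonempty S] (Φ : S → ι → ℝ) {v : ι → ℝ → ℝ} (hv : GhClk a v) :
    Monotone (ghDg a Φ v) := fun u u' h => by
  have := gh_pt_dg_sub ha Φ hv h (Classical.arbitrary S)
  linarith [this.1, this.2]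

/-- modulus in the mass of a star -/
theorem gh_pt_star_mod (hB : B.Ok) (Φ : S → ι → ℝ) {v : ι → ℝ → ℝ} (hv : GhClk B.a v) (z : S → ℝ) (q : ℕ)
    (P : (Fin q → S) → ℝ) {K : ℝ} (hP : ∀ σ, |P σ| ≤ K) {u u' : ℝ} (h0 : 0 ≤ u) (h : u ≤ u') (h1 : u' ≤ B.a) :
    |ghCNu B Φ v z q (ghR2 (ghPosA u')) P - ghCNu B Φ v z q (ghR2 (ghPosA u)) P|
      ≤ 4 * B.a ^ 2 * q * (q + 1) * (ghDg B.a Φ v u' - ghDg B.a Φ v u) * K :=
  gh_pt_star hB Φ hv z q (gh_os_posA_ok h0 (h.trans h1)) (gh_os_posA_ok (h0.trans h) h1) (gh_pt_posA_le h)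
    (fun s => (gh_pt_dg_sub hB.pos.le Φ hv h s).2) P hP

/-- `u ↦ ν_{star at (u,1)}[P]` is interval integrable on `[0,a]` -/
theorem gh_pt_star_intble (hB : B.Ok) (Φ : S → ι → ℝ) {v : ι → ℝ → ℝ} (hv : GhClk B.a v) (z : S → ℝ) (q : ℕ)
    (P : (Fin q → S) → ℝ) :
    IntervalIntegrable (fun u => ghCNu B Φ v z q (ghR2 (ghPosA u)) P) volume 0 B.a := by
  obtain ⟨K, hK0, hK⟩ := gh_pt_bound q P
  set C : ℝ := 4 * B.a ^ 2 * q * (q + 1) * K with hC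
  have hm1 : MonotoneOn (fun u => ghCNu B Φ v z q (ghR2 (ghPosA u)) P + C * ghDg B.a Φ v u) (Set.uIcc 0 B.a) := by
    rw [Set.uIcc_of_le hB.pos.le]
    intro u hu u' hu' h
    have := abs_le.1 (gh_pt_star_mod hB Φ hv z q P hK hu.1 h hu'.2)
    have e : 4 * B.a ^ 2 * q * (q + 1) * (ghDg B.a Φ v u' - ghDg B.a Φ v u) * K
        = C * ghDg B.a Φ v u' - C * ghDg B.a Φ v u := by rw [hC]; ring
    simp only
    linarith [this.1]
  have hm2 : MonotoneOn (fun u => C * ghDg B.a Φ v u) (Set.uIcc 0 B.a) := by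
    rw [Set.uIcc_of_le hB.pos.le]
    intro u hu u' hu' h
    have h3 := abs_nonneg (ghCNu B Φ v z q (ghR2 (ghPosA u')) P - ghCNu B Φ v z q (ghR2 (ghPosA u)) P)
    have h4 := gh_pt_star_mod hB Φ hv z q P hK hu.1 h hu'.2
    have e : 4 * B.a ^ 2 * q * (q + 1) * (ghDg B.a Φ v u' - ghDg B.a Φ v u) * K
        = C * ghDg B.a Φ v u' - C * ghDg B.a Φ v u := by rw [hC]; ring
    simp only
    linarith
  have := (hm1.intervalIntegrable (μ := volume)).sub (hm2.intervalIntegrable (μ := volume))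
  simpa using this


/-- **C2, general form** (forks may MERGE or SEPARATE): the two real trees agree at each pair of labels, or both fork in `[x, x']` -/
theorem gh_pt_fork_gen (hB : B.Ok) (Φ : S → ι → ℝ) {v : ι → ℝ → ℝ} (hv : GhClk B.a v) (z : S → ℝ) {q : ℕ}
    {τ τ' : ℕ → ℕ → WithTop GhPos} (hτ : GhIsRT B.a q τ) (hτ' : GhIsRT B.a q τ') {x x' : GhPos} (hx : x.Ok B.a)
    (hx' : x'.Ok B.a) (hxx : x ≤ x')
    (hd : ∀ y w, y < q → w < q → τ y w = τ' y w ∨ ((x : WithTop GhPos) ≤ τ y w ∧ τ y w ≤ (x' : WithTop GhPos) ∧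
      (x : WithTop GhPos) ≤ τ' y w ∧ τ' y w ≤ (x' : WithTop GhPos))) {M : ℝ}
    (hM : ∀ s, ghKer Φ (fun i => ghClkAt B.a v x' i - ghClkAt B.a v x i) s s ≤ M)
    (P : (Fin q → S) → ℝ) {K : ℝ} (hP : ∀ σ, |P σ| ≤ K) :
    |ghCNu B Φ v z q τ' P - ghCNu B Φ v z q τ P| ≤ 4 * B.a ^ 2 * q * (q + 1) * M * K := by
  classical
  have h2 := (Tendsto.sub (gh_pt_ex_nu hB Φ hv z hτ' P) (gh_pt_ex_nu hB Φ hv z hτ P)).abs
  refine le_of_tendsto h2 ((eventually_ge_atTop {x}).mono fun F hF => ?_)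
  exact gh_fk_gen hB Φ hv (gh_pt_ps_ok _ F) z hτ hτ' (gh_os_ps_mem.2 ⟨hF (by simp), hx⟩) hx' hxx hd hM P hP

end

/-! ## THE SK INSTANCE      (prefix `sk_pt_`)

Dictionary `ckNuF = ghCNuF` (`sk_pt_nuF`), `skCNu = ghCNu` (`sk_c_nu_eq`), kernel of the SK features (`sk_pt_ker`: `ghKer (skPhi n) (b,h) σ τ = n (b R²/2 + h R)`), SK forms of C1:
`sk_pt_ex_nu`, `sk_pt_close_nu` (RATE `2 a² q (q+1) n (osc b / 2 + osc h) K` on every valid chain which contains the forks), `sk_pt_lim_nu` (= `exit_clk_lim_nu`). -/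

theorem sk_pt_base_ok (n : ℕ) {a : ℝ} (ha : 0 < a) : (skBase n a).Ok where
  nonneg := fun _ => by simp only [skBase, ghUnif]; positivity
  sum := by
    simp only [skBase, ghUnif, Finset.sum_const, Finset.card_univ, nsmul_eq_mul]
    exact mul_inv_cancel₀ (by exact_mod_cast Fintype.card_ne_zero)
  pos := ha

theorem sk_pt_clk {a : ℝ} {b h : ℝ → ℝ} (hbh : CkAdm a b h) (n : ℕ) : GhClk a (skClk n b h) := by
  intro i
  cases i
  · exact hbh.1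
  · exact hbh.2

theorem sk_pt_nuF (n : ℕ) (a : ℝ) (b h : ℝ → ℝ) (q : ℕ) (τ : ℕ → ℕ → WithTop GhPos) (P : (Fin q → SkCfg n) → ℝ)
    (ps : List GhPos) : ckNuF n a b h q τ P ps = ghCNuF (skBase n a) (skPhi n) (skClk n b h) 0 q τ P ps := by
  have h0 : (Sum.elim (fun _ => (0:ℝ)) fun _ => (0:ℝ) : SkDr n → ℝ) = 0 := by
    funext i; cases i <;> rfl
  have ha : (skBase n a).a = a := rfl
  unfold ckNuF ghCNuF ckStp
  rw [sk_c_chain, h0, ha]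

theorem sk_pt_sp_sq {n : ℕ} (σ : SkCfg n) (i : Fin n) : skSp σ i * skSp σ i = 1 := sk_d_sp_mul σ i

/-- the kernel of the SK features -/
theorem sk_pt_ker {n : ℕ} (hn : 0 < n) (cb ch : ℝ) (σ τ : SkCfg n) :
    ghKer (skPhi n) (Sum.elim (fun _ => cb) fun _ => ch) σ τ = n * (cb * skOv σ τ ^ 2 / 2 + ch * skOv σ τ) := by
  have hn' : (n : ℝ) ≠ 0 := by exact_mod_cast hn.ne'
  have hs : Real.sqrt (2 * n) * Real.sqrt (2 * n) = 2 * n := Real.mul_self_sqrt (by positivity)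
  have hs0 : Real.sqrt (2 * n) ≠ 0 := by
    intro h0
    rw [h0] at hs
    have : (n : ℝ) = 0 := by linarith
    exact hn' this
  unfold ghKer skPhi skOv
  rw [Fintype.sum_sum_type]
  simp only [Sum.elim_inl, Sum.elim_inr]
  have e1 : ∑ p : Fin n × Fin n, cb * (skSp σ p.1 * skSp σ p.2 / Real.sqrt (2 * n)) * (skSp τ p.1 * skSp τ p.2 / Real.sqrt (2 * n))
      = cb / (2 * n) * (∑ i, skSp σ i * skSp τ i) ^ 2 := by
    rw [sq, Finset.sum_mul_sum, Fintype.sum_prod_type, Finset.mul_sum]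
    refine Finset.sum_congr rfl fun i _ => ?_
    rw [Finset.mul_sum]
    refine Finset.sum_congr rfl fun j _ => ?_
    have e0 : cb * (skSp σ i * skSp σ j / Real.sqrt (2 * n)) * (skSp τ i * skSp τ j / Real.sqrt (2 * n))
        = cb * (skSp σ i * skSp σ j) * (skSp τ i * skSp τ j) / (Real.sqrt (2 * n) * Real.sqrt (2 * n)) := by
      field_simp
    rw [e0, hs]
    field_simp
  have e2 : ∑ i : Fin n, ch * skSp σ i * skSp τ i = ch * ∑ i, skSp σ i * skSp τ i := by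
    rw [Finset.mul_sum]
    exact Finset.sum_congr rfl fun i _ => by ring
  rw [e1, e2]
  field_simp

theorem sk_pt_ov_self {n : ℕ} (hn : 0 < n) (σ : SkCfg n) : skOv σ σ = 1 := by
  have hn' : (n : ℝ) ≠ 0 := by exact_mod_cast hn.ne'
  unfold skOv
  simp only [sk_pt_sp_sq, Finset.sum_const, Finset.card_univ, Fintype.card_fin, nsmul_eq_mul, mul_one]
  exact div_self hn'

theorem sk_pt_ov_abs {n : ℕ} (hn : 0 < n) (σ τ : SkCfg n) : |skOv σ τ| ≤ 1 := by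
  have hn' : (0 : ℝ) < n := by exact_mod_cast hn
  unfold skOv
  rw [abs_div, abs_of_pos hn', div_le_one hn']
  refine (Finset.abs_sum_le_sum_abs _ _).trans ?_
  have : ∀ i : Fin n, |skSp σ i * skSp τ i| = 1 := by
    intro i
    have h1 : (skSp σ i * skSp τ i) * (skSp σ i * skSp τ i) = 1 := by
      calc (skSp σ i * skSp τ i) * (skSp σ i * skSp τ i)
          = (skSp σ i * skSp σ i) * (skSp τ i * skSp τ i) := by ring
        _ = 1 := by rw [sk_d_sp_mul, sk_d_sp_mul, one_mul]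
    have h2 : |skSp σ i * skSp τ i| * |skSp σ i * skSp τ i| = 1 := by rw [abs_mul_abs_self, h1]
    nlinarith [abs_nonneg (skSp σ i * skSp τ i)]
  simp [this]

/-- coordinate values of the SK clocks -/
theorem sk_pt_fun (n : ℕ) (f : (ℝ → ℝ) → ℝ) (b h : ℝ → ℝ) :
    (fun i => f (skClk n b h i)) = (Sum.elim (fun _ => f b) fun _ => f h : SkDr n → ℝ) := by
  funext i; cases i <;> rfl

/-- the modulus of an SK chain -/
theorem sk_pt_osc {n : ℕ} (hn : 0 < n) (a : ℝ) (b h : ℝ → ℝ) (ps : List GhPos) :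
    GhOscLe a (skPhi n) (skClk n b h) ps (n * (ghOsc a b 0 ps / 2 + ghOsc a h 0 ps)) := by
  intro s
  rw [sk_pt_fun n (fun c => ghOsc a c 0 ps), sk_pt_ker hn, sk_pt_ov_self hn]
  apply le_of_eq
  ring

variable {n : ℕ} {a : ℝ}

/-- the SK tree numbers exist -/
theorem sk_pt_ex_nu (n : ℕ) (ha : 0 < a) {b h : ℝ → ℝ} (hbh : CkAdm a b h) {q : ℕ} {τ : ℕ → ℕ → WithTop GhPos}
    (hτ : GhIsRT a q τ) (P : (Fin q → SkCfg n) → ℝ) : GhLimEx a (ckNuF n a b h q τ P) := by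
  have := gh_pt_ex_nu (sk_pt_base_ok n ha) (skPhi n) (sk_pt_clk hbh n) 0 hτ P
  have e : ckNuF n a b h q τ P = ghCNuF (skBase n a) (skPhi n) (skClk n b h) 0 q τ P := funext (sk_pt_nuF n a b h q τ P)
  rw [e]
  exact this

/-- **C1, SK form, with RATE**, on every valid chain which contains the forks -/
theorem sk_pt_close_nu (hn : 0 < n) (ha : 0 < a) {b h : ℝ → ℝ} (hbh : CkAdm a b h) {ps : List GhPos} (hps : GhChOk a ps)
    {q : ℕ} {τ : ℕ → ℕ → WithTop GhPos} (hτ : GhIsRT a q τ) (hf : GhHasForks q τ ps) (P : (Fin q → SkCfg n) → ℝ) {K : ℝ}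
    (hK : ∀ σ, |P σ| ≤ K) :
    |skCNu n a b h q τ P - ckNuF n a b h q τ P ps| ≤ 2 * a ^ 2 * q * (q + 1) * (n * (ghOsc a b 0 ps / 2 + ghOsc a h 0 ps)) * K := by
  rw [sk_c_nu_eq, sk_pt_nuF]
  exact gh_pt_close_nu (sk_pt_base_ok n ha) (skPhi n) (sk_pt_clk hbh n) hps (sk_pt_osc hn a b h ps) 0 hτ hf P hK

/-- = `exit_clk_lim_nu` -/
theorem sk_pt_lim_nu (hn : 0 < n) (ha : 0 < a) {b h : ℝ → ℝ} (hbh : CkAdm a b h) (q : ℕ) {δ : ℝ} (hδ : 0 < δ) :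
    ∃ F0 : Finset GhPos, ∀ F : Finset GhPos, F0 ⊆ F → ∀ τ : ℕ → ℕ → WithTop GhPos, GhIsRT a q τ →
      (∀ x y (p : GhPos), x < q → y < q → τ x y = (p : WithTop GhPos) → p ∈ F) →
      ∀ (P : (Fin q → SkCfg n) → ℝ) (K : ℝ), (∀ σ, |P σ| ≤ K) →
        |ckNuF n a b h q τ P (ghPs a F) - skCNu n a b h q τ P| ≤ δ * K := by
  have t : Tendsto (fun F : Finset GhPos => 2 * a ^ 2 * q * (q + 1) *
      (n * (ghOsc a b 0 (ghPs a F) / 2 + ghOsc a h 0 (ghPs a F)))) atTop (𝓝 0) := by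
    have := (((gh_os_tendsto ha.le hbh.1).div_const 2).add (gh_os_tendsto ha.le hbh.2)).const_mul (n : ℝ)
    simpa using this.const_mul (2 * a ^ 2 * q * (q + 1))
  obtain ⟨F0, hF0⟩ := (eventually_atTop.1 (t.eventually (gt_mem_nhds hδ)))
  refine ⟨F0, fun F hF τ hτ hf P K hK => ?_⟩
  have hK0 : 0 ≤ K := (abs_nonneg _).trans (hK fun _ _ => true)
  rw [abs_sub_comm]
  refine (sk_pt_close_nu hn ha hbh (gh_pt_ps_ok a F) hτ ?_ P hK).trans
    (mul_le_mul_of_nonneg_right (hF0 F hF).le hK0)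
  intro x y hx hy p hp
  exact gh_os_ps_mem.2 ⟨hf x y p hx hy hp, hτ.ok x y hx hy p hp⟩

end Claimed.Agent.R286
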