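import Claimed.Agent.R286.Brg.PrLeaf
import Claimed.Agent.R286.Brg.Defs
import Claimed.Agent.R286.Ci.Resc
import Claimed.Agent.R286.Fd.TrBs
import Claimed.Agent.R286.Fd.TrB2
import Claimed.Agent.R286.Fd.TrC2

/-!
# Row 286 (S0533), unit BRIDGE / LAYER C: TRANSLATION KIT  chains of positions (`Defs/Clk`) <-> trees with natural labels (`Defs/Tr`)      (owner + prover helper89; prefix `gh_tk_`)

0 sorry of its own (stands on `brg_at_seg` of Brg/PrLeaf, `tr_pressure_deriv` of Fd/TrC2).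
* `gh_tk_rep`, `gh_tk_repN_congr`        `ghRepN q sh = trRep q sh` for a table `IsTr N q sh`; `ghRepN` reads the labels `< q` only
* `gh_tk_idx_mono/top/le`, `gh_tk_disc_isTr`      the discrete table of a real tree on a chain is a tree (`IsTr ps.length q (ghDisc ps τ)`)
* `ghTkT P`, `gh_tk_nu_raw`, `gh_tk_nuF`  `ghCNuF B Φ v z q τ P ps = trNu B (ghChain ..) q (ghDisc ps τ) z (ghTkT P)`
* `ghTkFeat Φ`, `ghTkHs a v0 v1 c0 c1 ps`  the affine family (`gcAff`) of the chain `ps` along the segment of clocks `brgSeg θ v0 v1`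
* `gh_tk_chain_F`, `gh_tk_chain_nu`      `ghF`, `trNu` of `ghChain Φ a (brgSeg θ v0 v1) 0 ps` = those of `gcLs (ghTkFeat Φ) (gcAff (ghTkHs ..) θ)`
* `gh_tk_hs_adm`, `gh_tk_hs_length`, `gh_tk_hs_ms`, `gh_tk_trV`      admissibility, masses, cumulative insertions `trV (gcDK ..) = brgKer Φ (Δ brgCum)`
* `gh_tk_chain_adm`                      `GhAdm B 0 (ghChain ..)` on a valid chain
* **`gh_tk_fin_deriv`**                  = `brg_fin_deriv` (D) of Brg/PrAsk, on every valid chain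
-/

set_option autoImplicit false
set_option linter.unusedSectionVars false

namespace Claimed.Agent.R286

open MeasureTheory Filter Topology Set

/-! ### 1. representatives -/

theorem gh_tk_repN_congr {q : ℕ} {sh sh' : ℕ → ℕ → ℕ} (h : ∀ x y, x < q → y < q → sh x y = sh' x y) :
    ghRepN q sh = ghRepN q sh' := by
  funext t a
  unfold ghRepN
  have h1 : ∀ b : Fin q, sh a.1 b.1 = sh' a.1 b.1 := fun b => h _ _ a.2 b.2
  simp only [h1]

theorem gh_tk_rep {N q : ℕ} {τ : ℕ → ℕ → ℕ} (hτ : IsTr N q τ) (t : ℕ) (a : Fin q) :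
    ghRepN q τ t a = trRep q τ t a := by
  unfold ghRepN trRep
  cases h : (List.finRange q).find? fun b : Fin q => decide (t < τ a.1 b.1) with
  | none =>
    simp only [Option.getD_none]
    rw [List.find?_eq_none] at h
    have hs : (Finset.univ.filter fun b : Fin q => b = a ∨ t < τ a.1 b.1) = {a} := by
      ext b
      simp only [Finset.mem_filter, Finset.mem_univ, true_and, Finset.mem_singleton]
      constructor
      · rintro (hb | hb)
        · exact hb
        · exact absurd (by simpa using hb) (h b (List.mem_finRange b))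
      · intro hb; left; exact hb
    simp only [hs, Finset.min'_singleton]
  | some c =>
    simp only [Option.getD_some]
    obtain ⟨hc, as, bs, hl, has⟩ := List.find?_eq_some_iff_append.1 h
    have hc' : t < τ a.1 c.1 := by simpa using hc
    apply le_antisymm
    · exact Finset.min'_le _ _ (by simp [hc'])
    · apply Finset.le_min'
      intro m hm
      simp only [Finset.mem_filter, Finset.mem_univ, true_and] at hm
      have hpm : t < τ a.1 m.1 := by
        rcases hm with rfl | hm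
        · rw [hτ.diag _ m.2]
          exact lt_of_lt_of_le hc' (hτ.le _ _ m.2 c.2)
        · exact hm
      have hmem : m ∈ as ++ c :: bs := hl ▸ List.mem_finRange m
      have hsorted : (as ++ c :: bs).Pairwise (· < ·) := hl ▸ List.pairwise_lt_finRange q
      rcases List.mem_append.1 hmem with h1 | h1
      · exact absurd (by simpa using hpm) (by simpa using has m h1)
      · rcases List.mem_cons.1 h1 with rfl | h2
        · exact le_rfl
        · exact le_of_lt ((List.pairwise_cons.1 (List.pairwise_append.1 hsorted).2.1).1 m h2)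

theorem gh_tk_rep_fun {N q : ℕ} {τ : ℕ → ℕ → ℕ} (hτ : IsTr N q τ) : ghRepN q τ = fun t => trRep q τ t := by
  funext t a
  exact gh_tk_rep hτ t a

/-! ### 2. the discrete table of a real tree -/

theorem gh_tk_idx_mono (ps : List GhPos) {p p' : WithTop GhPos} (h : p ≤ p') : ghIdx ps p ≤ ghIdx ps p' := by
  rw [gh_idx_eq, gh_idx_eq]
  refine add_le_add ?_ ?_
  · refine (List.monotone_filter_right ps fun x hx => ?_).length_le
    have hx' : (x : WithTop GhPos) ≤ p := by simpa using hx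
    simpa using hx'.trans h
  · by_cases hp : p = ⊤
    · subst hp
      have : p' = ⊤ := top_le_iff.1 h
      simp [this]
    · simp only [hp, if_false]
      exact Nat.zero_le _

theorem gh_tk_idx_top (ps : List GhPos) : ghIdx ps ⊤ = ps.length + 1 := by
  rw [gh_idx_eq]
  simp

theorem gh_tk_idx_le (ps : List GhPos) (p : WithTop GhPos) : ghIdx ps p ≤ ps.length + 1 := by
  rw [← gh_tk_idx_top]
  exact gh_tk_idx_mono ps le_top

theorem gh_tk_idx_coe_le (ps : List GhPos) (p : GhPos) : ghIdx ps (p : WithTop GhPos) ≤ ps.length := by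
  rw [gh_idx_eq]
  simp only [WithTop.coe_ne_top, if_false, add_zero]
  exact List.length_filter_le _ _

theorem gh_tk_disc_isTr {a : ℝ} {q : ℕ} {τ : ℕ → ℕ → WithTop GhPos} (hτ : GhIsRT a q τ) (ps : List GhPos) :
    IsTr ps.length q (ghDisc ps τ) where
  le := fun x y _ _ => gh_tk_idx_le ps _
  diag := fun x hx => by unfold ghDisc; rw [hτ.diag x hx, gh_tk_idx_top]
  symm := fun x y hx hy => by unfold ghDisc; rw [hτ.symm x y hx hy]
  ultra := fun x y z hx hy hz => by
    unfold ghDisc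
    have hu := hτ.ultra x y z hx hy hz
    rcases le_total (τ x y) (τ y z) with h | h
    · rw [min_eq_left h] at hu
      exact (min_le_left _ _).trans (gh_tk_idx_mono ps hu)
    · rw [min_eq_right h] at hu
      exact (min_le_right _ _).trans (gh_tk_idx_mono ps hu)

/-! ### 3. tree numbers of chains in the vocabulary of `Defs/Tr` -/

section nu
variable {S ι : Type}

/-- a test of `q` labels as a test of natural labels -/
def ghTkT {q : ℕ} (P : (Fin q → S) → ℝ) : (ℕ → S) → ℝ := fun σ => P fun a => σ a.1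

theorem gh_tk_uses {q : ℕ} (P : (Fin q → S) → ℝ) : TrUses q (ghTkT P) := by
  intro σ σ' h
  unfold ghTkT
  congr 1
  funext a
  exact h a.1 a.2

variable [Fintype S] [Fintype ι] [Inhabited S]

theorem gh_tk_nu_raw (B : GhB S) (ls : List (GhLv S ι)) {N q : ℕ} {sh : ℕ → ℕ → ℕ} (hsh : IsTr N q sh) (z : S → ℝ)
    (P : (Fin q → S) → ℝ) :
    ghNu B ls (ghRepN q sh) (fun _ => z) (fun _ σ => P σ) = trNu B ls q sh z (ghTkT P) := by
  unfold trNu
  rw [gh_tk_rep_fun hsh]
  congr 1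
  funext _ σ
  unfold ghTkT
  congr 1
  funext a
  simp [trExt, a.2]

theorem gh_tk_nuF (B : GhB S) (Φ : S → ι → ℝ) (v : ι → ℝ → ℝ) (z : S → ℝ) {q : ℕ} {τ : ℕ → ℕ → WithTop GhPos}
    (hτ : GhIsRT B.a q τ) (P : (Fin q → S) → ℝ) (ps : List GhPos) :
    ghCNuF B Φ v z q τ P ps = trNu B (ghChain Φ B.a v 0 ps) q (ghDisc ps τ) z (ghTkT P) := by
  unfold ghCNuF
  exact gh_tk_nu_raw B _ (gh_tk_disc_isTr hτ ps) z P

end nu

/-! ### 4. the affine family of a chain along a segment of clocks -/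

section aff
variable {S ι : Type}

/-- the features as blocks with one coordinate each -/
def ghTkFeat (Φ : S → ι → ℝ) : ι → S → Unit → ℝ := fun i s _ => Φ s i

/-- (mass, increments of `v0`, increments of `v1 - v0`) at the positions of the chain; `c0, c1` = already revealed -/
noncomputable def ghTkHs (a : ℝ) (v0 v1 : ι → ℝ → ℝ) : (ι → ℝ) → (ι → ℝ) → List GhPos → List (ℝ × (ι → ℝ) × (ι → ℝ))
  | _, _, [] => []
  | c0, c1, p :: ps =>
      (p.u, (fun i => ghClkAt a v0 p i - c0 i), fun i => (ghClkAt a v1 p i - c1 i) - (ghClkAt a v0 p i - c0 i)) ::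
        ghTkHs a v0 v1 (ghClkAt a v0 p) (ghClkAt a v1 p) ps

theorem gh_tk_hs_fst (a : ℝ) (v0 v1 : ι → ℝ → ℝ) (ps : List GhPos) (c0 c1 : ι → ℝ) :
    (ghTkHs a v0 v1 c0 c1 ps).map Prod.fst = ps.map GhPos.u := by
  induction ps generalizing c0 c1 with
  | nil => rfl
  | cons p ps ih => simp only [ghTkHs, List.map_cons, ih]

theorem gh_tk_hs_length (a : ℝ) (v0 v1 : ι → ℝ → ℝ) (ps : List GhPos) (c0 c1 : ι → ℝ) :
    (ghTkHs a v0 v1 c0 c1 ps).length = ps.length := by
  have := congrArg List.length (gh_tk_hs_fst a v0 v1 ps c0 c1)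
  simpa using this

theorem gh_tk_hs_ms (a : ℝ) (v0 v1 : ι → ℝ → ℝ) (ps : List GhPos) (c0 c1 : ι → ℝ) (j : ℕ) :
    gcMs a (ghTkHs a v0 v1 c0 c1 ps) j = brgMs a ps j := by
  unfold gcMs brgMs
  rw [← List.getElem?_map, ← List.getElem?_map, gh_tk_hs_fst]

theorem gh_tk_chain_m (Φ : S → ι → ℝ) (a : ℝ) (v : ι → ℝ → ℝ) (ps : List GhPos) (c : ι → ℝ) :
    (ghChain Φ a v c ps).map GhLv.m = ps.map GhPos.u := by
  induction ps generalizing c with
  | nil => rfl
  | cons p ps ih => simp only [ghChain, List.map_cons, ih, ghLvF]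

theorem gh_tk_chain_length (Φ : S → ι → ℝ) (a : ℝ) (v : ι → ℝ → ℝ) (ps : List GhPos) (c : ι → ℝ) :
    (ghChain Φ a v c ps).length = ps.length := by
  have := congrArg List.length (gh_tk_chain_m Φ a v ps c)
  simpa using this

theorem gh_tk_u_pairwise {a : ℝ} {ps : List GhPos} (hps : GhChOk a ps) : (ps.map GhPos.u).Pairwise (· ≤ ·) := by
  rw [List.pairwise_map]
  refine hps.1.imp fun {p p'} h => ?_
  rcases (gh_os_pos_lt_iff p p').1 h with h | h
  · exact h.le
  · exact h.1.le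

theorem gh_tk_chain_adm [Fintype S] [Fintype ι] (B : GhB S) (Φ : S → ι → ℝ) (v : ι → ℝ → ℝ) {ps : List GhPos}
    (hps : GhChOk B.a ps) (c : ι → ℝ) : GhAdm B 0 (ghChain Φ B.a v c ps) := by
  constructor
  · have h := gh_tk_u_pairwise hps
    rw [← gh_tk_chain_m Φ B.a v ps c, List.pairwise_map] at h
    exact h
  · intro l hl
    have h1 : l.m ∈ (ghChain Φ B.a v c ps).map GhLv.m := List.mem_map_of_mem hl
    rw [gh_tk_chain_m] at h1
    obtain ⟨p, hp, hpl⟩ := List.mem_map.1 h1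
    rw [← hpl]
    exact ⟨(hps.2 p hp).1, (hps.2 p hp).2.1⟩

theorem gh_tk_hs_adm {a : ℝ} (ha : 0 ≤ a) {v0 v1 : ι → ℝ → ℝ} (h0 : GhClk a v0) (h1 : GhClk a v1) :
    ∀ (ps : List GhPos), GhChOk a ps → ∀ c0 c1 : ι → ℝ, (∀ p ∈ ps, ∀ i, c0 i ≤ ghClkAt a v0 p i) →
      (∀ p ∈ ps, ∀ i, c1 i ≤ ghClkAt a v1 p i) → GcAffAdm a (ghTkHs a v0 v1 c0 c1 ps) := by
  intro ps hps c0 c1 hc0 hc1
  refine ⟨by rw [gh_tk_hs_fst]; exact gh_tk_u_pairwise hps, ?_⟩
  induction ps generalizing c0 c1 with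
  | nil => intro h hh; simp [ghTkHs] at hh
  | cons p ps ih =>
    intro h hh
    simp only [ghTkHs, List.mem_cons] at hh
    have hpok := hps.2 p (List.mem_cons_self ..)
    rcases hh with rfl | hh
    · refine ⟨⟨hpok.1, hpok.2.1⟩, fun r => ⟨?_, ?_⟩⟩
      · simpa using hc0 p (List.mem_cons_self ..) r
      · have := hc1 p (List.mem_cons_self ..) r
        simp only
        linarith
    · have hps' : GhChOk a ps := ⟨(List.pairwise_cons.1 hps.1).2, fun x hx => hps.2 x (List.mem_cons_of_mem _ hx)⟩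
      refine ih hps' _ _ (fun x hx i => ?_) (fun x hx i => ?_) h hh
      · exact gh_os_at_mono ha (h0 i) hpok.2.2.2 (hps.2 x (List.mem_cons_of_mem _ hx)).2.2.1
          ((List.pairwise_cons.1 hps.1).1 x hx).le
      · exact gh_os_at_mono ha (h1 i) hpok.2.2.2 (hps.2 x (List.mem_cons_of_mem _ hx)).2.2.1
          ((List.pairwise_cons.1 hps.1).1 x hx).le

theorem gh_tk_hs_adm0 {a : ℝ} (ha : 0 ≤ a) {v0 v1 : ι → ℝ → ℝ} (h0 : GhClk a v0) (h1 : GhClk a v1) {ps : List GhPos}
    (hps : GhChOk a ps) : GcAffAdm a (ghTkHs a v0 v1 0 0 ps) :=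
  gh_tk_hs_adm ha h0 h1 ps hps 0 0 (fun p hp i => gh_os_at_nonneg ha (h0 i) (hps.2 p hp).2.2.1)
    (fun p hp i => gh_os_at_nonneg ha (h1 i) (hps.2 p hp).2.2.1)

/-- the clocks of a segment at a position -/
theorem gh_tk_at_seg {a : ℝ} (ha : 0 ≤ a) {v0 v1 : ι → ℝ → ℝ} (h0 : GhClk a v0) (h1 : GhClk a v1) (θ : ℝ) (p : GhPos) :
    ghClkAt a (brgSeg θ v0 v1) p = fun i => (1 - θ) * ghClkAt a v0 p i + θ * ghClkAt a v1 p i := by
  funext i
  exact brg_at_seg ha (h0 i) (h1 i) θ p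

variable [Fintype S] [Fintype ι]

/-- two hierarchies with the same masses and the same covariance increments -/
def GhTkRel {ι' : Type} [Fintype ι'] (l : GhLv S ι) (l' : GhLv S ι') : Prop := l.m = l'.m ∧ ∀ s t, l.cov s t = l'.cov s t

theorem gh_tk_rel_spec {ι' : Type} [Fintype ι'] (B : GhB S) {ls : List (GhLv S ι)} {ls' : List (GhLv S ι')}
    (h : List.Forall₂ GhTkRel ls ls') :
    ls.length = ls'.length ∧ (∀ j, trMs B ls j = trMs B ls' j) ∧
      ∀ j (h : j < ls.length) (h' : j < ls'.length) s t, (ls[j]).cov s t = (ls'[j]).cov s t := by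
  induction h with
  | nil => exact ⟨rfl, fun _ => rfl, fun j h => absurd h (Nat.not_lt_zero _)⟩
  | @cons l l' ls ls' hl _ ih =>
    refine ⟨by simp [ih.1], fun j => ?_, fun j h h' s t => ?_⟩
    · cases j with
      | zero => simp [trMs, hl.1]
      | succ j => simpa [trMs] using ih.2.1 j
    · cases j with
      | zero => simpa using hl.2 s t
      | succ j => simpa using ih.2.2 j (by simpa using h) (by simpa using h') s t

theorem gh_tk_chain_rel {a : ℝ} (ha : 0 ≤ a) (Φ : S → ι → ℝ) {v0 v1 : ι → ℝ → ℝ} (h0 : GhClk a v0) (h1 : GhClk a v1) (θ : ℝ)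
    (ps : List GhPos) (c0 c1 : ι → ℝ) :
    List.Forall₂ GhTkRel (ghChain Φ a (brgSeg θ v0 v1) (fun i => (1 - θ) * c0 i + θ * c1 i) ps)
      (gcLs (ghTkFeat Φ) (gcAff (ghTkHs a v0 v1 c0 c1 ps) θ)) := by
  induction ps generalizing c0 c1 with
  | nil => exact List.Forall₂.nil
  | cons p ps ih =>
    simp only [ghChain, ghTkHs, gcAff, gcLs, List.map_cons]
    refine List.Forall₂.cons ⟨rfl, fun s t => ?_⟩ ?_
    · simp only [GhLv.cov, ghLvF, gcLv, ghTkFeat, Fintype.sum_prod_type, Finset.univ_unique, Finset.sum_singleton]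
      refine Finset.sum_congr rfl fun i _ => ?_
      rw [gh_tk_at_seg ha h0 h1]
      have e : (1 - θ) * ghClkAt a v0 p i + θ * ghClkAt a v1 p i - ((1 - θ) * c0 i + θ * c1 i)
          = ghClkAt a v0 p i - c0 i + θ * (ghClkAt a v1 p i - c1 i - (ghClkAt a v0 p i - c0 i)) := by ring
      simp only [e]
    · have := ih (ghClkAt a v0 p) (ghClkAt a v1 p)
      rw [← gh_tk_at_seg ha h0 h1] at this
      simpa only [gcAff, gcLs] using this

theorem gh_tk_chain_rel0 {a : ℝ} (ha : 0 ≤ a) (Φ : S → ι → ℝ) {v0 v1 : ι → ℝ → ℝ} (h0 : GhClk a v0) (h1 : GhClk a v1) (θ : ℝ)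
    (ps : List GhPos) :
    List.Forall₂ GhTkRel (ghChain Φ a (brgSeg θ v0 v1) 0 ps) (gcLs (ghTkFeat Φ) (gcAff (ghTkHs a v0 v1 0 0 ps) θ)) := by
  have h := gh_tk_chain_rel ha Φ h0 h1 θ ps 0 0
  have e : (fun i : ι => (1 - θ) * (0 : ι → ℝ) i + θ * (0 : ι → ℝ) i) = 0 := by
    funext i; simp
  rwa [e] at h

/-- the continuation of the chain of a segment, in the vocabulary of `Defs/Tr` -/
theorem gh_tk_chain_F [Inhabited S] {B : GhB S} (hB : B.Ok) (Φ : S → ι → ℝ) {v0 v1 : ι → ℝ → ℝ} (h0 : GhClk B.a v0)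
    (h1 : GhClk B.a v1) (θ : ℝ) (ps : List GhPos) (z : S → ℝ) :
    ghF B (ghChain Φ B.a (brgSeg θ v0 v1) 0 ps) z = ghF B (gcLs (ghTkFeat Φ) (gcAff (ghTkHs B.a v0 v1 0 0 ps) θ)) z := by
  obtain ⟨e1, e2, e3⟩ := gh_tk_rel_spec B (gh_tk_chain_rel0 hB.pos.le Φ h0 h1 θ ps)
  exact trs_F_cov_congr hB e1 e2 e3 z

/-- the tree numbers of the chain of a segment, in the vocabulary of `Defs/Tr` -/
theorem gh_tk_chain_nu [Inhabited S] {B : GhB S} (hB : B.Ok) (Φ : S → ι → ℝ) {v0 v1 : ι → ℝ → ℝ} (h0 : GhClk B.a v0)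
    (h1 : GhClk B.a v1) (θ : ℝ) (ps : List GhPos) (q : ℕ) (τ : ℕ → ℕ → ℕ) (z : S → ℝ) (P : (ℕ → S) → ℝ) :
    trNu B (ghChain Φ B.a (brgSeg θ v0 v1) 0 ps) q τ z P = gcNu B (ghTkFeat Φ) (ghTkHs B.a v0 v1 0 0 ps) θ q τ z P := by
  obtain ⟨e1, e2, e3⟩ := gh_tk_rel_spec B (gh_tk_chain_rel0 hB.pos.le Φ h0 h1 θ ps)
  exact trs_cov_congr hB e1 e2 e3 q τ z P

/-! ### 5. cumulative insertions -/

theorem gh_tk_cum (a : ℝ) (v0 v1 : ι → ℝ → ℝ) (r : ι) : ∀ (ps : List GhPos) (c0 c1 : ι → ℝ) (t : ℕ),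
    ∑ j ∈ Finset.range (min t ps.length), (((ghTkHs a v0 v1 c0 c1 ps)[j]?.map fun h => h.2.2 r).getD 0)
      = ((((ps.take t).getLast?.map fun p => ghAt a (v1 r) p).getD (c1 r)) - c1 r)
        - ((((ps.take t).getLast?.map fun p => ghAt a (v0 r) p).getD (c0 r)) - c0 r)
  | [], c0, c1, t => by simp
  | p :: ps, c0, c1, 0 => by simp
  | p :: ps, c0, c1, t + 1 => by
      have hmin : min (t + 1) (p :: ps).length = min t ps.length + 1 := by
        simp only [List.length_cons]; omega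
      rw [hmin, Finset.sum_range_succ']
      simp only [ghTkHs, List.getElem?_cons_succ, List.getElem?_cons_zero, Option.map_some, Option.getD_some,
        List.take_succ_cons, List.getLast?_cons]
      rw [gh_tk_cum a v0 v1 r ps (ghClkAt a v0 p) (ghClkAt a v1 p) t]
      cases (ps.take t).getLast? with
      | none => simp [ghClkAt]
      | some x => simp only [ghClkAt, Option.map_some, Option.getD_some]; ring

theorem gh_tk_trV (a : ℝ) (Φ : S → ι → ℝ) (v0 v1 : ι → ℝ → ℝ) (ps : List GhPos) (t : ℕ) (s s' : S) :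
    trV (gcDK (ghTkFeat Φ) (ghTkHs a v0 v1 0 0 ps)) ps.length t s s'
      = brgKer Φ (fun i => brgCum a v1 ps t i - brgCum a v0 ps t i) s s' := by
  unfold trV gcDK brgKer
  rw [Finset.sum_comm]
  refine Finset.sum_congr rfl fun r _ => ?_
  rw [← Finset.sum_mul, gh_tk_cum a v0 v1 r ps 0 0 t]
  simp only [gcKer, ghTkFeat, Finset.univ_unique, Finset.sum_singleton, brgCum, Pi.zero_apply, sub_zero]
  ring

end aff

/-! ### 6. first line of PE (1) on a chain -/

section deriv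

theorem gh_tk_one_isTr (N : ℕ) : IsTr N 1 (fun _ _ => N + 1) where
  le := fun _ _ _ _ => le_rfl
  diag := fun _ _ => rfl
  symm := fun _ _ _ _ => rfl
  ultra := fun _ _ _ _ _ _ => by simp

theorem gh_tk_one_rt (a : ℝ) : GhIsRT a 1 (fun _ _ => ⊤) where
  diag := fun _ _ => rfl
  symm := fun _ _ _ _ => rfl
  ultra := fun _ _ _ _ _ _ => by simp
  ok := fun _ _ _ _ p hp => absurd hp.symm (WithTop.coe_ne_top)

/-- weights of the attachments of a second label to a single leaf -/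
theorem gh_tk_wt (ms : ℕ → ℝ) (N j : ℕ) (hj : j ≤ N + 1) :
    trWt ms N 1 (fun _ _ => N + 1) 0 j = if j = N + 1 then ms N else trPm ms j - ms j := by
  unfold trWt
  have h1 : trIsMin (fun _ _ => N + 1) j 0 := fun y hy => absurd hy (Nat.not_lt_zero _)
  rw [if_pos h1]
  have h2 : trDeg 1 (fun _ _ => N + 1) j 0 = 1 := by
    unfold trDeg
    have : (Finset.range 1).filter (fun y => j ≤ N + 1 ∧ trIsMin (fun _ _ => N + 1) (j + 1) y) = {0} := by
      ext y
      simp only [Finset.mem_filter, Finset.mem_range, Finset.mem_singleton, Nat.lt_one_iff]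
      constructor
      · exact fun h => h.1
      · rintro rfl
        exact ⟨rfl, hj, fun y hy => absurd hy (Nat.not_lt_zero _)⟩
    rw [this]; rfl
  rw [h2]; simp

theorem gh_tk_att (N j : ℕ) (hj : j ≤ N + 1) (x y : ℕ) (hx : x < 2) (hy : y < 2) :
    trAtt N 1 (fun _ _ => N + 1) 0 j x y = brgT2 N j x y := by
  unfold trAtt brgT2
  interval_cases x <;> interval_cases y <;> simp [hj]

theorem gh_tk_att_top (N : ℕ) : trAtt N 1 (fun _ _ => N + 1) 0 (N + 1) = fun _ _ => N + 1 := by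
  funext x y
  unfold trAtt
  split_ifs <;> simp

theorem gh_tk_cum_top {ι : Type} (a : ℝ) (v : ι → ℝ → ℝ) (ps : List GhPos) :
    brgCum a v ps (ps.length + 1) = brgCum a v ps ps.length := by
  unfold brgCum
  rw [List.take_of_length_le (Nat.le_succ _), List.take_length]

variable {S ι : Type} [Fintype S] [Fintype ι]

/-- two labels which share exactly `j ≤ N` revelations -/
theorem gh_tk_term [Inhabited S] {B : GhB S} (hB : B.Ok) (Φ : S → ι → ℝ) {v0 v1 : ι → ℝ → ℝ} (h0 : GhClk B.a v0)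
    (h1 : GhClk B.a v1) (z : S → ℝ) (ps : List GhPos) (θ : ℝ) {j : ℕ} (hj : j ≤ ps.length + 1) :
    gcNu B (ghTkFeat Φ) (ghTkHs B.a v0 v1 0 0 ps) θ 2 (trAtt ps.length 1 (fun _ _ => ps.length + 1) 0 j) z
        (fun σ => trV (gcDK (ghTkFeat Φ) (ghTkHs B.a v0 v1 0 0 ps)) ps.length
          (trAtt ps.length 1 (fun _ _ => ps.length + 1) 0 j 0 1) (σ 0) (σ 1))
      = brgNu2 B (ghChain Φ B.a (brgSeg θ v0 v1) 0 ps) z j
          fun σ => brgKer Φ (fun i => brgCum B.a v1 ps j i - brgCum B.a v0 ps j i) (σ 0) (σ 1) := by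
  rw [← gh_tk_chain_nu hB Φ h0 h1]
  unfold brgNu2
  rw [gh_tk_chain_length]
  have hT : IsTr ps.length 2 (trAtt ps.length 1 (fun _ _ => ps.length + 1) 0 j) :=
    tr_att_isTr (gh_tk_one_isTr ps.length) Nat.one_pos hj
  rw [gh_tk_repN_congr (sh := brgT2 ps.length j) (sh' := trAtt ps.length 1 (fun _ _ => ps.length + 1) 0 j)
    (fun x y hx hy => (gh_tk_att ps.length j hj x y hx hy).symm), gh_tk_nu_raw B _ hT z]
  congr 1
  funext σ
  rw [gh_tk_att ps.length j hj 0 1 (by norm_num) (by norm_num), gh_tk_trV]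
  simp [brgT2, ghTkT]

/-- the two labels coincide -/
theorem gh_tk_term_top [Inhabited S] {B : GhB S} (hB : B.Ok) (Φ : S → ι → ℝ) (v : ι → ℝ → ℝ) (z : S → ℝ)
    {ps : List GhPos} (hps : GhChOk B.a ps) (P : (Fin 2 → S) → ℝ) :
    brgNu2 B (ghChain Φ B.a v 0 ps) z (ps.length + 1) P
      = ghCNuF B Φ v z 1 (fun _ _ => ⊤) (fun σ => P fun _ => σ 0) ps := by
  have hlen := gh_tk_chain_length Φ B.a v ps 0
  have hls := gh_tk_chain_adm B Φ v hps 0
  rw [gh_tk_nuF B Φ v z (gh_tk_one_rt B.a)]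
  have hd : ghDisc ps (fun _ _ => ⊤) = fun _ _ => ps.length + 1 := by
    funext x y
    exact gh_tk_idx_top ps
  rw [hd]
  unfold brgNu2
  rw [hlen]
  have hT : IsTr ps.length 2 (fun _ _ => ps.length + 1) :=
    ⟨fun _ _ _ _ => le_rfl, fun _ _ => rfl, fun _ _ _ _ => rfl, fun _ _ _ _ _ _ => by simp⟩
  rw [gh_tk_repN_congr (sh := brgT2 ps.length (ps.length + 1)) (sh' := fun _ _ => ps.length + 1)
    (fun x y _ _ => by simp [brgT2]), gh_tk_nu_raw B _ hT z]
  have hτ1 : IsTr (ghChain Φ B.a v 0 ps).length 1 (fun _ _ => ps.length + 1) := by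
    rw [hlen]; exact gh_tk_one_isTr _
  have := tr_nu_comap hB hls hτ1 z (fun _ => 0) (p := 2) (fun _ _ => Nat.one_pos) (ghTkT P) (gh_tk_uses P)
  rw [← this]
  rfl

/-- **(D) first line of PE (1) / LL (A1) on a valid chain** -/
theorem gh_tk_fin_deriv {B : GhB S} (hB : B.Ok) (Φ : S → ι → ℝ) {v0 v1 : ι → ℝ → ℝ} (h0 : GhClk B.a v0) (h1 : GhClk B.a v1)
    (z : S → ℝ) {ps : List GhPos} (hps : GhChOk B.a ps) {θ : ℝ} (hθ : θ ∈ Icc (0 : ℝ) 1) :
    HasDerivWithinAt (fun t => ghF B (ghChain Φ B.a (brgSeg t v0 v1) 0 ps) z) (brgDF B Φ v0 v1 z ps θ) (Icc 0 1) θ := by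
  classical
  have hne : Nonempty S := by
    by_contra h
    rw [not_nonempty_iff] at h
    have := hB.sum
    simp at this
  have : Inhabited S := Classical.inhabited_of_nonempty hne
  have hlen : (ghTkHs B.a v0 v1 0 0 ps).length = ps.length := gh_tk_hs_length ..
  have key := tr_pressure_deriv hB (ghTkFeat Φ) (gh_tk_hs_adm0 hB.pos.le h0 h1 hps) z hθ
  have hfun : (fun t => ghF B (ghChain Φ B.a (brgSeg t v0 v1) 0 ps) z)
      = fun t => ghF B (gcLs (ghTkFeat Φ) (gcAff (ghTkHs B.a v0 v1 0 0 ps) t)) z :=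
    funext fun t => gh_tk_chain_F hB Φ h0 h1 t ps z
  rw [hfun]
  convert key using 1
  rw [hlen]
  have hsum : ∑ j ∈ Finset.range (ps.length + 1),
      trWt (gcMs B.a (ghTkHs B.a v0 v1 0 0 ps)) ps.length 1 (fun _ _ => ps.length + 1) 0 j *
        gcNu B (ghTkFeat Φ) (ghTkHs B.a v0 v1 0 0 ps) θ 2 (trAtt ps.length 1 (fun _ _ => ps.length + 1) 0 j) z
          (fun σ => trV (gcDK (ghTkFeat Φ) (ghTkHs B.a v0 v1 0 0 ps)) ps.length
            (trAtt ps.length 1 (fun _ _ => ps.length + 1) 0 j 0 1) (σ 0) (σ 1))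
      = - ∑ j ∈ Finset.range (ps.length + 1), brgGap B.a ps j *
        brgNu2 B (ghChain Φ B.a (brgSeg θ v0 v1) 0 ps) z j
          fun σ => brgKer Φ (fun i => brgCum B.a v1 ps j i - brgCum B.a v0 ps j i) (σ 0) (σ 1) := by
    rw [← Finset.sum_neg_distrib]
    refine Finset.sum_congr rfl fun j hj => ?_
    have hj' : j < ps.length + 1 := Finset.mem_range.1 hj
    rw [gh_tk_term hB Φ h0 h1 z ps θ hj'.le, gh_tk_wt _ _ _ hj'.le, if_neg hj'.ne]
    unfold trPm brgGap
    simp only [gh_tk_hs_ms]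
    ring
  have hN : brgMs B.a ps ps.length = B.a := by
    unfold brgMs
    simp
  unfold trSum
  rw [Finset.range_one, Finset.sum_singleton, Finset.sum_range_succ]
  simp only []
  rw [hsum, gh_tk_term hB Φ h0 h1 z ps θ le_rfl, gh_tk_wt _ _ _ le_rfl, if_pos rfl, gh_tk_hs_ms,
    gh_tk_term_top hB Φ _ z hps, gh_tk_cum_top, gh_tk_cum_top, hN]
  unfold brgDF
  ring

end deriv

theorem gh_tk_eqns_cite0 : True := by
  have := @ghTkT.eq_1
  have := @ghTkFeat.eq_1
  have := @ghTkHs.eq_1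
  have := @ghTkHs.eq_2
  have := @ghTkHs.eq_def
  have := @ghTkHs.induct
  have := @GhTkRel.eq_1
  trivial

end Claimed.Agent.R286
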