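import Claimed.Agent.R286.Brg.PrDefs
import Claimed.Agent.R286.Brg.Osc
import Claimed.Agent.R286.Defs.GhBasic
import Claimed.Agent.R286.Brg.TrKit
import Claimed.Agent.R286.Brg.Refine
import Claimed.Agent.R286.Fd.TrB1

/-!
# Row 286 (S0533), unit BRIDGE / LAYER C, block C3: what the block IMPORTS from the other blocks of the layer      (typed by helper132)

Each `sorry` = ONE ask, with the owner of its proof.      If you have the fact under another name: replace the `sorry` by `exact`, do not retype the statement.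
All statements are GENERIC (any `B`, `Φ`, source `z`), constants explicit.

* (K) `brg_nu_vec`                                        spin tests see a finite probability vector                  [law kit: 76 Fd/Law*, or 150 `tr_nu_eq_sum`]
* (R) `brg_nu_refine`, `brg_F_refine`                     refinement comparison on chains, modulus `ghOsc`            [148: empty levels + merging + `tr_taylor`, `tr_pressure_deriv`]
* (L) `brg_nu_limEx`, `brg_nu_close`, `brg_F_limEx`, `brg_F_close`      Cauchy glue: PE Prop 2.14 (existence) + C1 of 262 (rate, uniform in tree, test, source)      [148]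
* (T) `brg_nuF_lip`                                       PE Lemma 2.9 (j = 1) on a common chain, two families of clocks      [148 / 89: translation of `tr_taylor`]
* (D) `brg_fin_deriv`                                     first line of PE (1) on a chain                              [89: translation of `tr_pressure_deriv`]

WHY `BrgFk` (and not "forks ⊆ F"): `ghDisc ps τ` ROUNDS a fork DOWN to the chain.  If the fork `f ∉ F` is not inside the jump of a later position of `F`, the levels inserted in its gap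
with the mass of the next position merge with it, the others carry at most `ghOsc`; at the held end they are empty, so the fork slides down (`tr_nu_empty_side`).
This is what turns the sums over the cuts of a chain into `du`-integrals of path numbers (forks at `(u,1)`, `u` not a mass of `F`): no separate fork modulus is needed in C3.
-/

set_option autoImplicit false

namespace Claimed.Agent.R286

open MeasureTheory Filter Topology Set

variable {S ι : Type} [Fintype S] [Fintype ι]

/-- (K) spin tests see a finite probability vector; raw form: any representative maps, any revealed fields -/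
theorem brg_nu_vec {B : GhB S} (hB : B.Ok) (ls : List (GhLv S ι)) (hls : GhNn ls) {q : ℕ} (rep : ℕ → Fin q → Fin q)
    (G : Fin q → S → ℝ) :
    ∃ w : (Fin q → S) → ℝ, (∀ σ, 0 ≤ w σ) ∧ ∑ σ, w σ = 1 ∧
      ∀ P : (Fin q → S) → ℝ, ghNu B ls rep G (fun _ σ => P σ) = ∑ σ, w σ * P σ := by
  classical
  have hlin : ∀ P : (Fin q → S) → ℝ, ghNu B ls rep G (fun _ σ => P σ)
      = ∑ σ₀, ghNu B ls rep G (fun _ σ => if σ = σ₀ then 1 else 0) * P σ₀ := by
    intro P
    have h := tr_b1_nu_sum hB (Finset.univ : Finset (Fin q → S)) P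
      (fun σ₀ σ => if σ = σ₀ then (1 : ℝ) else 0) ls hls rep G
    have e : (fun (_ : ℕ → Fin q → ι → ℝ) (σ : Fin q → S) => ∑ k, P k * (if σ = k then (1 : ℝ) else 0))
        = fun _ σ => P σ := by
      funext _ σ
      simp
    rw [e] at h
    rw [h]
    exact Finset.sum_congr rfl fun σ₀ _ => mul_comm _ _
  refine ⟨fun σ₀ => ghNu B ls rep G (fun _ σ => if σ = σ₀ then 1 else 0), fun σ₀ => ?_, ?_, hlin⟩
  · refine gh_n_nonneg B hB ls rep G _ fun _ σ => ?_
    split_ifs <;> norm_num
  · have h1 := hlin fun _ => 1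
    rw [gh_n_const B hB 1 ls hls rep G] at h1
    simpa using h1.symm

/-- (R) refinement comparison for tree numbers -/
theorem brg_nu_refine {B : GhB S} (hB : B.Ok) (Φ : S → ι → ℝ) {v : ι → ℝ → ℝ} (hv : GhClk B.a v) (z : S → ℝ) {q : ℕ}
    {τ : ℕ → ℕ → WithTop GhPos} (hτ : GhIsRT B.a q τ) {F F' : Finset GhPos} (hFF : F ⊆ F') (hfk : BrgFk B.a q τ F) {M : ℝ}
    (hM : BrgFine B.a Φ v (ghPs B.a F) M) (P : (Fin q → S) → ℝ) {K : ℝ} (hK : ∀ σ, |P σ| ≤ K) :
    |ghCNuF B Φ v z q τ P (ghPs B.a F') - ghCNuF B Φ v z q τ P (ghPs B.a F)| ≤ 2 * B.a ^ 2 * q * (q + 1) * M * K :=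
  gh_br_ask_nu_refine hB Φ hv z hτ hFF hfk hM P hK

/-- (R) refinement comparison for the continuation -/
theorem brg_F_refine {B : GhB S} (hB : B.Ok) (Φ : S → ι → ℝ) {v : ι → ℝ → ℝ} (hv : GhClk B.a v) (z : S → ℝ)
    {F F' : Finset GhPos} (hFF : F ⊆ F') {M : ℝ} (hM : BrgFine B.a Φ v (ghPs B.a F) M) :
    |ghF B (ghChain Φ B.a v 0 (ghPs B.a F')) z - ghF B (ghChain Φ B.a v 0 (ghPs B.a F)) z| ≤ B.a * M :=
  gh_br_ask_F_refine hB Φ hv z hFF hM

/-- (T) PE Lemma 2.9 (`j = 1`) on a common chain: two families of clocks, sup distance of the cumulative kernels at the positions of the chain -/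
theorem brg_nuF_lip {B : GhB S} (hB : B.Ok) (Φ : S → ι → ℝ) {v v' : ι → ℝ → ℝ} (hv : GhClk B.a v) (hv' : GhClk B.a v')
    (z : S → ℝ) {q : ℕ} {τ : ℕ → ℕ → WithTop GhPos} (hτ : GhIsRT B.a q τ) (F : Finset GhPos) {M : ℝ} (hM0 : 0 ≤ M)
    (hM : ∀ p ∈ ghPs B.a F, ∀ s t, |brgKer Φ (fun i => ghAt B.a (v' i) p - ghAt B.a (v i) p) s t| ≤ M)
    (P : (Fin q → S) → ℝ) {K : ℝ} (hK : ∀ σ, |P σ| ≤ K) :
    |ghCNuF B Φ v' z q τ P (ghPs B.a F) - ghCNuF B Φ v z q τ P (ghPs B.a F)| ≤ 2 * B.a ^ 2 * q * (q + 1) * M * K :=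
  gh_br_ask_nuF_lip hB Φ hv hv' z hτ F hM0 hM P hK

/-- (D) first line of PE (1) / LL (A1) on a chain -/
theorem brg_fin_deriv {B : GhB S} (hB : B.Ok) (Φ : S → ι → ℝ) {v0 v1 : ι → ℝ → ℝ} (h0 : GhClk B.a v0) (h1 : GhClk B.a v1)
    (z : S → ℝ) (F : Finset GhPos) {θ : ℝ} (hθ : θ ∈ Icc (0 : ℝ) 1) :
    HasDerivWithinAt (fun t => ghF B (ghChain Φ B.a (brgSeg t v0 v1) 0 (ghPs B.a F)) z)
      (brgDF B Φ v0 v1 z (ghPs B.a F) θ) (Icc 0 1) θ :=
  gh_tk_fin_deriv hB Φ h0 h1 z ⟨gh_os_ps_lt _ F, fun _ hp => (gh_os_ps_mem.1 hp).2⟩ hθ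

end Claimed.Agent.R286
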