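import Claimed.Agent.R286.Defs.Clk

/-!
# Row 286 (S0533), unit BRIDGE / LAYER C: ABSTRACT KIT of limits along the net of chains      (owner helper132; prefix `brg_k_`)      0 sorry

* `brg_k_limEx_of_cauchy`   a functional of chains which is Cauchy along the net has a limit (`GhLimEx`)
* `brg_k_close`             rate: if all refinements of `F` stay within `δ` of `F`, the limit is within `δ`
* `brg_k_lim_eq`            identification of `ghLim`
* `brg_k_le_of_eventually`, `brg_k_transfer`      closed conditions pass to the limit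
* `brg_k_hasDerivWithinAt`  DERIVATIVE OF A LIMIT on a convex set of `ℝ` (end points included): pointwise convergence of the functions + uniform convergence of the derivatives,
                            along ANY filter (Mathlib has the interior version only)
-/

set_option autoImplicit false

namespace Claimed.Agent.R286

open MeasureTheory Filter Topology Set

/-- identification of the limit -/
theorem brg_k_lim_eq {a : ℝ} {Q : List GhPos → ℝ} {x : ℝ}
    (h : Tendsto (fun F : Finset GhPos => Q (ghPs a F)) atTop (𝓝 x)) : ghLim a Q = x :=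
  h.limUnder_eq

theorem brg_k_limEx_of_tendsto {a : ℝ} {Q : List GhPos → ℝ} {x : ℝ}
    (h : Tendsto (fun F : Finset GhPos => Q (ghPs a F)) atTop (𝓝 x)) : GhLimEx a Q := by
  unfold GhLimEx
  rw [brg_k_lim_eq h]
  exact h

/-- Cauchy along the net ⟹ the limit exists -/
theorem brg_k_limEx_of_cauchy {a : ℝ} {Q : List GhPos → ℝ}
    (h : ∀ ε : ℝ, 0 < ε → ∃ F0 : Finset GhPos, ∀ F, F0 ⊆ F → |Q (ghPs a F) - Q (ghPs a F0)| ≤ ε) : GhLimEx a Q := by
  classical
  have hc : CauchySeq fun F : Finset GhPos => Q (ghPs a F) := by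
    rw [Metric.cauchySeq_iff']
    intro ε hε
    obtain ⟨F0, hF0⟩ := h (ε / 2) (by positivity)
    refine ⟨F0, fun F hF => ?_⟩
    rw [Real.dist_eq]
    exact lt_of_le_of_lt (hF0 F hF) (by linarith)
  obtain ⟨x, hx⟩ := cauchySeq_tendsto_of_complete hc
  exact brg_k_limEx_of_tendsto hx

/-- rate of convergence -/
theorem brg_k_close {a : ℝ} {Q : List GhPos → ℝ} (hex : GhLimEx a Q) {F : Finset GhPos} {δ : ℝ}
    (h : ∀ F', F ⊆ F' → |Q (ghPs a F') - Q (ghPs a F)| ≤ δ) : |Q (ghPs a F) - ghLim a Q| ≤ δ := by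
  have h1 : Tendsto (fun F' : Finset GhPos => |Q (ghPs a F') - Q (ghPs a F)|) atTop (𝓝 |ghLim a Q - Q (ghPs a F)|) :=
    (hex.sub_const _).abs
  have h2 : |ghLim a Q - Q (ghPs a F)| ≤ δ :=
    le_of_tendsto h1 ((eventually_ge_atTop F).mono fun F' hF' => h F' hF')
  rwa [abs_sub_comm]

/-- a bound which holds on all fine chains passes to the limit -/
theorem brg_k_le_of_eventually {a : ℝ} {Q : List GhPos → ℝ} (hex : GhLimEx a Q) {c : ℝ} {F0 : Finset GhPos}
    (h : ∀ F, F0 ⊆ F → Q (ghPs a F) ≤ c) : ghLim a Q ≤ c :=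
  le_of_tendsto hex ((eventually_ge_atTop F0).mono fun F hF => h F hF)

theorem brg_k_ge_of_eventually {a : ℝ} {Q : List GhPos → ℝ} (hex : GhLimEx a Q) {c : ℝ} {F0 : Finset GhPos}
    (h : ∀ F, F0 ⊆ F → c ≤ Q (ghPs a F)) : c ≤ ghLim a Q :=
  ge_of_tendsto hex ((eventually_ge_atTop F0).mono fun F hF => h F hF)

/-- TRANSFER PRINCIPLE (PE Prop 2.14, last sentence): a closed condition on finitely many numbers which holds on all fine chains holds for the path numbers -/
theorem brg_k_transfer {a : ℝ} {κ : Type} [Fintype κ] {Q : κ → List GhPos → ℝ} (hex : ∀ k, GhLimEx a (Q k))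
    {C : Set (κ → ℝ)} (hC : IsClosed C) {F0 : Finset GhPos} (h : ∀ F, F0 ⊆ F → (fun k => Q k (ghPs a F)) ∈ C) :
    (fun k => ghLim a (Q k)) ∈ C := by
  have ht : Tendsto (fun F : Finset GhPos => fun k => Q k (ghPs a F)) atTop (𝓝 fun k => ghLim a (Q k)) :=
    tendsto_pi_nhds.2 fun k => hex k
  exact hC.mem_of_tendsto ht ((eventually_ge_atTop F0).mono fun F hF => h F hF)

/-- linear combinations -/
theorem brg_k_limEx_add {a : ℝ} {Q Q' : List GhPos → ℝ} (h : GhLimEx a Q) (h' : GhLimEx a Q') :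
    GhLimEx a (fun ps => Q ps + Q' ps) ∧ ghLim a (fun ps => Q ps + Q' ps) = ghLim a Q + ghLim a Q' := by
  have ht : Tendsto (fun F : Finset GhPos => Q (ghPs a F) + Q' (ghPs a F)) atTop (𝓝 (ghLim a Q + ghLim a Q')) := h.add h'
  exact ⟨brg_k_limEx_of_tendsto ht, brg_k_lim_eq ht⟩

theorem brg_k_limEx_const_mul {a : ℝ} {Q : List GhPos → ℝ} (h : GhLimEx a Q) (c : ℝ) :
    GhLimEx a (fun ps => c * Q ps) ∧ ghLim a (fun ps => c * Q ps) = c * ghLim a Q := by
  have ht : Tendsto (fun F : Finset GhPos => c * Q (ghPs a F)) atTop (𝓝 (c * ghLim a Q)) := h.const_mul c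
  exact ⟨brg_k_limEx_of_tendsto ht, brg_k_lim_eq ht⟩

/-- **derivative of a limit** on a convex subset of `ℝ`, end points included -/
theorem brg_k_hasDerivWithinAt {κ : Type} {l : Filter κ} [l.NeBot] {f g : κ → ℝ → ℝ} {F G : ℝ → ℝ} {s : Set ℝ}
    (hs : Convex ℝ s) (hf : ∀ᶠ k in l, ∀ x ∈ s, HasDerivWithinAt (f k) (g k x) s x)
    (hF : ∀ x ∈ s, Tendsto (fun k => f k x) l (𝓝 (F x)))
    (hG : ∀ ε : ℝ, 0 < ε → ∀ᶠ k in l, ∀ x ∈ s, |g k x - G x| ≤ ε) {x : ℝ} (hx : x ∈ s) :
    HasDerivWithinAt F (G x) s x := by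
  rw [hasDerivWithinAt_iff_isLittleO, Asymptotics.isLittleO_iff]
  intro c hc
  -- choose an index `k`
  have hε : 0 < c / 4 := by positivity
  obtain ⟨k, hk1, hk2⟩ := (hf.and (hG (c / 4) hε)).exists
  -- the difference `F - f k` is `c/2`-Lipschitz on `s`
  have hlip : ∀ y ∈ s, |(F y - f k y) - (F x - f k x)| ≤ c / 2 * |y - x| := by
    intro y hy
    have hev : ∀ᶠ j in l, |(f j y - f k y) - (f j x - f k x)| ≤ c / 2 * |y - x| := by
      filter_upwards [hf, hG (c / 4) hε] with j hj1 hj2
      have hd : ∀ w ∈ s, HasDerivWithinAt (fun w => f j w - f k w) (g j w - g k w) s w :=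
        fun w hw => (hj1 w hw).sub (hk1 w hw)
      have hb : ∀ w ∈ s, ‖g j w - g k w‖ ≤ c / 2 := by
        intro w hw
        rw [Real.norm_eq_abs]
        have e1 := hj2 w hw
        have e2 := hk2 w hw
        have : g j w - g k w = (g j w - G w) - (g k w - G w) := by ring
        rw [this]
        calc |(g j w - G w) - (g k w - G w)| ≤ |g j w - G w| + |g k w - G w| := abs_sub _ _
          _ ≤ c / 4 + c / 4 := add_le_add e1 e2
          _ = c / 2 := by ring
      have := hs.norm_image_sub_le_of_norm_hasDerivWithin_le hd hb hx hy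
      simpa [Real.norm_eq_abs] using this
    have ht : Tendsto (fun j => |(f j y - f k y) - (f j x - f k x)|) l (𝓝 |(F y - f k y) - (F x - f k x)|) :=
      (((hF y hy).sub_const _).sub ((hF x hx).sub_const _)).abs
    exact le_of_tendsto ht hev
  have hdk := hk1 x hx
  rw [hasDerivWithinAt_iff_isLittleO, Asymptotics.isLittleO_iff] at hdk
  filter_upwards [hdk hε, self_mem_nhdsWithin] with y hy hys
  rw [Real.norm_eq_abs, Real.norm_eq_abs] at hy ⊢
  have e1 := hlip y hys
  have e2 := hk2 x hx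
  have e3 : |(y - x) • (g k x - G x)| ≤ c / 4 * |y - x| := by
    rw [smul_eq_mul, abs_mul, mul_comm]
    exact mul_le_mul_of_nonneg_right e2 (abs_nonneg _)
  have key : F y - F x - (y - x) • G x
      = ((F y - f k y) - (F x - f k x)) + (f k y - f k x - (y - x) • g k x) + (y - x) • (g k x - G x) := by
    simp only [smul_eq_mul]; ring
  rw [key]
  calc |((F y - f k y) - (F x - f k x)) + (f k y - f k x - (y - x) • g k x) + (y - x) • (g k x - G x)|
      ≤ |(F y - f k y) - (F x - f k x)| + |f k y - f k x - (y - x) • g k x| + |(y - x) • (g k x - G x)| := abs_add_three _ _ _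
    _ ≤ c / 2 * |y - x| + c / 4 * |y - x| + c / 4 * |y - x| := add_le_add (add_le_add e1 hy) e3
    _ = c * |y - x| := by ring

end Claimed.Agent.R286
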