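import Claimed.Agent.R286.Brg.PrDefs
import Claimed.Agent.R286.Brg.Osc

/-!
# Row 286 (S0533), unit BRIDGE / LAYER C, block C3: LEAVES (real analysis of clocks, combinatorics of chains)      (architect helper132; prover helper10)

No probability.  On `Defs/Clk`, `Brg/Osc` (148), `Brg/PrDefs`.      0 sorry: all the leaves A1-A8, B0-B8 are proved (helper10, 15 Oct); the statements are those of helper132.
-/

set_option autoImplicit false
set_option linter.unusedSectionVars false
set_option linter.unusedVariables false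

namespace Claimed.Agent.R286

open MeasureTheory Filter Topology Set Function

/-! ## A. clocks are an affine space -/

theorem brg_clamp_seg (a : ℝ) (c0 c1 : ℝ → ℝ) (θ : ℝ) :
    (ghClamp a fun u => (1 - θ) * c0 u + θ * c1 u) = fun u => (1 - θ) * ghClamp a c0 u + θ * ghClamp a c1 u := by
  funext u
  unfold ghClamp
  split_ifs <;> ring

/-- A1': the same for the left limit -/
theorem brg_left_seg {a : ℝ} (ha : 0 ≤ a) {c0 c1 : ℝ → ℝ} (h0 : GhClk1 a c0) (h1 : GhClk1 a c1) (θ : ℝ) (u : ℝ) :
    leftLim (ghClamp a fun u => (1 - θ) * c0 u + θ * c1 u) u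
      = (1 - θ) * leftLim (ghClamp a c0) u + θ * leftLim (ghClamp a c1) u := by
  rw [brg_clamp_seg]
  apply leftLim_eq_of_tendsto
  exact (((gh_os_clamp_mono ha h0).tendsto_leftLim u).const_mul _).add
    (((gh_os_clamp_mono ha h1).tendsto_leftLim u).const_mul _)

theorem brg_right_seg {a : ℝ} (ha : 0 ≤ a) {c0 c1 : ℝ → ℝ} (h0 : GhClk1 a c0) (h1 : GhClk1 a c1) (θ : ℝ) (u : ℝ) :
    rightLim (ghClamp a fun u => (1 - θ) * c0 u + θ * c1 u) u
      = (1 - θ) * rightLim (ghClamp a c0) u + θ * rightLim (ghClamp a c1) u := by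
  rw [brg_clamp_seg]
  apply rightLim_eq_of_tendsto
  exact (((gh_os_clamp_mono ha h0).tendsto_rightLim u).const_mul _).add
    (((gh_os_clamp_mono ha h1).tendsto_rightLim u).const_mul _)

/-- A1: the value at a position is affine in the clock (all real `θ`; left / right limits of monotone functions exist) -/
theorem brg_at_seg {a : ℝ} (ha : 0 ≤ a) {c0 c1 : ℝ → ℝ} (h0 : GhClk1 a c0) (h1 : GhClk1 a c1) (θ : ℝ) (p : GhPos) :
    ghAt a (fun u => (1 - θ) * c0 u + θ * c1 u) p = (1 - θ) * ghAt a c0 p + θ * ghAt a c1 p := by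
  unfold ghAt
  rw [brg_left_seg ha h0 h1, brg_right_seg ha h0 h1]
  ring

/-- A2: a segment of admissible clocks is admissible -/
theorem brg_seg_clk1 {a : ℝ} {c0 c1 : ℝ → ℝ} (h0 : GhClk1 a c0) (h1 : GhClk1 a c1) {θ : ℝ} (hθ : θ ∈ Icc (0 : ℝ) 1) :
    GhClk1 a fun u => (1 - θ) * c0 u + θ * c1 u := by
  have hθ1 : 0 ≤ 1 - θ := by linarith [hθ.2]
  refine ⟨fun x hx y hy hxy => ?_, ?_⟩
  · have e0 := h0.1 hx hy hxy
    have e1 := h1.1 hx hy hxy
    have := mul_le_mul_of_nonneg_left e0 hθ1
    have := mul_le_mul_of_nonneg_left e1 hθ.1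
    simp only
    linarith
  · have := mul_nonneg hθ1 h0.2
    have := mul_nonneg hθ.1 h1.2
    simp only
    linarith

/-- A3: the oscillation is convex in the clock -/
theorem brg_osc_seg {a : ℝ} (ha : 0 ≤ a) {c0 c1 : ℝ → ℝ} (h0 : GhClk1 a c0) (h1 : GhClk1 a c1) {θ : ℝ}
    (hθ : θ ∈ Icc (0 : ℝ) 1) (ps : List GhPos) (x0 x1 : ℝ) :
    ghOsc a (fun u => (1 - θ) * c0 u + θ * c1 u) ((1 - θ) * x0 + θ * x1) ps
      ≤ (1 - θ) * ghOsc a c0 x0 ps + θ * ghOsc a c1 x1 ps := by
  have hθ1 : 0 ≤ 1 - θ := by linarith [hθ.2]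
  induction ps generalizing x0 x1 with
  | nil =>
    simp only [ghOsc]
    rw [brg_at_seg ha h0 h1]
    apply le_of_eq; ring
  | cons p ps ih =>
    simp only [ghOsc]
    rw [brg_at_seg ha h0 h1, brg_left_seg ha h0 h1]
    refine max_le ?_ ?_
    · have e0 := mul_le_mul_of_nonneg_left (le_max_left (leftLim (ghClamp a c0) p.u - x0) (ghOsc a c0 (ghAt a c0 p) ps)) hθ1
      have e1 := mul_le_mul_of_nonneg_left (le_max_left (leftLim (ghClamp a c1) p.u - x1) (ghOsc a c1 (ghAt a c1 p) ps)) hθ.1
      linarith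
    · have e0 := mul_le_mul_of_nonneg_left (le_max_right (leftLim (ghClamp a c0) p.u - x0) (ghOsc a c0 (ghAt a c0 p) ps)) hθ1
      have e1 := mul_le_mul_of_nonneg_left (le_max_right (leftLim (ghClamp a c1) p.u - x1) (ghOsc a c1 (ghAt a c1 p) ps)) hθ.1
      have := ih (ghAt a c0 p) (ghAt a c1 p)
      linarith

section fam
variable {S ι : Type} [Fintype ι]

theorem brg_seg_clk {a : ℝ} {v0 v1 : ι → ℝ → ℝ} (h0 : GhClk a v0) (h1 : GhClk a v1) {θ : ℝ} (hθ : θ ∈ Icc (0 : ℝ) 1) :
    GhClk a (brgSeg θ v0 v1) := fun i => brg_seg_clk1 (h0 i) (h1 i) hθ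

/-- A4: a chain which is fine for both ends is fine for the whole segment -/
theorem brg_fine_seg {a : ℝ} (ha : 0 ≤ a) (Φ : S → ι → ℝ) {v0 v1 : ι → ℝ → ℝ} (h0 : GhClk a v0) (h1 : GhClk a v1)
    {ps : List GhPos} {M : ℝ} (hM0 : BrgFine a Φ v0 ps M) (hM1 : BrgFine a Φ v1 ps M) {θ : ℝ} (hθ : θ ∈ Icc (0 : ℝ) 1) :
    BrgFine a Φ (brgSeg θ v0 v1) ps M := by
  have hθ1 : 0 ≤ 1 - θ := by linarith [hθ.2]
  intro s
  have key : ∑ i, ghOsc a (brgSeg θ v0 v1 i) 0 ps * Φ s i ^ 2
      ≤ (1 - θ) * ∑ i, ghOsc a (v0 i) 0 ps * Φ s i ^ 2 + θ * ∑ i, ghOsc a (v1 i) 0 ps * Φ s i ^ 2 := by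
    rw [Finset.mul_sum, Finset.mul_sum, ← Finset.sum_add_distrib]
    refine Finset.sum_le_sum fun i _ => ?_
    have e := brg_osc_seg ha (h0 i) (h1 i) hθ ps 0 0
    simp only [mul_zero, add_zero] at e
    have e2 := mul_le_mul_of_nonneg_right e (sq_nonneg (Φ s i))
    have : brgSeg θ v0 v1 i = fun u => (1 - θ) * v0 i u + θ * v1 i u := rfl
    rw [this]
    linarith
  have e0 := mul_le_mul_of_nonneg_left (hM0 s) hθ1
  have e1 := mul_le_mul_of_nonneg_left (hM1 s) hθ.1
  linarith

/-- A5: all the chains beyond some `F0` are `ε`-fine (from `gh_os_eventually`) -/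
theorem brg_fine_eventually [Finite S] {a : ℝ} (ha : 0 ≤ a) (Φ : S → ι → ℝ) {v : ι → ℝ → ℝ} (hv : GhClk a v) {ε : ℝ} (hε : 0 < ε) :
    ∃ F0 : Finset GhPos, ∀ F, F0 ⊆ F → BrgFine a Φ v (ghPs a F) ε := by
  classical
  have := Fintype.ofFinite S
  set K : ℝ := 1 + ∑ s : S, ∑ i, Φ s i ^ 2 with hK
  have hK0 : 0 < K := by
    have : 0 ≤ ∑ s : S, ∑ i, Φ s i ^ 2 := Finset.sum_nonneg fun s _ => Finset.sum_nonneg fun i _ => sq_nonneg _
    linarith
  have hε' : 0 < ε / K := div_pos hε hK0
  choose F0 hF0 using fun i => gh_os_eventually ha (hv i) hε'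
  refine ⟨Finset.univ.biUnion F0, fun F hF s => ?_⟩
  have h1 : ∀ i, ghOsc a (v i) 0 (ghPs a F) ≤ ε / K := fun i =>
    hF0 i F ((Finset.subset_biUnion_of_mem F0 (Finset.mem_univ i)).trans hF)
  calc ∑ i, ghOsc a (v i) 0 (ghPs a F) * Φ s i ^ 2 ≤ ∑ i, ε / K * Φ s i ^ 2 :=
        Finset.sum_le_sum fun i _ => mul_le_mul_of_nonneg_right (h1 i) (sq_nonneg _)
    _ = ε / K * ∑ i, Φ s i ^ 2 := by rw [Finset.mul_sum]
    _ ≤ ε / K * K := by
        refine mul_le_mul_of_nonneg_left ?_ hε'.le
        have : ∑ i, Φ s i ^ 2 ≤ ∑ s : S, ∑ i, Φ s i ^ 2 :=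
          Finset.single_le_sum (f := fun s : S => ∑ i, Φ s i ^ 2)
            (fun s _ => Finset.sum_nonneg fun i _ => sq_nonneg _) (Finset.mem_univ s)
        linarith
    _ = ε := by field_simp

end fam

/-- `ghIdx` in plain form (the definition filters the list of the coerced positions) -/
theorem brg_idx_plain (ps : List GhPos) (p : WithTop GhPos) :
    ghIdx ps p = (ps.filter fun x : GhPos => decide ((x : WithTop GhPos) ≤ p)).length + if p = ⊤ then 1 else 0 := by
  unfold ghIdx
  congr 1
  induction ps with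
  | nil => rfl
  | cons x ps ih =>
    simp only [List.filter_cons] at ih ⊢
    simp only [List.bind_eq_flatMap, List.flatMap_cons, List.pure_def, List.singleton_append, List.filter_cons] at ih ⊢
    split_ifs <;> simp [ih]

theorem brg_idx_coe (ps : List GhPos) (p : GhPos) :
    ghIdx ps (p : WithTop GhPos) = (ps.filter fun x : GhPos => decide (x ≤ p)).length := by
  rw [brg_idx_plain]
  simp

theorem brg_last_cons (f : GhPos → ℝ) (c0 : ℝ) (p : GhPos) (l : List GhPos) :
    (((p :: l).getLast?).map f).getD c0 = ((l.getLast?).map f).getD (f p) := by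
  cases l with
  | nil => simp
  | cons q l =>
    rw [List.getLast?_cons_cons]
    rcases h : (q :: l).getLast? with _ | r
    · simp at h
    · simp

theorem brg_held_aux {a : ℝ} (ha : 0 ≤ a) {c : ℝ → ℝ} (hc : GhClk1 a c) {u : ℝ} (hu : u ∈ Icc 0 a) :
    ∀ (ps : List GhPos) (c0 : ℝ), ps.Pairwise (· < ·) → (∀ p ∈ ps, p.Ok a) → (∀ p ∈ ps, p.u ≠ u) →
      c0 ≤ rightLim (ghClamp a c) u →
      (((ps.take (ps.filter fun x : GhPos => decide (x ≤ ghPosA u)).length).getLast?.map (ghAt a c)).getD c0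
          ≤ rightLim (ghClamp a c) u) ∧
      rightLim (ghClamp a c) u
          - (((ps.take (ps.filter fun x : GhPos => decide (x ≤ ghPosA u)).length).getLast?.map (ghAt a c)).getD c0)
        ≤ ghOsc a c c0 ps
  | [], c0, _, _, _, h0 => by
      refine ⟨by simpa using h0, ?_⟩
      simp only [List.filter_nil, List.length_nil, List.take_nil, List.getLast?_nil, Option.map_none, Option.getD_none, ghOsc]
      rw [gh_os_at_posA]
      have := (gh_os_clamp_mono ha hc).rightLim hu.2
      linarith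
  | p :: ps, c0, hs, hok, hne, h0 => by
      have hpok := hok p List.mem_cons_self
      rw [List.pairwise_cons] at hs
      have hm := gh_os_clamp_mono ha hc
      by_cases hp : p ≤ ghPosA u
      · have hpu : p.u < u := by
          rcases (gh_os_pos_le_iff _ _).1 hp with h | h
          · simpa [ghPosA, GhPos.u] using h
          · exact absurd (by simpa [ghPosA, GhPos.u] using h.1) (hne p List.mem_cons_self)
        have hat : ghAt a c p ≤ rightLim (ghClamp a c) u :=
          (gh_os_at_le_right ha hc hpok.2.2.2).trans (hm.rightLim hpu.le)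
        have ih := brg_held_aux ha hc hu ps (ghAt a c p) hs.2 (fun q hq => hok q (List.mem_cons_of_mem _ hq))
          (fun q hq => hne q (List.mem_cons_of_mem _ hq)) hat
        rw [List.filter_cons_of_pos (by simpa using hp), List.length_cons, List.take_succ_cons, brg_last_cons, ghOsc]
        exact ⟨ih.1, ih.2.trans (le_max_right _ _)⟩
      · have hall : (ps.filter fun x : GhPos => decide (x ≤ ghPosA u)) = [] := by
          rw [List.filter_eq_nil_iff]
          intro q hq
          simp only [decide_eq_true_eq]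
          exact fun h => hp ((hs.1 q hq).le.trans h)
        have hpu : u < p.u := by
          rcases lt_trichotomy p.u u with h | h | h
          · exact absurd ((gh_os_pos_le_iff _ _).2 (Or.inl (by simpa [ghPosA, GhPos.u] using h))) hp
          · exact absurd h (hne p List.mem_cons_self)
          · exact h
        rw [List.filter_cons_of_neg (by simpa using hp), hall]
        simp only [List.length_nil, List.take_zero, List.getLast?_nil, Option.map_none, Option.getD_none, ghOsc]
        refine ⟨h0, le_max_of_le_left ?_⟩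
        have := hm.rightLim_le_leftLim hpu
        linarith

theorem brg_top_aux {a : ℝ} (ha : 0 ≤ a) {c : ℝ → ℝ} (hc : GhClk1 a c) :
    ∀ (ps : List GhPos) (c0 : ℝ), (∀ p ∈ ps, p.Ok a) → c0 ≤ ghAt a c (ghPosA a) →
      ((ps.getLast?.map (ghAt a c)).getD c0 ≤ ghAt a c (ghPosA a)) ∧
      ghAt a c (ghPosA a) - ((ps.getLast?.map (ghAt a c)).getD c0) ≤ ghOsc a c c0 ps
  | [], c0, _, h0 => by
      simp only [List.getLast?_nil, Option.map_none, Option.getD_none, ghOsc]
      exact ⟨h0, le_rfl⟩
  | p :: ps, c0, hok, _ => by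
      have ih := brg_top_aux ha hc ps (ghAt a c p) (fun q hq => hok q (List.mem_cons_of_mem _ hq))
        (gh_os_at_le_top ha hc (hok p List.mem_cons_self))
      rw [brg_last_cons, ghOsc]
      exact ⟨ih.1, ih.2.trans (le_max_right _ _)⟩

section fam
variable {S ι : Type} [Fintype ι]

/-- A6: HELD VALUES.  If `u` is not a mass of the chain, what the chain has revealed up to `(u,1)` differs from the clock at `(u,1)` by at most the oscillation -/
theorem brg_held {a : ℝ} (ha : 0 ≤ a) {v : ι → ℝ → ℝ} (hv : GhClk a v) (F : Finset GhPos) {u : ℝ} (hu : u ∈ Icc 0 a)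
    (hne : ∀ p ∈ F, p.u ≠ u) (i : ι) :
    0 ≤ ghAt a (v i) (ghPosA u) - brgCum a v (ghPs a F) (ghIdx (ghPs a F) ((ghPosA u : GhPos) : WithTop GhPos)) i ∧
      ghAt a (v i) (ghPosA u) - brgCum a v (ghPs a F) (ghIdx (ghPs a F) ((ghPosA u : GhPos) : WithTop GhPos)) i
        ≤ ghOsc a (v i) 0 (ghPs a F) := by
  have h := brg_held_aux ha (hv i) hu (ghPs a F) 0 (gh_os_ps_lt a F) (fun p hp => (gh_os_ps_mem.1 hp).2)
    (fun p hp => hne p (gh_os_ps_mem.1 hp).1)
    ((gh_os_clamp_nonneg ha (hv i) u).trans ((gh_os_clamp_mono ha (hv i)).le_rightLim le_rfl))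
  rw [gh_os_at_posA, brg_idx_coe]
  unfold brgCum
  exact ⟨sub_nonneg.2 h.1, h.2⟩

/-- A6': the same at the end of the chain -/
theorem brg_held_top {a : ℝ} (ha : 0 ≤ a) {v : ι → ℝ → ℝ} (hv : GhClk a v) (F : Finset GhPos) (i : ι) :
    0 ≤ ghAt a (v i) (ghPosA a) - brgCum a v (ghPs a F) (ghPs a F).length i ∧
      ghAt a (v i) (ghPosA a) - brgCum a v (ghPs a F) (ghPs a F).length i ≤ ghOsc a (v i) 0 (ghPs a F) := by
  have h := brg_top_aux ha (hv i) (ghPs a F) 0 (fun p hp => (gh_os_ps_mem.1 hp).2)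
    (gh_os_at_nonneg ha (hv i) (by simp [ghPosA, GhPos.lam]))
  unfold brgCum
  rw [List.take_length]
  exact ⟨sub_nonneg.2 h.1, h.2⟩

/-- A6'': what a chain has revealed is between `0` and the total clock -/
theorem brg_cum_bd {a : ℝ} (ha : 0 ≤ a) {v : ι → ℝ → ℝ} (hv : GhClk a v) (F : Finset GhPos) (j : ℕ) (i : ι) :
    0 ≤ brgCum a v (ghPs a F) j i ∧ brgCum a v (ghPs a F) j i ≤ v i a := by
  have hva : 0 ≤ v i a := (hv i).2.trans ((hv i).1 ⟨le_rfl, ha⟩ ⟨ha, le_rfl⟩ ha)
  unfold brgCum
  rcases hl : ((ghPs a F).take j).getLast? with _ | p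
  · simpa using hva
  · have hp : p ∈ ghPs a F := List.mem_of_mem_take (List.mem_of_getLast? hl)
    have hok := (gh_os_ps_mem.1 hp).2
    simp only [Option.map_some, Option.getD_some]
    exact ⟨gh_os_at_nonneg ha (hv i) hok.2.2.1, (gh_os_at_le_top ha (hv i) hok).trans (gh_os_at_top a (v i) ha).le⟩

end fam

/-- A7: off a null set the value after the jump is the value of the clock -/
theorem brg_at_ae {a : ℝ} (ha : 0 ≤ a) {c : ℝ → ℝ} (hc : GhClk1 a c) :
    ∀ᵐ u ∂(volume : Measure ℝ), u ∈ Ioo 0 a → ghAt a c (ghPosA u) = c u := by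
  have hm := gh_os_clamp_mono ha hc
  have hcount := hm.countable_not_continuousAt
  have hnull : volume {x | ¬ ContinuousAt (ghClamp a c) x} = 0 := hcount.measure_zero _
  filter_upwards [compl_mem_ae_iff.2 hnull] with u hu hua
  have hcont : ContinuousAt (ghClamp a c) u := by
    by_contra h
    exact hu h
  rw [gh_os_at_posA, rightLim_eq_of_tendsto (hcont.tendsto.mono_left nhdsWithin_le_nhds)]
  unfold ghClamp
  rw [if_neg (by linarith [hua.1]), min_eq_left hua.2.le]

/-- A8: `u ↦` value after the jump is monotone, hence measurable and interval integrable -/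
theorem brg_at_posA_mono {a : ℝ} (ha : 0 ≤ a) {c : ℝ → ℝ} (hc : GhClk1 a c) : Monotone fun u => ghAt a c (ghPosA u) := by
  intro x y hxy
  simp only [gh_os_at_posA]
  exact (gh_os_clamp_mono ha hc).rightLim hxy

/-! ## B. chains -/

/-- B0: all the positions and the terminal draw -/
theorem brg_idx_top (ps : List GhPos) : ghIdx ps ⊤ = ps.length + 1 := by
  rw [brg_idx_plain]
  simp

theorem brg_idx_le (ps : List GhPos) (p : GhPos) : ghIdx ps (p : WithTop GhPos) ≤ ps.length := by
  rw [brg_idx_coe]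
  exact List.length_filter_le _ ps

/-- B1: the discrete table of two labels which split at `p` -/
theorem brg_disc_r2 (ps : List GhPos) (p : GhPos) : ghDisc ps (ghR2 p) = brgT2 ps.length (ghIdx ps (p : WithTop GhPos)) := by
  funext x y
  unfold ghDisc ghR2 brgT2
  split_ifs
  · exact brg_idx_top ps
  · rfl

/-- B2 -/
theorem brg_chain_length {S ι : Type} (Φ : S → ι → ℝ) (a : ℝ) (v : ι → ℝ → ℝ) (c : ι → ℝ) (ps : List GhPos) :
    (ghChain Φ a v c ps).length = ps.length := by
  induction ps generalizing c with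
  | nil => rfl
  | cons p ps ih => simp [ghChain, ih]

/-- B3: a two-label number of a chain, fork at a position -/
theorem brg_nuF_r2 {S ι : Type} [Fintype S] [Fintype ι] (B : GhB S) (Φ : S → ι → ℝ) (v : ι → ℝ → ℝ) (z : S → ℝ) (p : GhPos)
    (P : (Fin 2 → S) → ℝ) (ps : List GhPos) :
    ghCNuF B Φ v z 2 (ghR2 p) P ps = brgNu2 B (ghChain Φ B.a v 0 ps) z (ghIdx ps (p : WithTop GhPos)) P := by
  unfold ghCNuF brgNu2
  rw [brg_disc_r2, brg_chain_length]

/-- B4: number of revelations up to `(u,1)` = number of positions of mass `≤ u` -/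
theorem brg_idx_posA {a : ℝ} (F : Finset GhPos) (u : ℝ) :
    ghIdx (ghPs a F) ((ghPosA u : GhPos) : WithTop GhPos) = ((ghPs a F).filter fun p => decide (p.u ≤ u)).length := by
  rw [brg_idx_coe]
  congr 1
  apply List.filter_congr
  intro p hp
  have hok := (gh_os_ps_mem.1 hp).2
  have : p ≤ ghPosA u ↔ p.u ≤ u := by
    rw [gh_os_pos_le_iff]
    have e1 : (ghPosA u).u = u := rfl
    have e2 : (ghPosA u).lam = 1 := rfl
    rw [e1, e2]
    constructor
    · rintro (h | h)
      · exact h.le
      · exact h.1.le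
    · intro h
      rcases h.lt_or_eq with h | h
      · exact Or.inl h
      · exact Or.inr ⟨h, hok.2.2.2⟩
  simp [this]

/-- B7: a fork at `(u,1)`, `u` not a mass of `F`, is compatible with `F` -/
theorem brg_fk_r2 {a : ℝ} (F : Finset GhPos) {u : ℝ} (hne : ∀ p ∈ F, p.u ≠ u) : BrgFk a 2 (ghR2 (ghPosA u)) F := by
  intro x y _ _ f hf
  right
  intro p hp _ hlt
  unfold ghR2 at hf
  split_ifs at hf with hxy
  · exact absurd hf WithTop.top_ne_coe
  · have hf' : ghPosA u = f := WithTop.coe_injective hf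
    subst hf'
    rcases (gh_os_pos_lt_iff _ _).1 hlt with h | h
    · exact h
    · exact absurd h.1.symm (hne p hp)

theorem brg_fk_one (a : ℝ) (F : Finset GhPos) : BrgFk a 1 (fun _ _ => ⊤) F := by
  intro x y _ _ f hf
  exact absurd hf WithTop.top_ne_coe

/-- B8: the two trees of the block are real trees -/
theorem brg_rt_r2 {a : ℝ} {p : GhPos} (hp : p.Ok a) : GhIsRT a 2 (ghR2 p) := by
  refine ⟨fun x _ => by simp [ghR2], fun x y _ _ => ?_, fun x y z hx hy hz => ?_, fun x y _ _ q hq => ?_⟩
  · unfold ghR2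
    by_cases h : x = y
    · rw [if_pos h, if_pos h.symm]
    · rw [if_neg h, if_neg (Ne.symm h)]
  · unfold ghR2
    by_cases hxz : x = z
    · rw [if_pos hxz]; exact le_top
    · rw [if_neg hxz]
      by_cases hxy : x = y
      · have hyz : y ≠ z := fun h => hxz (hxy.trans h)
        rw [if_neg hyz]; exact min_le_right _ _
      · rw [if_neg hxy]; exact min_le_left _ _
  · unfold ghR2 at hq
    split_ifs at hq
    · exact absurd hq WithTop.top_ne_coe
    · have : p = q := WithTop.coe_injective hq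
      exact this ▸ hp

theorem brg_rt_one (a : ℝ) : GhIsRT a 1 (fun _ _ => ⊤) :=
  ⟨fun _ _ => rfl, fun _ _ _ _ => rfl, fun _ _ _ _ _ _ => le_top, fun _ _ _ _ _ h => absurd h WithTop.top_ne_coe⟩

theorem brg_cnt_mono (ps : List GhPos) : Monotone fun u : ℝ => (ps.filter fun p : GhPos => decide (p.u ≤ u)).length := by
  intro x y hxy
  apply List.Sublist.length_le
  apply List.monotone_filter_right
  intro p hp
  simp only [decide_eq_true_eq] at hp ⊢
  exact hp.trans hxy

theorem brg_cnt_intble (ps : List GhPos) (g : ℕ → ℝ) (k : ℕ) (l r : ℝ) :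
    IntervalIntegrable (fun u : ℝ => g (k + (ps.filter fun p : GhPos => decide (p.u ≤ u)).length)) volume l r := by
  have hmeas : Measurable fun u : ℝ => g (k + (ps.filter fun p : GhPos => decide (p.u ≤ u)).length) :=
    (measurable_from_top (f := fun j : ℕ => g (k + j))).comp (brg_cnt_mono ps).measurable
  rw [intervalIntegrable_iff]
  refine Measure.integrableOn_of_bounded (M := ∑ j ∈ Finset.range (ps.length + 1), |g (k + j)|) ?_
    hmeas.aestronglyMeasurable ?_
  · exact (measure_mono uIoc_subset_uIcc).trans_lt isCompact_uIcc.measure_lt_top |>.ne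
  · refine Eventually.of_forall fun u => ?_
    rw [Real.norm_eq_abs]
    have hle : (ps.filter fun p : GhPos => decide (p.u ≤ u)).length ∈ Finset.range (ps.length + 1) :=
      Finset.mem_range.2 (Nat.lt_succ_of_le (List.length_filter_le _ _))
    exact Finset.single_le_sum (f := fun j => |g (k + j)|) (fun j _ => abs_nonneg _) hle

theorem brg_ms_cons_succ (a : ℝ) (p : GhPos) (ps : List GhPos) (j : ℕ) : brgMs a (p :: ps) (j + 1) = brgMs a ps j := by
  simp [brgMs]

theorem brg_ms_cons_zero (a : ℝ) (p : GhPos) (ps : List GhPos) : brgMs a (p :: ps) 0 = p.u := by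
  simp [brgMs]

theorem brg_sum_gap_aux {a : ℝ} (g : ℕ → ℝ) :
    ∀ (ps : List GhPos) (l : ℝ) (k : ℕ), ps.Pairwise (fun p q : GhPos => p.u ≤ q.u) → (∀ p ∈ ps, l ≤ p.u ∧ p.u ≤ a) →
      ∑ j ∈ Finset.range (ps.length + 1), (brgMs a ps j - if j = 0 then l else brgMs a ps (j - 1)) * g (k + j)
        = ∫ u in l..a, g (k + (ps.filter fun p : GhPos => decide (p.u ≤ u)).length)
  | [], l, k, _, _ => by
      simp [brgMs]
  | p :: ps, l, k, hs, hb => by
      rw [List.pairwise_cons] at hs
      have hp := hb p List.mem_cons_self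
      have ih := brg_sum_gap_aux g ps p.u (k + 1) hs.2
        (fun q hq => ⟨hs.1 q hq, (hb q (List.mem_cons_of_mem _ hq)).2⟩)
      rw [List.length_cons, Finset.sum_range_succ']
      have e1 : ∑ j ∈ Finset.range (ps.length + 1),
          (brgMs a (p :: ps) (j + 1) - if j + 1 = 0 then l else brgMs a (p :: ps) (j + 1 - 1)) * g (k + (j + 1))
          = ∑ j ∈ Finset.range (ps.length + 1), (brgMs a ps j - if j = 0 then p.u else brgMs a ps (j - 1)) * g (k + 1 + j) := by
        refine Finset.sum_congr rfl fun j _ => ?_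
        rw [brg_ms_cons_succ, if_neg (Nat.succ_ne_zero j), Nat.add_sub_cancel]
        have e2 : brgMs a (p :: ps) j = if j = 0 then p.u else brgMs a ps (j - 1) := by
          cases j with
          | zero => simp [brg_ms_cons_zero]
          | succ j => simp [brg_ms_cons_succ]
        rw [e2]
        congr 2
        omega
      rw [e1, ih, brg_ms_cons_zero, if_pos rfl, add_zero]
      rw [← intervalIntegral.integral_add_adjacent_intervals (brg_cnt_intble (p :: ps) g k l p.u)
        (brg_cnt_intble (p :: ps) g k p.u a)]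
      have i1 : ∫ u in l..p.u, g (k + ((p :: ps).filter fun p : GhPos => decide (p.u ≤ u)).length) = (p.u - l) * g k := by
        have : ∫ u in l..p.u, g (k + ((p :: ps).filter fun p : GhPos => decide (p.u ≤ u)).length) = ∫ _u in l..p.u, g k := by
          apply intervalIntegral.integral_congr_ae
          filter_upwards [compl_mem_ae_iff.2 (measure_singleton (μ := (volume : Measure ℝ)) p.u)] with u hu hmem
          rw [uIoc_of_le hp.1] at hmem
          have hlt : u < p.u := lt_of_le_of_ne hmem.2 hu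
          have : ((p :: ps).filter fun p : GhPos => decide (p.u ≤ u)) = [] := by
            rw [List.filter_eq_nil_iff]
            intro q hq
            simp only [decide_eq_true_eq, not_le]
            rcases List.mem_cons.1 hq with h | h
            · rw [h]; exact hlt
            · exact lt_of_lt_of_le hlt (hs.1 q h)
          rw [this]; simp
        rw [this]; simp
      have i2 : ∫ u in p.u..a, g (k + ((p :: ps).filter fun p : GhPos => decide (p.u ≤ u)).length)
          = ∫ u in p.u..a, g (k + 1 + (ps.filter fun p : GhPos => decide (p.u ≤ u)).length) := by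
        apply intervalIntegral.integral_congr
        intro u hu
        rw [uIcc_of_le hp.2] at hu
        simp only
        rw [List.filter_cons_of_pos (by simpa using hu.1), List.length_cons]
        congr 1
        omega
      rw [i1, i2]
      ring

theorem brg_ps_mass_sorted (a : ℝ) (F : Finset GhPos) : (ghPs a F).Pairwise (fun p q : GhPos => p.u ≤ q.u) := by
  refine (gh_os_ps_pairwise a F).imp fun {p q} h => ?_
  rcases (gh_os_pos_le_iff p q).1 h with h | h
  · exact h.le
  · exact h.1.le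

/-- B5: SUMS OVER THE CUTS = INTEGRALS IN THE MASS of step functions -/
theorem brg_sum_gap {a : ℝ} (ha : 0 ≤ a) (F : Finset GhPos) (g : ℕ → ℝ) :
    ∑ j ∈ Finset.range ((ghPs a F).length + 1), brgGap a (ghPs a F) j * g j
      = ∫ u in (0 : ℝ)..a, g (ghIdx (ghPs a F) ((ghPosA u : GhPos) : WithTop GhPos)) := by
  have h := brg_sum_gap_aux (a := a) g (ghPs a F) 0 0 (brg_ps_mass_sorted a F)
    (fun p hp => ⟨(gh_os_ps_mem.1 hp).2.1, (gh_os_ps_mem.1 hp).2.2.1⟩)
  simp only [zero_add] at h
  simp only [brg_idx_posA]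
  rw [← h]
  rfl

/-- B5': the step function is interval integrable -/
theorem brg_step_intble {a : ℝ} (F : Finset GhPos) (g : ℕ → ℝ) :
    IntervalIntegrable (fun u => g (ghIdx (ghPs a F) ((ghPosA u : GhPos) : WithTop GhPos))) volume 0 a := by
  have h := brg_cnt_intble (ghPs a F) g 0 0 a
  simp only [zero_add] at h
  simp only [brg_idx_posA]
  exact h

/-- B6: the gaps are nonnegative and add up to `a` -/
theorem brg_gap_nonneg {a : ℝ} (ha : 0 ≤ a) (F : Finset GhPos) (j : ℕ) (hj : j ≤ (ghPs a F).length) : 0 ≤ brgGap a (ghPs a F) j := by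
  have hok : ∀ p ∈ ghPs a F, p.Ok a := fun p hp => (gh_os_ps_mem.1 hp).2
  have hms : ∀ i, (h : i < (ghPs a F).length) → brgMs a (ghPs a F) i = ((ghPs a F)[i]'h).u := by
    intro i h
    simp [brgMs, List.getElem?_eq_getElem h]
  have hms' : ∀ i, (ghPs a F).length ≤ i → brgMs a (ghPs a F) i = a := by
    intro i h
    simp [brgMs, List.getElem?_eq_none h]
  unfold brgGap
  by_cases h0 : j = 0
  · rw [if_pos h0, sub_zero]
    by_cases hl : j < (ghPs a F).length
    · rw [hms j hl]; exact (hok _ (List.getElem_mem hl)).1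
    · rw [hms' j (not_lt.1 hl)]; exact ha
  · rw [if_neg h0]
    have hj1 : j - 1 < (ghPs a F).length := by omega
    rw [hms (j - 1) hj1]
    by_cases hl : j < (ghPs a F).length
    · rw [hms j hl, sub_nonneg]
      exact (List.pairwise_iff_getElem.1 (brg_ps_mass_sorted a F)) (j - 1) j hj1 hl (by omega)
    · rw [hms' j (not_lt.1 hl), sub_nonneg]
      exact (hok _ (List.getElem_mem hj1)).2.1

end Claimed.Agent.R286
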