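import Claimed.Agent.R286.Brg.PrAsk
import Claimed.Agent.R286.Brg.PrLeaf
import Claimed.Agent.R286.Brg.PrKit
import Claimed.Agent.R286.Brg.Path

/-!
# Row 286 (S0533), unit BRIDGE / LAYER C, block C3: THE PRESSURE OF A PATH ALONG A SEGMENT OF CLOCKS, generic form      (owner + prover helper132)

0 SORRY.   Provers: top half 10; `brg_nu2_intble(_const)`, `brg_point_close`, `brg_top_close`, `brg_DF_close` 132; `brg_press_deriv`, `brg_DPr_lip/cont` 299.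

EXITS (TEX[PE:prop:found-limits] Prop 2.14, TEX[PE:lem:found-pressure] Lemma 2.2 line 1 of (1) for bounded monotone clocks; LL (A1)):
* `brg_nu_limEx`, `brg_nu_close`, `brg_F_limEx`, `brg_F_close`      existence of the path numbers + rate (C1 of 262), forks need NOT belong to the chain (`BrgFk`)
* `brg_nu_abs_le`, `brg_nu_sub_le`, `brg_nu_lip`                    path numbers: bounded by the sup of the test, linear, Lipschitz in the clocks (sup distance of the cumulative kernels)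
* `brg_nu2_intble`                                                  `u ↦ ν_{fork (u,1)}[ker(Δ(u,1))]` is interval integrable
* `brg_DF_close`                                                    the finite derivative is uniformly close to the path derivative
* **`brg_press_deriv`**                                             `HasDerivWithinAt (θ ↦ ghCPress B Φ (brgSeg θ v0 v1) z) (brgDPr B Φ v0 v1 z θ) [0,1] θ`
* `brg_DPr_lip`, `brg_DPr_cont`                                     the derivative is Lipschitz in `θ`: the pressure is `C¹` along segments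
PLAN of `brg_press_deriv`: `brg_k_hasDerivWithinAt` (derivative of a limit along the net) with `brg_fin_deriv` (chains), `brg_F_limEx` (pointwise), `brg_DF_close` + `brg_fine_eventually` (uniform).
PLAN of `brg_DF_close`: `brg_sum_gap` turns the sum over the cuts into `∫ du` of `ghCNuF .. (ghR2 (u,1)) ..` (rounding down of the fork = the cut which contains `u`);
for `u` off the masses of `F`: `brg_nu_close` (`brg_fk_r2`) + `brg_held` (tests differ by `≤ 2M`).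
-/

set_option autoImplicit false
set_option linter.unusedSectionVars false

namespace Claimed.Agent.R286

open MeasureTheory Filter Topology Set

variable {S ι : Type} [Fintype S] [Fintype ι]

/-! ### (L) existence and rate -/

/-- a finite set which contains the forks is compatible with them -/
theorem brg_fk_of_forks {a : ℝ} {q : ℕ} {τ : ℕ → ℕ → WithTop GhPos} {F : Finset GhPos} (h : ghForks q τ ⊆ F) :
    BrgFk a q τ F := by
  intro x y hx hy f hf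
  left
  apply h
  unfold ghForks
  rw [Finset.mem_image]
  exact ⟨(x, y), Finset.mem_product.2 ⟨Finset.mem_range.2 hx, Finset.mem_range.2 hy⟩, by simp [hf]⟩

theorem brg_ps_chOk (a : ℝ) (F : Finset GhPos) : GhChOk a (ghPs a F) :=
  ⟨gh_os_ps_lt a F, fun _ hp => (gh_os_ps_mem.1 hp).2⟩

theorem brg_chain_nn (B : GhB S) (Φ : S → ι → ℝ) (v : ι → ℝ → ℝ) (F : Finset GhPos) :
    GhNn (ghChain Φ B.a v 0 (ghPs B.a F)) :=
  (gh_tk_chain_adm B Φ v (brg_ps_chOk B.a F) 0).ghNn le_rfl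

theorem brg_nu_limEx {B : GhB S} (hB : B.Ok) (Φ : S → ι → ℝ) {v : ι → ℝ → ℝ} (hv : GhClk B.a v) (z : S → ℝ) {q : ℕ}
    {τ : ℕ → ℕ → WithTop GhPos} (hτ : GhIsRT B.a q τ) (P : (Fin q → S) → ℝ) : GhLimEx B.a (ghCNuF B Φ v z q τ P) := by
  classical
  apply brg_k_limEx_of_cauchy
  intro ε hε
  set K : ℝ := ∑ σ, |P σ| with hKdef
  have hK : ∀ σ, |P σ| ≤ K := fun σ =>
    Finset.single_le_sum (f := fun σ => |P σ|) (fun _ _ => abs_nonneg _) (Finset.mem_univ σ)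
  have hK0 : 0 ≤ K := Finset.sum_nonneg fun _ _ => abs_nonneg _
  set c : ℝ := 2 * B.a ^ 2 * q * (q + 1) * K + 1 with hc
  have hc0 : 0 < c := by positivity
  obtain ⟨F1, hF1⟩ := brg_fine_eventually hB.pos.le Φ hv (div_pos hε hc0)
  refine ⟨F1 ∪ ghForks q τ, fun F hF => ?_⟩
  have h := brg_nu_refine hB Φ hv z hτ hF (brg_fk_of_forks Finset.subset_union_right)
    (hF1 _ Finset.subset_union_left) P hK
  refine h.trans ?_
  have e : 2 * B.a ^ 2 * q * (q + 1) * (ε / c) * K = (2 * B.a ^ 2 * q * (q + 1) * K) * (ε / c) := by ring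
  rw [e]
  calc (2 * B.a ^ 2 * q * (q + 1) * K) * (ε / c) ≤ c * (ε / c) :=
        mul_le_mul_of_nonneg_right (by rw [hc]; linarith) (div_pos hε hc0).le
    _ = ε := by field_simp

/-- C1 of 262: rate, uniform in the tree, the test and the source -/
theorem brg_nu_close {B : GhB S} (hB : B.Ok) (Φ : S → ι → ℝ) {v : ι → ℝ → ℝ} (hv : GhClk B.a v) (z : S → ℝ) {q : ℕ}
    {τ : ℕ → ℕ → WithTop GhPos} (hτ : GhIsRT B.a q τ) {F : Finset GhPos} (hfk : BrgFk B.a q τ F) {M : ℝ}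
    (hM : BrgFine B.a Φ v (ghPs B.a F) M) (P : (Fin q → S) → ℝ) {K : ℝ} (hK : ∀ σ, |P σ| ≤ K) :
    |ghCNuF B Φ v z q τ P (ghPs B.a F) - ghCNu B Φ v z q τ P| ≤ 2 * B.a ^ 2 * q * (q + 1) * M * K :=
  brg_k_close (brg_nu_limEx hB Φ hv z hτ P) fun _ hF' => brg_nu_refine hB Φ hv z hτ hF' hfk hM P hK

theorem brg_F_limEx {B : GhB S} (hB : B.Ok) (Φ : S → ι → ℝ) {v : ι → ℝ → ℝ} (hv : GhClk B.a v) (z : S → ℝ) :
    GhLimEx B.a fun ps => ghF B (ghChain Φ B.a v 0 ps) z := by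
  apply brg_k_limEx_of_cauchy
  intro ε hε
  obtain ⟨F1, hF1⟩ := brg_fine_eventually hB.pos.le Φ hv (div_pos hε hB.pos)
  refine ⟨F1, fun F hF => ?_⟩
  refine (brg_F_refine hB Φ hv z hF (hF1 _ (Finset.Subset.refl _))).trans (le_of_eq ?_)
  have := hB.pos.ne'
  field_simp

theorem brg_F_close {B : GhB S} (hB : B.Ok) (Φ : S → ι → ℝ) {v : ι → ℝ → ℝ} (hv : GhClk B.a v) (z : S → ℝ)
    {F : Finset GhPos} {M : ℝ} (hM : BrgFine B.a Φ v (ghPs B.a F) M) :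
    |ghF B (ghChain Φ B.a v 0 (ghPs B.a F)) z - ghCPress B Φ v z| ≤ B.a * M :=
  brg_k_close (Q := fun ps => ghF B (ghChain Φ B.a v 0 ps) z) (brg_F_limEx hB Φ hv z)
    fun _ hF' => brg_F_refine hB Φ hv z hF' hM

/-! ### elementary properties of the path numbers -/

/-- the path numbers of spin tests are the expectations under a probability vector -/
theorem brg_nu_path_vec {B : GhB S} (hB : B.Ok) (Φ : S → ι → ℝ) {v : ι → ℝ → ℝ} (hv : GhClk B.a v) (z : S → ℝ) {q : ℕ}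
    {τ : ℕ → ℕ → WithTop GhPos} (hτ : GhIsRT B.a q τ) :
    ∃ w : (Fin q → S) → ℝ, (∀ σ, 0 ≤ w σ) ∧ ∑ σ, w σ = 1 ∧ ∀ P : (Fin q → S) → ℝ, ghCNu B Φ v z q τ P = ∑ σ, w σ * P σ := by
  classical
  -- the vectors of the chains
  have hvec : ∀ F : Finset GhPos, ∃ w : (Fin q → S) → ℝ, (∀ σ, 0 ≤ w σ) ∧ ∑ σ, w σ = 1 ∧
      ∀ P : (Fin q → S) → ℝ, ghCNuF B Φ v z q τ P (ghPs B.a F) = ∑ σ, w σ * P σ := fun F =>
    brg_nu_vec hB _ (brg_chain_nn B Φ v F) _ _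
  choose wF hw0 hw1 hwP using hvec
  have hind : ∀ F σ₀, wF F σ₀ = ghCNuF B Φ v z q τ (fun σ => if σ = σ₀ then 1 else 0) (ghPs B.a F) := by
    intro F σ₀
    rw [hwP]
    simp
  have hlim : ∀ σ₀, Tendsto (fun F => wF F σ₀) atTop
      (𝓝 (ghCNu B Φ v z q τ fun σ => if σ = σ₀ then 1 else 0)) := by
    intro σ₀
    simp_rw [hind]
    exact brg_nu_limEx hB Φ hv z hτ _
  refine ⟨fun σ₀ => ghCNu B Φ v z q τ fun σ => if σ = σ₀ then 1 else 0, fun σ₀ => ?_, ?_, fun P => ?_⟩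
  · exact ge_of_tendsto' (hlim σ₀) fun F => hw0 F σ₀
  · have h : Tendsto (fun F => ∑ σ, wF F σ) atTop
        (𝓝 (∑ σ₀, ghCNu B Φ v z q τ fun σ => if σ = σ₀ then 1 else 0)) :=
      tendsto_finsetSum _ fun σ₀ _ => hlim σ₀
    simp_rw [hw1] at h
    exact (tendsto_nhds_unique h tendsto_const_nhds)
  · have h : Tendsto (fun F => ∑ σ, wF F σ * P σ) atTop
        (𝓝 (∑ σ₀, (ghCNu B Φ v z q τ fun σ => if σ = σ₀ then 1 else 0) * P σ₀)) :=
      tendsto_finsetSum _ fun σ₀ _ => (hlim σ₀).mul_const _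
    simp_rw [← hwP] at h
    exact tendsto_nhds_unique (brg_nu_limEx hB Φ hv z hτ P) h

theorem brg_nu_abs_le {B : GhB S} (hB : B.Ok) (Φ : S → ι → ℝ) {v : ι → ℝ → ℝ} (hv : GhClk B.a v) (z : S → ℝ) {q : ℕ}
    {τ : ℕ → ℕ → WithTop GhPos} (hτ : GhIsRT B.a q τ) (P : (Fin q → S) → ℝ) {K : ℝ} (hK : ∀ σ, |P σ| ≤ K) :
    |ghCNu B Φ v z q τ P| ≤ K := by
  obtain ⟨w, hw0, hw1, hwP⟩ := brg_nu_path_vec hB Φ hv z hτ
  rw [hwP]
  calc |∑ σ, w σ * P σ| ≤ ∑ σ, |w σ * P σ| := Finset.abs_sum_le_sum_abs _ _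
    _ ≤ ∑ σ, w σ * K := Finset.sum_le_sum fun σ _ => by
        rw [abs_mul, abs_of_nonneg (hw0 σ)]
        exact mul_le_mul_of_nonneg_left (hK σ) (hw0 σ)
    _ = K := by rw [← Finset.sum_mul, hw1, one_mul]

theorem brg_nu_sub_le {B : GhB S} (hB : B.Ok) (Φ : S → ι → ℝ) {v : ι → ℝ → ℝ} (hv : GhClk B.a v) (z : S → ℝ) {q : ℕ}
    {τ : ℕ → ℕ → WithTop GhPos} (hτ : GhIsRT B.a q τ) (P P' : (Fin q → S) → ℝ) {K : ℝ} (hK : ∀ σ, |P σ - P' σ| ≤ K) :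
    |ghCNu B Φ v z q τ P - ghCNu B Φ v z q τ P'| ≤ K := by
  obtain ⟨w, hw0, hw1, hwP⟩ := brg_nu_path_vec hB Φ hv z hτ
  rw [hwP, hwP, ← Finset.sum_sub_distrib]
  calc |∑ σ, (w σ * P σ - w σ * P' σ)| ≤ ∑ σ, |w σ * P σ - w σ * P' σ| := Finset.abs_sum_le_sum_abs _ _
    _ ≤ ∑ σ, w σ * K := Finset.sum_le_sum fun σ _ => by
        rw [← mul_sub, abs_mul, abs_of_nonneg (hw0 σ)]
        exact mul_le_mul_of_nonneg_left (hK σ) (hw0 σ)
    _ = K := by rw [← Finset.sum_mul, hw1, one_mul]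

/-- PE Lemma 2.9 (`j = 1`) for PATHS: Lipschitz in the sup distance of the cumulative kernels over all the valid positions -/
theorem brg_nu_lip {B : GhB S} (hB : B.Ok) (Φ : S → ι → ℝ) {v v' : ι → ℝ → ℝ} (hv : GhClk B.a v) (hv' : GhClk B.a v')
    (z : S → ℝ) {q : ℕ} {τ : ℕ → ℕ → WithTop GhPos} (hτ : GhIsRT B.a q τ) {M : ℝ}
    (hM : ∀ p : GhPos, p.Ok B.a → ∀ s t, |brgKer Φ (fun i => ghAt B.a (v' i) p - ghAt B.a (v i) p) s t| ≤ M)
    (P : (Fin q → S) → ℝ) {K : ℝ} (hK : ∀ σ, |P σ| ≤ K) :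
    |ghCNu B Φ v' z q τ P - ghCNu B Φ v z q τ P| ≤ 2 * B.a ^ 2 * q * (q + 1) * M * K := by
  have hne : Nonempty S := by
    by_contra h
    rw [not_nonempty_iff] at h
    have := hB.sum
    simp at this
  obtain ⟨s⟩ := hne
  have hM0 : 0 ≤ M := (abs_nonneg _).trans (hM (ghPosA 0) (gh_os_posA_ok le_rfl hB.pos.le) s s)
  have h1 : Tendsto (fun F : Finset GhPos => |ghCNuF B Φ v' z q τ P (ghPs B.a F) - ghCNuF B Φ v z q τ P (ghPs B.a F)|) atTop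
      (𝓝 |ghCNu B Φ v' z q τ P - ghCNu B Φ v z q τ P|) :=
    (Tendsto.sub (brg_nu_limEx hB Φ hv' z hτ P) (brg_nu_limEx hB Φ hv z hτ P)).abs
  exact le_of_tendsto' h1 fun F =>
    brg_nuF_lip hB Φ hv hv' z hτ F hM0 (fun p hp => hM p (gh_os_ps_mem.1 hp).2) P hK

/-! ### the derivative -/

omit [Fintype S] in
/-- kernels with coordinates between `-w` and `w`, `w` with diagonal `≤ K0` -/
theorem brg_m_ker_le (Φ : S → ι → ℝ) {c w : ι → ℝ} (hc : ∀ i, |c i| ≤ w i) {K0 : ℝ}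
    (hK0 : ∀ s, ∑ i, w i * Φ s i ^ 2 ≤ K0) (s t : S) : |brgKer Φ c s t| ≤ K0 := by
  unfold brgKer
  calc |∑ i, c i * Φ s i * Φ t i| ≤ ∑ i, |c i * Φ s i * Φ t i| := Finset.abs_sum_le_sum_abs _ _
    _ ≤ ∑ i, (w i * Φ s i ^ 2 + w i * Φ t i ^ 2) / 2 := by
        refine Finset.sum_le_sum fun i _ => ?_
        rw [abs_mul, abs_mul]
        have h1 : |Φ s i| * |Φ t i| ≤ (Φ s i ^ 2 + Φ t i ^ 2) / 2 := by
          have := sq_nonneg (|Φ s i| - |Φ t i|)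
          have e1 := sq_abs (Φ s i)
          have e2 := sq_abs (Φ t i)
          nlinarith
        have h0 : 0 ≤ |Φ s i| * |Φ t i| := by positivity
        have hw : 0 ≤ w i := (abs_nonneg _).trans (hc i)
        calc |c i| * |Φ s i| * |Φ t i| = |c i| * (|Φ s i| * |Φ t i|) := by ring
          _ ≤ w i * ((Φ s i ^ 2 + Φ t i ^ 2) / 2) := mul_le_mul (hc i) h1 h0 hw
          _ = _ := by ring
    _ = (∑ i, w i * Φ s i ^ 2 + ∑ i, w i * Φ t i ^ 2) / 2 := by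
        rw [← Finset.sum_add_distrib, Finset.sum_div]
    _ ≤ K0 := by linarith [hK0 s, hK0 t]

omit [Fintype ι] in
/-- difference of two clock families at a valid position -/
theorem brg_m_diff_le {a : ℝ} (ha : 0 ≤ a) {v0 v1 : ι → ℝ → ℝ} (h0 : GhClk a v0) (h1 : GhClk a v1) {p : GhPos} (hp : p.Ok a)
    (i : ι) : |ghAt a (v1 i) p - ghAt a (v0 i) p| ≤ v0 i a + v1 i a := by
  have a0 := gh_os_at_nonneg ha (h0 i) hp.2.2.1
  have a1 := gh_os_at_nonneg ha (h1 i) hp.2.2.1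
  have b0 := (gh_os_at_le_top ha (h0 i) hp).trans (gh_os_at_top a (v0 i) ha).le
  have b1 := (gh_os_at_le_top ha (h1 i) hp).trans (gh_os_at_top a (v1 i) ha).le
  rw [abs_le]; constructor <;> linarith

omit [Fintype S] in
theorem brg_m_ker_smul (Φ : S → ι → ℝ) (c : ι → ℝ) (r : ℝ) (s t : S) :
    brgKer Φ (fun i => r * c i) s t = r * brgKer Φ c s t := by
  unfold brgKer
  rw [Finset.mul_sum]
  exact Finset.sum_congr rfl fun i _ => by ring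


/-! ### dictionary `brg` (132) <-> `gh` (262) -/

theorem brg_m_ker (Φ : S → ι → ℝ) (c : ι → ℝ) (s t : S) : brgKer Φ c s t = ghKer Φ c s t := rfl

theorem brg_m_seg (θ : ℝ) (v0 v1 : ι → ℝ → ℝ) : brgSeg θ v0 v1 = ghCSeg θ v0 v1 := rfl

/-- domination of a kernel by the diagonal of a dominating kernel -/
theorem brg_m_ker_abs_le (Φ : S → ι → ℝ) {c d : ι → ℝ} (hcd : ∀ i, |c i| ≤ d i) {M : ℝ} (hM : ∀ s, ∑ i, d i * Φ s i ^ 2 ≤ M)
    (s t : S) : |brgKer Φ c s t| ≤ M := by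
  have h1 : |brgKer Φ c s t| ≤ ∑ i, d i * ((Φ s i ^ 2 + Φ t i ^ 2) / 2) := by
    unfold brgKer
    refine (Finset.abs_sum_le_sum_abs _ _).trans (Finset.sum_le_sum fun i _ => ?_)
    rw [mul_assoc, abs_mul]
    have h2 : |Φ s i * Φ t i| ≤ (Φ s i ^ 2 + Φ t i ^ 2) / 2 := by
      rw [abs_le]
      constructor <;> nlinarith [sq_nonneg (Φ s i - Φ t i), sq_nonneg (Φ s i + Φ t i)]
    exact mul_le_mul (hcd i) h2 (abs_nonneg _) ((abs_nonneg _).trans (hcd i))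
  have h3 : ∑ i, d i * ((Φ s i ^ 2 + Φ t i ^ 2) / 2) = (∑ i, d i * Φ s i ^ 2 + ∑ i, d i * Φ t i ^ 2) / 2 := by
    rw [← Finset.sum_add_distrib, Finset.sum_div]
    exact Finset.sum_congr rfl fun i _ => by ring
  rw [h3] at h1
  linarith [hM s, hM t]

theorem brg_m_ker_sub (Φ : S → ι → ℝ) (c c' : ι → ℝ) (s t : S) :
    brgKer Φ c s t - brgKer Φ c' s t = brgKer Φ (fun i => c i - c' i) s t := by
  unfold brgKer
  rw [← Finset.sum_sub_distrib]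
  exact Finset.sum_congr rfl fun i _ => by ring

theorem brg_nu_sum {B : GhB S} (hB : B.Ok) (Φ : S → ι → ℝ) {v : ι → ℝ → ℝ} (hv : GhClk B.a v) (z : S → ℝ) {q : ℕ}
    {τ : ℕ → ℕ → WithTop GhPos} (hτ : GhIsRT B.a q τ) {κ : Type} (t : Finset κ) (c : κ → ℝ) (P : κ → (Fin q → S) → ℝ) :
    ghCNu B Φ v z q τ (fun σ => ∑ k ∈ t, c k * P k σ) = ∑ k ∈ t, c k * ghCNu B Φ v z q τ (P k) := by
  classical
  induction t using Finset.induction_on with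
  | empty => simpa using gh_pt_const hB Φ hv z q τ 0
  | insert k t hk ih =>
    have e : (fun σ => ∑ j ∈ insert k t, c j * P j σ) = fun σ => (∑ j ∈ t, c j * P j σ) + c k * P k σ := by
      funext σ; rw [Finset.sum_insert hk]; ring
    rw [e, gh_pt_add_mul hB Φ hv z hτ, ih, Finset.sum_insert hk]
    ring

/-! ### integrability -/

theorem brg_m_posA_ok {a u : ℝ} (hu : u ∈ Icc 0 a) : (ghPosA u).Ok a := gh_os_posA_ok hu.1 hu.2

theorem brg_m_at_bd {a : ℝ} (ha : 0 ≤ a) {c : ℝ → ℝ} (hc : GhClk1 a c) {p : GhPos} (hp : p.Ok a) :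
    0 ≤ ghAt a c p ∧ ghAt a c p ≤ c a :=
  ⟨gh_os_at_nonneg ha hc hp.2.2.1, (gh_os_at_le_top ha hc hp).trans (gh_os_at_top a c ha).le⟩

/-- the integrand of `brgDPr` is interval integrable -/
theorem brg_nu2_intble {B : GhB S} (hB : B.Ok) (Φ : S → ι → ℝ) {v v0 v1 : ι → ℝ → ℝ} (hv : GhClk B.a v) (h0 : GhClk B.a v0)
    (h1 : GhClk B.a v1) (z : S → ℝ) :
    IntervalIntegrable (fun u => ghCNu B Φ v z 2 (ghR2 (ghPosA u))
      fun σ => brgKer Φ (fun i => ghAt B.a (v1 i) (ghPosA u) - ghAt B.a (v0 i) (ghPosA u)) (σ 0) (σ 1)) volume 0 B.a := by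
  have ha : 0 ≤ B.a := hB.pos.le
  have hterm : ∀ i ∈ (Finset.univ : Finset ι), IntervalIntegrable (fun u =>
      (ghAt B.a (v1 i) (ghPosA u) - ghAt B.a (v0 i) (ghPosA u)) *
        ghCNu B Φ v z 2 (ghR2 (ghPosA u)) fun σ => Φ (σ 0) i * Φ (σ 1) i) volume 0 B.a := by
    intro i _
    have hf := gh_pt_star_intble hB Φ hv z 2 fun σ => Φ (σ 0) i * Φ (σ 1) i
    rw [intervalIntegrable_iff] at hf ⊢
    refine Integrable.bdd_mul (c := v1 i B.a + v0 i B.a) hf ?_ ?_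
    · exact ((brg_at_posA_mono ha (h1 i)).measurable.sub (brg_at_posA_mono ha (h0 i)).measurable).aestronglyMeasurable
    · refine ae_restrict_of_forall_mem measurableSet_uIoc fun u hu => ?_
      rw [uIoc_of_le ha] at hu
      have hok : (ghPosA u).Ok B.a := brg_m_posA_ok ⟨hu.1.le, hu.2⟩
      have b1 := brg_m_at_bd ha (h1 i) hok
      have b0 := brg_m_at_bd ha (h0 i) hok
      rw [Real.norm_eq_abs, abs_le]
      constructor <;> linarith [b1.1, b1.2, b0.1, b0.2]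
  have hsum := IntervalIntegrable.sum Finset.univ hterm
  refine hsum.congr ?_
  intro u hu
  rw [uIoc_of_le ha] at hu
  have hok : (ghPosA u).Ok B.a := brg_m_posA_ok ⟨hu.1.le, hu.2⟩
  have hs := brg_nu_sum hB Φ hv z (brg_rt_r2 hok) Finset.univ
    (fun i => ghAt B.a (v1 i) (ghPosA u) - ghAt B.a (v0 i) (ghPosA u)) fun i σ => Φ (σ 0) i * Φ (σ 1) i
  rw [Finset.sum_apply]
  rw [← hs]
  congr 1
  funext σ
  unfold brgKer
  exact Finset.sum_congr rfl fun i _ => by ring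

/-- a fixed test: `u ↦ ν_{fork (u,1)}[P]` is interval integrable -/
theorem brg_nu2_intble_const {B : GhB S} (hB : B.Ok) (Φ : S → ι → ℝ) {v : ι → ℝ → ℝ} (hv : GhClk B.a v) (z : S → ℝ)
    (P : (Fin 2 → S) → ℝ) :
    IntervalIntegrable (fun u => ghCNu B Φ v z 2 (ghR2 (ghPosA u)) P) volume 0 B.a :=
  gh_pt_star_intble hB Φ hv z 2 P

/-! ### tests built on clocks -/

theorem brg_m_test_bd (Φ : S → ι → ℝ) {c0 c1 t0 t1 : ι → ℝ} (b0 : ∀ i, 0 ≤ c0 i ∧ c0 i ≤ t0 i) (b1 : ∀ i, 0 ≤ c1 i ∧ c1 i ≤ t1 i)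
    {K0 : ℝ} (hK0 : ∀ s, ∑ i, (t0 i + t1 i) * Φ s i ^ 2 ≤ K0) (s t : S) : |brgKer Φ (fun i => c1 i - c0 i) s t| ≤ K0 :=
  brg_m_ker_abs_le Φ (d := fun i => t0 i + t1 i) (fun i => by
    rw [abs_le]; constructor <;> linarith [(b0 i).1, (b0 i).2, (b1 i).1, (b1 i).2]) hK0 s t

theorem brg_m_test_diff (Φ : S → ι → ℝ) {x0 x1 y0 y1 o0 o1 : ι → ℝ} (d0 : ∀ i, 0 ≤ x0 i - y0 i ∧ x0 i - y0 i ≤ o0 i)
    (d1 : ∀ i, 0 ≤ x1 i - y1 i ∧ x1 i - y1 i ≤ o1 i) {M : ℝ} (hM0 : ∀ s, ∑ i, o0 i * Φ s i ^ 2 ≤ M)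
    (hM1 : ∀ s, ∑ i, o1 i * Φ s i ^ 2 ≤ M) (s t : S) :
    |brgKer Φ (fun i => y1 i - y0 i) s t - brgKer Φ (fun i => x1 i - x0 i) s t| ≤ 2 * M := by
  rw [brg_m_ker_sub]
  refine brg_m_ker_abs_le Φ (d := fun i => o0 i + o1 i) (fun i => ?_) (fun s => ?_) s t
  · rw [abs_le]; constructor <;> linarith [(d0 i).1, (d0 i).2, (d1 i).1, (d1 i).2]
  · have : ∑ i, (o0 i + o1 i) * Φ s i ^ 2 = ∑ i, o0 i * Φ s i ^ 2 + ∑ i, o1 i * Φ s i ^ 2 := by
      rw [← Finset.sum_add_distrib]; exact Finset.sum_congr rfl fun i _ => by ring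
    rw [this]; linarith [hM0 s, hM1 s]

/-! ### the finite derivative is close to the path derivative -/

/-- for `u` off the masses of `F`: the two-label number of the cut which contains `u` is close to the path number with the fork at `(u,1)` -/
theorem brg_point_close {B : GhB S} (hB : B.Ok) (Φ : S → ι → ℝ) {v0 v1 : ι → ℝ → ℝ} (h0 : GhClk B.a v0) (h1 : GhClk B.a v1)
    (z : S → ℝ) {F : Finset GhPos} {M K0 : ℝ} (hM0 : BrgFine B.a Φ v0 (ghPs B.a F) M) (hM1 : BrgFine B.a Φ v1 (ghPs B.a F) M)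
    (hK0 : ∀ s, ∑ i, (v0 i B.a + v1 i B.a) * Φ s i ^ 2 ≤ K0) {θ : ℝ} (hθ : θ ∈ Icc (0 : ℝ) 1) {u : ℝ} (hu : u ∈ Icc 0 B.a)
    (hne : ∀ p ∈ F, p.u ≠ u) :
    |brgNu2 B (ghChain Φ B.a (brgSeg θ v0 v1) 0 (ghPs B.a F)) z (ghIdx (ghPs B.a F) ((ghPosA u : GhPos) : WithTop GhPos))
        (fun σ => brgKer Φ (fun i => brgCum B.a v1 (ghPs B.a F) (ghIdx (ghPs B.a F) ((ghPosA u : GhPos) : WithTop GhPos)) i
          - brgCum B.a v0 (ghPs B.a F) (ghIdx (ghPs B.a F) ((ghPosA u : GhPos) : WithTop GhPos)) i) (σ 0) (σ 1))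
      - ghCNu B Φ (brgSeg θ v0 v1) z 2 (ghR2 (ghPosA u))
        (fun σ => brgKer Φ (fun i => ghAt B.a (v1 i) (ghPosA u) - ghAt B.a (v0 i) (ghPosA u)) (σ 0) (σ 1))|
      ≤ 12 * B.a ^ 2 * M * K0 + 2 * M := by
  have ha : 0 ≤ B.a := hB.pos.le
  have hok : (ghPosA u).Ok B.a := brg_m_posA_ok hu
  have hv : GhClk B.a (brgSeg θ v0 v1) := brg_seg_clk h0 h1 hθ
  set ps := ghPs B.a F with hps
  set j := ghIdx ps ((ghPosA u : GhPos) : WithTop GhPos) with hj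
  set PF : (Fin 2 → S) → ℝ := fun σ => brgKer Φ (fun i => brgCum B.a v1 ps j i - brgCum B.a v0 ps j i) (σ 0) (σ 1) with hPF
  set Pu : (Fin 2 → S) → ℝ :=
    fun σ => brgKer Φ (fun i => ghAt B.a (v1 i) (ghPosA u) - ghAt B.a (v0 i) (ghPosA u)) (σ 0) (σ 1) with hPu
  rw [← brg_nuF_r2 B Φ (brgSeg θ v0 v1) z (ghPosA u) PF ps]
  have c1 := brg_nu_close hB Φ hv z (brg_rt_r2 hok) (brg_fk_r2 F hne) (brg_fine_seg ha Φ h0 h1 hM0 hM1 hθ) PF (K := K0)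
    (fun σ => brg_m_test_bd Φ (fun i => brg_cum_bd ha h0 F j i) (fun i => brg_cum_bd ha h1 F j i) hK0 _ _)
  have c2 := brg_nu_sub_le hB Φ hv z (brg_rt_r2 hok) PF Pu (K := 2 * M)
    (fun σ => brg_m_test_diff Φ (fun i => brg_held ha h0 F hu hne i) (fun i => brg_held ha h1 F hu hne i) hM0 hM1 _ _)
  have e : 2 * B.a ^ 2 * ((2 : ℕ) : ℝ) * (((2 : ℕ) : ℝ) + 1) * M * K0 = 12 * B.a ^ 2 * M * K0 := by
    push_cast; ring
  rw [e] at c1
  calc |ghCNuF B Φ (brgSeg θ v0 v1) z 2 (ghR2 (ghPosA u)) PF ps - ghCNu B Φ (brgSeg θ v0 v1) z 2 (ghR2 (ghPosA u)) Pu|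
      = |(ghCNuF B Φ (brgSeg θ v0 v1) z 2 (ghR2 (ghPosA u)) PF ps - ghCNu B Φ (brgSeg θ v0 v1) z 2 (ghR2 (ghPosA u)) PF)
          + (ghCNu B Φ (brgSeg θ v0 v1) z 2 (ghR2 (ghPosA u)) PF - ghCNu B Φ (brgSeg θ v0 v1) z 2 (ghR2 (ghPosA u)) Pu)| := by
        congr 1; ring
    _ ≤ _ := (abs_add_le _ _).trans (add_le_add c1 c2)

/-- the terminal term -/
theorem brg_top_close {B : GhB S} (hB : B.Ok) (Φ : S → ι → ℝ) {v0 v1 : ι → ℝ → ℝ} (h0 : GhClk B.a v0) (h1 : GhClk B.a v1)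
    (z : S → ℝ) {F : Finset GhPos} {M K0 : ℝ} (hM0 : BrgFine B.a Φ v0 (ghPs B.a F) M) (hM1 : BrgFine B.a Φ v1 (ghPs B.a F) M)
    (hK0 : ∀ s, ∑ i, (v0 i B.a + v1 i B.a) * Φ s i ^ 2 ≤ K0) {θ : ℝ} (hθ : θ ∈ Icc (0 : ℝ) 1) :
    |ghCNuF B Φ (brgSeg θ v0 v1) z 1 (fun _ _ => ⊤)
        (fun σ => brgKer Φ (fun i => brgCum B.a v1 (ghPs B.a F) (ghPs B.a F).length i
          - brgCum B.a v0 (ghPs B.a F) (ghPs B.a F).length i) (σ 0) (σ 0)) (ghPs B.a F)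
      - ghCNu B Φ (brgSeg θ v0 v1) z 1 (fun _ _ => ⊤)
        (fun σ => brgKer Φ (fun i => ghAt B.a (v1 i) (ghPosA B.a) - ghAt B.a (v0 i) (ghPosA B.a)) (σ 0) (σ 0))|
      ≤ 4 * B.a ^ 2 * M * K0 + 2 * M := by
  have ha : 0 ≤ B.a := hB.pos.le
  have hv : GhClk B.a (brgSeg θ v0 v1) := brg_seg_clk h0 h1 hθ
  set ps := ghPs B.a F with hps
  set PF : (Fin 1 → S) → ℝ :=
    fun σ => brgKer Φ (fun i => brgCum B.a v1 ps ps.length i - brgCum B.a v0 ps ps.length i) (σ 0) (σ 0) with hPF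
  set Pu : (Fin 1 → S) → ℝ :=
    fun σ => brgKer Φ (fun i => ghAt B.a (v1 i) (ghPosA B.a) - ghAt B.a (v0 i) (ghPosA B.a)) (σ 0) (σ 0) with hPu
  have c1 := brg_nu_close hB Φ hv z (brg_rt_one B.a) (brg_fk_one B.a F) (brg_fine_seg ha Φ h0 h1 hM0 hM1 hθ) PF (K := K0)
    (fun σ => brg_m_test_bd Φ (fun i => brg_cum_bd ha h0 F _ i) (fun i => brg_cum_bd ha h1 F _ i) hK0 _ _)
  have c2 := brg_nu_sub_le hB Φ hv z (brg_rt_one B.a) PF Pu (K := 2 * M)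
    (fun σ => brg_m_test_diff Φ (fun i => brg_held_top ha h0 F i) (fun i => brg_held_top ha h1 F i) hM0 hM1 _ _)
  have e : 2 * B.a ^ 2 * ((1 : ℕ) : ℝ) * (((1 : ℕ) : ℝ) + 1) * M * K0 = 4 * B.a ^ 2 * M * K0 := by
    push_cast; ring
  rw [e] at c1
  calc |ghCNuF B Φ (brgSeg θ v0 v1) z 1 (fun _ _ => ⊤) PF ps - ghCNu B Φ (brgSeg θ v0 v1) z 1 (fun _ _ => ⊤) Pu|
      = |(ghCNuF B Φ (brgSeg θ v0 v1) z 1 (fun _ _ => ⊤) PF ps - ghCNu B Φ (brgSeg θ v0 v1) z 1 (fun _ _ => ⊤) PF)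
          + (ghCNu B Φ (brgSeg θ v0 v1) z 1 (fun _ _ => ⊤) PF - ghCNu B Φ (brgSeg θ v0 v1) z 1 (fun _ _ => ⊤) Pu)| := by
        congr 1; ring
    _ ≤ _ := (abs_add_le _ _).trans (add_le_add c1 c2)

/-- the finite derivative is close to the path derivative, uniformly on the segment; `K0` bounds the diagonal of the total kernels -/
theorem brg_DF_close {B : GhB S} (hB : B.Ok) (Φ : S → ι → ℝ) {v0 v1 : ι → ℝ → ℝ} (h0 : GhClk B.a v0) (h1 : GhClk B.a v1)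
    (z : S → ℝ) {F : Finset GhPos} {M K0 : ℝ} (hM0 : BrgFine B.a Φ v0 (ghPs B.a F) M) (hM1 : BrgFine B.a Φ v1 (ghPs B.a F) M)
    (hK0 : ∀ s, ∑ i, (v0 i B.a + v1 i B.a) * Φ s i ^ 2 ≤ K0) {θ : ℝ} (hθ : θ ∈ Icc (0 : ℝ) 1) :
    |brgDF B Φ v0 v1 z (ghPs B.a F) θ - brgDPr B Φ v0 v1 z θ| ≤ 2 * B.a * M + 8 * B.a ^ 3 * M * K0 := by
  classical
  have ha : 0 ≤ B.a := hB.pos.le
  have hv : GhClk B.a (brgSeg θ v0 v1) := brg_seg_clk h0 h1 hθ
  have t1 := brg_top_close hB Φ h0 h1 z hM0 hM1 hK0 hθ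
  -- the sum over the cuts is an integral
  have hsum := brg_sum_gap ha F fun j => brgNu2 B (ghChain Φ B.a (brgSeg θ v0 v1) 0 (ghPs B.a F)) z j
    fun σ => brgKer Φ (fun i => brgCum B.a v1 (ghPs B.a F) j i - brgCum B.a v0 (ghPs B.a F) j i) (σ 0) (σ 1)
  have hint1 := brg_step_intble (a := B.a) F fun j => brgNu2 B (ghChain Φ B.a (brgSeg θ v0 v1) 0 (ghPs B.a F)) z j
    fun σ => brgKer Φ (fun i => brgCum B.a v1 (ghPs B.a F) j i - brgCum B.a v0 (ghPs B.a F) j i) (σ 0) (σ 1)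
  have hint2 := brg_nu2_intble hB Φ hv h0 h1 z
  have hae : ∀ᵐ u ∂(volume : Measure ℝ), u ∉ (↑(F.image GhPos.u) : Set ℝ) := (Finset.countable_toSet _).ae_notMem _
  have t2 := intervalIntegral.norm_integral_le_of_norm_le_const_ae (a := 0) (b := B.a) (C := 12 * B.a ^ 2 * M * K0 + 2 * M)
    (f := fun u => brgNu2 B (ghChain Φ B.a (brgSeg θ v0 v1) 0 (ghPs B.a F)) z (ghIdx (ghPs B.a F) ((ghPosA u : GhPos) : WithTop GhPos))
        (fun σ => brgKer Φ (fun i => brgCum B.a v1 (ghPs B.a F) (ghIdx (ghPs B.a F) ((ghPosA u : GhPos) : WithTop GhPos)) i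
          - brgCum B.a v0 (ghPs B.a F) (ghIdx (ghPs B.a F) ((ghPosA u : GhPos) : WithTop GhPos)) i) (σ 0) (σ 1))
      - ghCNu B Φ (brgSeg θ v0 v1) z 2 (ghR2 (ghPosA u))
        (fun σ => brgKer Φ (fun i => ghAt B.a (v1 i) (ghPosA u) - ghAt B.a (v0 i) (ghPosA u)) (σ 0) (σ 1))) (by
      filter_upwards [hae] with u hu hmem
      rw [uIoc_of_le ha] at hmem
      rw [Real.norm_eq_abs]
      refine brg_point_close hB Φ h0 h1 z hM0 hM1 hK0 hθ ⟨hmem.1.le, hmem.2⟩ fun p hp hpu => hu ?_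
      rw [Finset.mem_coe, Finset.mem_image]
      exact ⟨p, hp, hpu⟩)
  rw [intervalIntegral.integral_sub hint1 hint2, ← hsum, Real.norm_eq_abs, sub_zero, abs_of_nonneg ha] at t2
  unfold brgDF brgDPr
  set A1 := ghCNuF B Φ (brgSeg θ v0 v1) z 1 (fun _ _ => ⊤)
        (fun σ => brgKer Φ (fun i => brgCum B.a v1 (ghPs B.a F) (ghPs B.a F).length i
          - brgCum B.a v0 (ghPs B.a F) (ghPs B.a F).length i) (σ 0) (σ 0)) (ghPs B.a F)
  set A2 := ghCNu B Φ (brgSeg θ v0 v1) z 1 (fun _ _ => ⊤)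
        (fun σ => brgKer Φ (fun i => ghAt B.a (v1 i) (ghPosA B.a) - ghAt B.a (v0 i) (ghPosA B.a)) (σ 0) (σ 0))
  set S1 := ∑ j ∈ Finset.range ((ghPs B.a F).length + 1), brgGap B.a (ghPs B.a F) j *
        brgNu2 B (ghChain Φ B.a (brgSeg θ v0 v1) 0 (ghPs B.a F)) z j
          fun σ => brgKer Φ (fun i => brgCum B.a v1 (ghPs B.a F) j i - brgCum B.a v0 (ghPs B.a F) j i) (σ 0) (σ 1)
  set S2 := ∫ u in (0 : ℝ)..B.a, ghCNu B Φ (brgSeg θ v0 v1) z 2 (ghR2 (ghPosA u))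
        fun σ => brgKer Φ (fun i => ghAt B.a (v1 i) (ghPosA u) - ghAt B.a (v0 i) (ghPosA u)) (σ 0) (σ 1)
  have key : B.a / 2 * A1 - 1 / 2 * S1 - (B.a / 2 * A2 - 1 / 2 * S2) = B.a / 2 * (A1 - A2) + (-(1 / 2)) * (S1 - S2) := by ring
  rw [key]
  have b1 : |B.a / 2 * (A1 - A2)| ≤ B.a / 2 * (4 * B.a ^ 2 * M * K0 + 2 * M) := by
    rw [abs_mul, abs_of_nonneg (by positivity : 0 ≤ B.a / 2)]
    exact mul_le_mul_of_nonneg_left t1 (by positivity)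
  have b2 : |(-(1 / 2)) * (S1 - S2)| ≤ 1 / 2 * ((12 * B.a ^ 2 * M * K0 + 2 * M) * B.a) := by
    rw [abs_mul, abs_neg, abs_of_nonneg (by norm_num : (0 : ℝ) ≤ 1 / 2)]
    exact mul_le_mul_of_nonneg_left t2 (by norm_num)
  calc |B.a / 2 * (A1 - A2) + (-(1 / 2)) * (S1 - S2)| ≤ |B.a / 2 * (A1 - A2)| + |(-(1 / 2)) * (S1 - S2)| := abs_add_le _ _
    _ ≤ B.a / 2 * (4 * B.a ^ 2 * M * K0 + 2 * M) + 1 / 2 * ((12 * B.a ^ 2 * M * K0 + 2 * M) * B.a) := add_le_add b1 b2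
    _ = 2 * B.a * M + 8 * B.a ^ 3 * M * K0 := by ring

/-! ### the derivative of the pressure of a path -/

/-- **C3 of 262: first line of PE (1) / LL (A1) for bounded monotone clocks**, any base, any features, any source -/
theorem brg_press_deriv {B : GhB S} (hB : B.Ok) (Φ : S → ι → ℝ) {v0 v1 : ι → ℝ → ℝ} (h0 : GhClk B.a v0) (h1 : GhClk B.a v1)
    (z : S → ℝ) {θ : ℝ} (hθ : θ ∈ Icc (0 : ℝ) 1) :
    HasDerivWithinAt (fun t => ghCPress B Φ (brgSeg t v0 v1) z) (brgDPr B Φ v0 v1 z θ) (Icc 0 1) θ := by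
  classical
  have ha : 0 ≤ B.a := hB.pos.le
  -- a bound of the diagonals
  obtain ⟨K0, hK0p, hK0⟩ : ∃ K0 : ℝ, 0 ≤ K0 ∧ ∀ s, ∑ i, (v0 i B.a + v1 i B.a) * Φ s i ^ 2 ≤ K0 := by
    refine ⟨∑ s, |∑ i, (v0 i B.a + v1 i B.a) * Φ s i ^ 2|, Finset.sum_nonneg fun _ _ => abs_nonneg _, fun s => ?_⟩
    exact (le_abs_self _).trans
      (Finset.single_le_sum (f := fun s => |∑ i, (v0 i B.a + v1 i B.a) * Φ s i ^ 2|) (fun _ _ => abs_nonneg _) (Finset.mem_univ s))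
  refine brg_k_hasDerivWithinAt (l := (atTop : Filter (Finset GhPos)))
    (f := fun F t => ghF B (ghChain Φ B.a (brgSeg t v0 v1) 0 (ghPs B.a F)) z)
    (g := fun F t => brgDF B Φ v0 v1 z (ghPs B.a F) t) (G := brgDPr B Φ v0 v1 z) (convex_Icc 0 1) ?_ ?_ ?_ hθ
  · exact Eventually.of_forall fun F x hx => brg_fin_deriv hB Φ h0 h1 z F hx
  · intro x hx
    exact brg_F_limEx hB Φ (brg_seg_clk h0 h1 hx) z
  · intro ε hε
    set D : ℝ := 2 * B.a + 8 * B.a ^ 3 * K0 + 1 with hD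
    have hDp : 0 < D := by positivity
    obtain ⟨F0, hF0⟩ := brg_fine_eventually ha Φ h0 (div_pos hε hDp)
    obtain ⟨F1, hF1⟩ := brg_fine_eventually ha Φ h1 (div_pos hε hDp)
    filter_upwards [eventually_ge_atTop (F0 ∪ F1)] with F hF x hx
    have e := brg_DF_close hB Φ h0 h1 z (hF0 F (Finset.subset_union_left.trans hF)) (hF1 F (Finset.subset_union_right.trans hF))
      hK0 hx
    refine e.trans ?_
    have : 2 * B.a * (ε / D) + 8 * B.a ^ 3 * (ε / D) * K0 = (D - 1) * (ε / D) := by rw [hD]; ring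
    rw [this]
    have h2 : (D - 1) * (ε / D) ≤ D * (ε / D) := mul_le_mul_of_nonneg_right (by linarith) (div_pos hε hDp).le
    have h3 : D * (ε / D) = ε := by field_simp
    linarith

/-- the derivative is Lipschitz in `θ` -/
theorem brg_DPr_lip {B : GhB S} (hB : B.Ok) (Φ : S → ι → ℝ) {v0 v1 : ι → ℝ → ℝ} (h0 : GhClk B.a v0) (h1 : GhClk B.a v1)
    (z : S → ℝ) {K0 : ℝ} (hK0 : ∀ s, ∑ i, (v0 i B.a + v1 i B.a) * Φ s i ^ 2 ≤ K0) {θ θ' : ℝ} (hθ : θ ∈ Icc (0 : ℝ) 1)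
    (hθ' : θ' ∈ Icc (0 : ℝ) 1) :
    |brgDPr B Φ v0 v1 z θ' - brgDPr B Φ v0 v1 z θ| ≤ 8 * B.a ^ 3 * K0 ^ 2 * |θ' - θ| := by
  have ha : 0 ≤ B.a := hB.pos.le
  have hs := brg_seg_clk h0 h1 hθ
  have hs' := brg_seg_clk h0 h1 hθ'
  -- the tests are bounded by `K0`
  have hT : ∀ p : GhPos, p.Ok B.a → ∀ s t, |brgKer Φ (fun i => ghAt B.a (v1 i) p - ghAt B.a (v0 i) p) s t| ≤ K0 :=
    fun p hp s t => brg_m_ker_le Φ (fun i => brg_m_diff_le ha h0 h1 hp i) hK0 s t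
  -- distance of the clocks
  have hM : ∀ p : GhPos, p.Ok B.a → ∀ s t,
      |brgKer Φ (fun i => ghAt B.a (brgSeg θ' v0 v1 i) p - ghAt B.a (brgSeg θ v0 v1 i) p) s t| ≤ |θ' - θ| * K0 := by
    intro p hp s t
    have e : (fun i => ghAt B.a (brgSeg θ' v0 v1 i) p - ghAt B.a (brgSeg θ v0 v1 i) p)
        = fun i => (θ' - θ) * (ghAt B.a (v1 i) p - ghAt B.a (v0 i) p) := by
      funext i
      have e1 : ghAt B.a (brgSeg θ' v0 v1 i) p = _ := brg_at_seg ha (h0 i) (h1 i) θ' p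
      have e2 : ghAt B.a (brgSeg θ v0 v1 i) p = _ := brg_at_seg ha (h0 i) (h1 i) θ p
      rw [e1, e2]; ring
    rw [e, brg_m_ker_smul, abs_mul]
    exact mul_le_mul_of_nonneg_left (hT p hp s t) (abs_nonneg _)
  have hA := brg_nu_lip hB Φ hs hs' z (brg_rt_one B.a) hM
    (fun σ => brgKer Φ (fun i => ghAt B.a (v1 i) (ghPosA B.a) - ghAt B.a (v0 i) (ghPosA B.a)) (σ 0) (σ 0))
    (fun σ => hT _ (gh_os_posA_ok ha le_rfl) _ _)
  have hI : ∀ u ∈ Icc (0:ℝ) B.a, |ghCNu B Φ (brgSeg θ' v0 v1) z 2 (ghR2 (ghPosA u))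
        (fun σ => brgKer Φ (fun i => ghAt B.a (v1 i) (ghPosA u) - ghAt B.a (v0 i) (ghPosA u)) (σ 0) (σ 1))
      - ghCNu B Φ (brgSeg θ v0 v1) z 2 (ghR2 (ghPosA u))
        (fun σ => brgKer Φ (fun i => ghAt B.a (v1 i) (ghPosA u) - ghAt B.a (v0 i) (ghPosA u)) (σ 0) (σ 1))|
      ≤ 2 * B.a ^ 2 * (2:ℕ) * ((2:ℕ) + 1) * (|θ' - θ| * K0) * K0 := fun u hu =>
    brg_nu_lip hB Φ hs hs' z (brg_rt_r2 (gh_os_posA_ok hu.1 hu.2)) hM _ (fun σ => hT _ (gh_os_posA_ok hu.1 hu.2) _ _)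
  have i1 := brg_nu2_intble hB Φ hs' h0 h1 z
  have i0 := brg_nu2_intble hB Φ hs h0 h1 z
  unfold brgDPr
  set A1 := ghCNu B Φ (brgSeg θ' v0 v1) z 1 (fun _ _ => ⊤)
    (fun σ => brgKer Φ (fun i => ghAt B.a (v1 i) (ghPosA B.a) - ghAt B.a (v0 i) (ghPosA B.a)) (σ 0) (σ 0))
  set A0 := ghCNu B Φ (brgSeg θ v0 v1) z 1 (fun _ _ => ⊤)
    (fun σ => brgKer Φ (fun i => ghAt B.a (v1 i) (ghPosA B.a) - ghAt B.a (v0 i) (ghPosA B.a)) (σ 0) (σ 0))
  have hint : |(∫ u in (0 : ℝ)..B.a, ghCNu B Φ (brgSeg θ' v0 v1) z 2 (ghR2 (ghPosA u))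
        fun σ => brgKer Φ (fun i => ghAt B.a (v1 i) (ghPosA u) - ghAt B.a (v0 i) (ghPosA u)) (σ 0) (σ 1))
      - ∫ u in (0 : ℝ)..B.a, ghCNu B Φ (brgSeg θ v0 v1) z 2 (ghR2 (ghPosA u))
        fun σ => brgKer Φ (fun i => ghAt B.a (v1 i) (ghPosA u) - ghAt B.a (v0 i) (ghPosA u)) (σ 0) (σ 1)|
      ≤ 2 * B.a ^ 2 * (2:ℕ) * ((2:ℕ) + 1) * (|θ' - θ| * K0) * K0 * |B.a - 0| := by
    rw [← intervalIntegral.integral_sub i1 i0, ← Real.norm_eq_abs]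
    refine intervalIntegral.norm_integral_le_of_norm_le_const fun u hu => ?_
    rw [uIoc_of_le ha] at hu
    rw [Real.norm_eq_abs]
    exact hI u ⟨hu.1.le, hu.2⟩
  rw [sub_zero, abs_of_nonneg ha] at hint
  push_cast at hint hA
  rw [abs_le] at hint hA ⊢
  constructor <;> nlinarith [hint.1, hint.2, hA.1, hA.2, ha]

theorem brg_DPr_cont {B : GhB S} (hB : B.Ok) (Φ : S → ι → ℝ) {v0 v1 : ι → ℝ → ℝ} (h0 : GhClk B.a v0) (h1 : GhClk B.a v1)
    (z : S → ℝ) : ContinuousOn (brgDPr B Φ v0 v1 z) (Icc 0 1) := by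
  obtain ⟨K0, hK0⟩ : ∃ K0 : ℝ, ∀ s, ∑ i, (v0 i B.a + v1 i B.a) * Φ s i ^ 2 ≤ K0 := by
    refine ⟨∑ s, |∑ i, (v0 i B.a + v1 i B.a) * Φ s i ^ 2|, fun s => ?_⟩
    exact (le_abs_self _).trans
      (Finset.single_le_sum (f := fun s => |∑ i, (v0 i B.a + v1 i B.a) * Φ s i ^ 2|) (fun _ _ => abs_nonneg _) (Finset.mem_univ s))
  have hC : 0 ≤ 8 * B.a ^ 3 * K0 ^ 2 := by have := hB.pos.le; positivity
  have hl : LipschitzOnWith (Real.toNNReal (8 * B.a ^ 3 * K0 ^ 2)) (brgDPr B Φ v0 v1 z) (Icc 0 1) := by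
    refine LipschitzOnWith.of_dist_le_mul fun x hx y hy => ?_
    rw [Real.dist_eq, Real.dist_eq, Real.coe_toNNReal _ hC]
    exact brg_DPr_lip hB Φ h0 h1 z hK0 hy hx
  exact hl.continuousOn

end Claimed.Agent.R286
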