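import Claimed.Agent.R286.Brg.Path
import Claimed.Agent.R286.Brg.PrLeaf
import Claimed.Agent.R286.Exit.ClkC3
import Claimed.Agent.R286.Fd.ClkDefs

/-!
# Row 286 (S0533), unit BRIDGE / LAYER C: THE SK PRESSURE OF BOUNDED MONOTONE CLOCKS      (owner + prover helper89; prefix `gh_pk_`)

0 sorry of its own.  Stands on `Brg/Path` (262), `exit_clkC3` (general C3: 132), `brg_at_seg`, `brg_at_ae` (Brg/PrLeaf).
TEX[PE:prop:found-limits] TEX[PE:lem:found-pressure]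
* `gh_pk_tot_tendsto`      the total clocks of the chains tend to `b a`, `h a`
* `gh_pk_prS`, `gh_pk_pr_eq`, **`gh_pk_lim_pr`** (= `exit_clk_lim_pr`)      `skCPrS n a b h z = ghCPress (skBase n a) (skPhi n) (skClk n b h) z / n - a (b a / 4 + h a / 2)`
* `gh_pk_ker`              the SK kernel `n (db R²/2 + dh R)`;   `gh_pk_ov_self`, `gh_pk_ov_abs`
* `gh_pk_CB_abs`, `gh_pk_CS_abs`, `gh_pk_CB_intble`, ..      `|S|, |B| ≤ 1`, integrability in the mass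
* `gh_pk_CB_lip`, `gh_pk_CS_lip`      Lipschitz in `θ` along a segment, uniformly in the position
* **`gh_pk_pr_deriv`** (= `exit_clk_pr_deriv`), **`gh_pk_pr_lip`** (= `exit_clk_pr_lip`)
-/

set_option autoImplicit false
set_option linter.unusedSectionVars false

namespace Claimed.Agent.R286

open MeasureTheory Filter Topology Set

variable {n : ℕ} {a : ℝ}

/-! ### 1. the base, the clocks -/

theorem gh_pk_base_ok (n : ℕ) {a : ℝ} (ha : 0 < a) : (skBase n a).Ok where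
  nonneg := fun _ => by simp only [skBase, ghUnif]; positivity
  sum := by
    simp only [skBase, ghUnif, Finset.sum_const, Finset.card_univ, nsmul_eq_mul]
    exact mul_inv_cancel₀ (by positivity)
  pos := ha

theorem gh_pk_clk (n : ℕ) {b h : ℝ → ℝ} (hbh : CkAdm a b h) : GhClk (skBase n a).a (skClk n b h) := by
  intro i
  cases i
  · exact hbh.1
  · exact hbh.2

theorem gh_pk_seg (n : ℕ) (θ : ℝ) (b0 h0 b1 h1 : ℝ → ℝ) :
    skClk n (ckSeg θ b0 b1) (ckSeg θ h0 h1) = ghCSeg θ (skClk n b0 h0) (skClk n b1 h1) := by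
  funext i u
  cases i <;> rfl

theorem gh_pk_seg_adm {b0 h0 b1 h1 : ℝ → ℝ} (h0' : CkAdm a b0 h0) (h1' : CkAdm a b1 h1) {θ : ℝ} (hθ : θ ∈ Icc (0 : ℝ) 1) :
    CkAdm a (ckSeg θ b0 b1) (ckSeg θ h0 h1) :=
  ⟨brg_seg_clk1 h0'.1 h1'.1 hθ, brg_seg_clk1 h0'.2 h1'.2 hθ⟩

/-! ### 2. the total clocks of a chain -/

theorem gh_pk_tot_cons (a : ℝ) (b h : ℝ → ℝ) (p : GhPos) (ps : List GhPos) (b0 h0 : ℝ) :
    b0 + skTotB (skCStp a b h b0 h0 (p :: ps)) = ghAt a b p + skTotB (skCStp a b h (ghAt a b p) (ghAt a h p) ps) ∧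
    h0 + skTotH (skCStp a b h b0 h0 (p :: ps)) = ghAt a h p + skTotH (skCStp a b h (ghAt a b p) (ghAt a h p) ps) := by
  simp only [skCStp, skTotB, skTotH, List.map_cons, List.sum_cons]
  constructor <;> ring

theorem gh_pk_tot_up (a : ℝ) (b h : ℝ → ℝ) : ∀ (ps : List GhPos) (b0 h0 : ℝ),
    ghAt a b (ghPosA a) - (b0 + skTotB (skCStp a b h b0 h0 ps)) ≤ ghOsc a b b0 ps ∧
    ghAt a h (ghPosA a) - (h0 + skTotH (skCStp a b h b0 h0 ps)) ≤ ghOsc a h h0 ps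
  | [], b0, h0 => by simp [skCStp, skTotB, skTotH, ghOsc]
  | p :: ps, b0, h0 => by
      rw [(gh_pk_tot_cons a b h p ps b0 h0).1, (gh_pk_tot_cons a b h p ps b0 h0).2, ghOsc, ghOsc]
      exact ⟨(gh_pk_tot_up a b h ps _ _).1.trans (le_max_right _ _), (gh_pk_tot_up a b h ps _ _).2.trans (le_max_right _ _)⟩

theorem gh_pk_tot_lo (ha : 0 ≤ a) {b h : ℝ → ℝ} (hbh : CkAdm a b h) : ∀ (ps : List GhPos) (b0 h0 : ℝ), (∀ p ∈ ps, p.Ok a) →
    b0 ≤ ghAt a b (ghPosA a) → h0 ≤ ghAt a h (ghPosA a) →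
    b0 + skTotB (skCStp a b h b0 h0 ps) ≤ ghAt a b (ghPosA a) ∧ h0 + skTotH (skCStp a b h b0 h0 ps) ≤ ghAt a h (ghPosA a)
  | [], b0, h0, _, hb, hh => by simpa [skCStp, skTotB, skTotH] using ⟨hb, hh⟩
  | p :: ps, b0, h0, hok, _, _ => by
      rw [(gh_pk_tot_cons a b h p ps b0 h0).1, (gh_pk_tot_cons a b h p ps b0 h0).2]
      exact gh_pk_tot_lo ha hbh ps _ _ (fun x hx => hok x (List.mem_cons_of_mem _ hx))
        (gh_os_at_le_top ha hbh.1 (hok p (List.mem_cons_self ..))) (gh_os_at_le_top ha hbh.2 (hok p (List.mem_cons_self ..)))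

theorem gh_pk_tot_tendsto (ha : 0 ≤ a) {b h : ℝ → ℝ} (hbh : CkAdm a b h) :
    Tendsto (fun F : Finset GhPos => skTotB (skCStp a b h 0 0 (ghPs a F))) atTop (𝓝 (b a)) ∧
    Tendsto (fun F : Finset GhPos => skTotH (skCStp a b h 0 0 (ghPs a F))) atTop (𝓝 (h a)) := by
  have hpos : (0 : ℝ) ≤ (ghPosA a).lam := by simp [ghPosA, GhPos.lam]
  have hlo := fun F : Finset GhPos => gh_pk_tot_lo ha hbh (ghPs a F) 0 0 (fun p hp => (gh_os_ps_mem.1 hp).2)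
    (gh_os_at_nonneg ha hbh.1 hpos) (gh_os_at_nonneg ha hbh.2 hpos)
  have hup := fun F : Finset GhPos => gh_pk_tot_up a b h (ghPs a F) 0 0
  constructor
  · have h1 : Tendsto (fun F : Finset GhPos => ghAt a b (ghPosA a) - (0 + skTotB (skCStp a b h 0 0 (ghPs a F)))) atTop (𝓝 0) :=
      squeeze_zero (fun F => sub_nonneg.2 (hlo F).1) (fun F => (hup F).1) (gh_os_tendsto ha hbh.1)
    have h2 := (tendsto_const_nhds (x := ghAt a b (ghPosA a))).sub h1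
    rw [gh_os_at_top a b ha] at h2
    simpa using h2
  · have h1 : Tendsto (fun F : Finset GhPos => ghAt a h (ghPosA a) - (0 + skTotH (skCStp a b h 0 0 (ghPs a F)))) atTop (𝓝 0) :=
      squeeze_zero (fun F => sub_nonneg.2 (hlo F).2) (fun F => (hup F).2) (gh_os_tendsto ha hbh.2)
    have h2 := (tendsto_const_nhds (x := ghAt a h (ghPosA a))).sub h1
    rw [gh_os_at_top a h ha] at h2
    simpa using h2

/-! ### 3. the pressure exists -/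

theorem gh_pk_prS (ha : 0 < a) {b h : ℝ → ℝ} (hbh : CkAdm a b h) (z : SkCfg n → ℝ) :
    Tendsto (fun F : Finset GhPos => skPrS n a (skCStp a b h 0 0 (ghPs a F)) z) atTop
      (𝓝 (ghCPress (skBase n a) (skPhi n) (skClk n b h) z / n - a * (b a / 4 + h a / 2))) := by
  have h0 : (Sum.elim (fun _ => (0:ℝ)) fun _ => (0:ℝ) : SkDr n → ℝ) = 0 := by
    funext i; cases i <;> rfl
  have h1 : Tendsto (fun F : Finset GhPos => ghF (skBase n a) (ghChain (skPhi n) a (skClk n b h) 0 (ghPs a F)) z) atTop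
      (𝓝 (ghCPress (skBase n a) (skPhi n) (skClk n b h) z)) :=
    gh_pt_ex_pr (gh_pk_base_ok n ha) (skPhi n) (gh_pk_clk n hbh) z
  have h2 := gh_pk_tot_tendsto ha.le hbh
  have h3 := (h1.div_const (n : ℝ)).sub (((h2.1.div_const 4).add (h2.2.div_const 2)).const_mul a)
  refine h3.congr fun F => ?_
  unfold skPrS skF
  rw [sk_c_chain, h0]

/-- = `exit_clk_lim_pr` -/
theorem gh_pk_lim_pr (ha : 0 < a) {b h : ℝ → ℝ} (hbh : CkAdm a b h) (z : SkCfg n → ℝ) :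
    GhLimEx a (fun ps => skPrS n a (skCStp a b h 0 0 ps) z) ∧ GhLimEx a (fun ps => skPr n a (skCStp a b h 0 0 ps)) :=
  ⟨(gh_nt_ex_of_tendsto (gh_pk_prS ha hbh z)).1, (gh_nt_ex_of_tendsto (gh_pk_prS ha hbh 0)).1⟩

theorem gh_pk_prS_eq (ha : 0 < a) {b h : ℝ → ℝ} (hbh : CkAdm a b h) (z : SkCfg n → ℝ) :
    skCPrS n a b h z = ghCPress (skBase n a) (skPhi n) (skClk n b h) z / n - a * (b a / 4 + h a / 2) :=
  (gh_nt_ex_of_tendsto (gh_pk_prS ha hbh z)).2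

theorem gh_pk_pr_eq (ha : 0 < a) {b h : ℝ → ℝ} (hbh : CkAdm a b h) :
    skCPr n a b h = ghCPress (skBase n a) (skPhi n) (skClk n b h) 0 / n - a * (b a / 4 + h a / 2) :=
  (gh_nt_ex_of_tendsto (gh_pk_prS ha hbh 0)).2

/-! ### 4. the SK kernel, overlaps -/

theorem gh_pk_ker (hn : 0 < n) (db dh : ℝ) (σ τ : SkCfg n) :
    ghKer (skPhi n) (Sum.elim (fun _ => db) fun _ => dh) σ τ = n * (db * skOv σ τ ^ 2 / 2 + dh * skOv σ τ) := by
  have hn' : (0 : ℝ) < n := by exact_mod_cast hn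
  unfold ghKer skPhi skOv
  rw [Fintype.sum_sum_type]
  simp only [Sum.elim_inl, Sum.elim_inr]
  have h1 : ∀ p : Fin n × Fin n, db * (skSp σ p.1 * skSp σ p.2 / Real.sqrt (2 * n)) * (skSp τ p.1 * skSp τ p.2 / Real.sqrt (2 * n))
      = db / (2 * n) * ((skSp σ p.1 * skSp τ p.1) * (skSp σ p.2 * skSp τ p.2)) := by
    intro p
    have s2 : Real.sqrt (2 * n) * Real.sqrt (2 * n) = 2 * n := Real.mul_self_sqrt (by positivity)
    have s3 : Real.sqrt (2 * (n : ℝ)) ≠ 0 := by positivity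
    calc _ = db / (Real.sqrt (2 * n) * Real.sqrt (2 * n)) * ((skSp σ p.1 * skSp τ p.1) * (skSp σ p.2 * skSp τ p.2)) := by
          field_simp
      _ = _ := by rw [s2]
  have h2 : ∀ i : Fin n, dh * skSp σ i * skSp τ i = dh * (skSp σ i * skSp τ i) := fun i => by ring
  simp only [h1, h2, ← Finset.mul_sum]
  rw [Fintype.sum_prod_type]
  simp only []
  rw [← Finset.sum_mul_sum]
  field_simp

theorem gh_pk_sp_abs (σ : SkCfg n) (i : Fin n) : |skSp σ i| = 1 := by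
  unfold skSp Claims.C0461.pmSpin
  split_ifs <;> simp

theorem gh_pk_ov_self (hn : 0 < n) (σ : SkCfg n) : skOv σ σ = 1 := by
  have hn' : (n : ℝ) ≠ 0 := by exact_mod_cast hn.ne'
  unfold skOv
  have : ∀ i : Fin n, skSp σ i * skSp σ i = 1 := fun i => by
    have := gh_pk_sp_abs σ i
    rw [← abs_mul_abs_self, this]; norm_num
  simp only [this, Finset.sum_const, Finset.card_univ, Fintype.card_fin, nsmul_eq_mul, mul_one]
  exact div_self hn'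

theorem gh_pk_ov_abs (hn : 0 < n) (σ τ : SkCfg n) : |skOv σ τ| ≤ 1 := by
  have hn' : (0 : ℝ) < n := by exact_mod_cast hn
  unfold skOv
  rw [abs_div, abs_of_pos hn', div_le_one hn']
  calc |∑ i, skSp σ i * skSp τ i| ≤ ∑ i, |skSp σ i * skSp τ i| := Finset.abs_sum_le_sum_abs _ _
    _ = ∑ _i : Fin n, (1 : ℝ) := Finset.sum_congr rfl fun i _ => by rw [abs_mul, gh_pk_sp_abs, gh_pk_sp_abs, mul_one]
    _ = n := by simp

theorem gh_pk_ov_sq_abs (hn : 0 < n) (σ τ : SkCfg n) : |skOv σ τ ^ 2| ≤ 1 := by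
  rw [abs_pow]
  exact pow_le_one₀ (abs_nonneg _) (gh_pk_ov_abs hn σ τ)

/-! ### 5. `S` and `B` of a path -/

theorem gh_pk_CB_eq (n : ℕ) (a : ℝ) (b h : ℝ → ℝ) (p : GhPos) :
    skCB n a b h p = ghCNu (skBase n a) (skPhi n) (skClk n b h) 0 2 (ghR2 p) fun σ => skOv (σ 0) (σ 1) ^ 2 :=
  sk_c_nu_eq ..

theorem gh_pk_CS_eq (n : ℕ) (a : ℝ) (b h : ℝ → ℝ) (p : GhPos) :
    skCS n a b h p = ghCNu (skBase n a) (skPhi n) (skClk n b h) 0 2 (ghR2 p) fun σ => skOv (σ 0) (σ 1) :=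
  sk_c_nu_eq ..

theorem gh_pk_CB_abs (hn : 0 < n) (ha : 0 < a) {b h : ℝ → ℝ} (hbh : CkAdm a b h) {p : GhPos} (hp : p.Ok a) :
    |skCB n a b h p| ≤ 1 := by
  rw [gh_pk_CB_eq]
  exact gh_pt_abs_le (gh_pk_base_ok n ha) _ (gh_pk_clk n hbh) 0 (gh_pt_star_rt 2 hp) fun σ => gh_pk_ov_sq_abs hn _ _

theorem gh_pk_CS_abs (hn : 0 < n) (ha : 0 < a) {b h : ℝ → ℝ} (hbh : CkAdm a b h) {p : GhPos} (hp : p.Ok a) :
    |skCS n a b h p| ≤ 1 := by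
  rw [gh_pk_CS_eq]
  exact gh_pt_abs_le (gh_pk_base_ok n ha) _ (gh_pk_clk n hbh) 0 (gh_pt_star_rt 2 hp) fun σ => gh_pk_ov_abs hn _ _

theorem gh_pk_CB_intble (ha : 0 < a) {b h : ℝ → ℝ} (hbh : CkAdm a b h) :
    IntervalIntegrable (fun u => skCB n a b h (ghPosA u)) volume 0 a := by
  simp_rw [gh_pk_CB_eq]
  exact gh_pt_star_intble (gh_pk_base_ok n ha) (skPhi n) (gh_pk_clk n hbh) 0 2 _

theorem gh_pk_CS_intble (ha : 0 < a) {b h : ℝ → ℝ} (hbh : CkAdm a b h) :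
    IntervalIntegrable (fun u => skCS n a b h (ghPosA u)) volume 0 a := by
  simp_rw [gh_pk_CS_eq]
  exact gh_pt_star_intble (gh_pk_base_ok n ha) (skPhi n) (gh_pk_clk n hbh) 0 2 _

/-- bounded integrable times integrable -/
theorem gh_pk_mul_intble (ha : 0 ≤ a) {f g : ℝ → ℝ} (hf : IntervalIntegrable f volume 0 a)
    (hg : IntervalIntegrable g volume 0 a) {C : ℝ} (hC : ∀ u ∈ Icc 0 a, |f u| ≤ C) :
    IntervalIntegrable (fun u => f u * g u) volume 0 a := by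
  rw [intervalIntegrable_iff_integrableOn_Ioc_of_le ha] at *
  refine Integrable.bdd_mul (c := C) hg hf.aestronglyMeasurable ?_
  rw [ae_restrict_iff' measurableSet_Ioc]
  exact Eventually.of_forall fun u hu => by rw [Real.norm_eq_abs]; exact hC u ⟨hu.1.le, hu.2⟩

theorem gh_pk_clk_intble (ha : 0 ≤ a) {c : ℝ → ℝ} (hc : GhClk1 a c) : IntervalIntegrable c volume 0 a := by
  refine MonotoneOn.intervalIntegrable ?_
  rw [uIcc_of_le ha]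
  exact hc.1

theorem gh_pk_clk_bd (ha : 0 ≤ a) {c : ℝ → ℝ} (hc : GhClk1 a c) {u : ℝ} (hu : u ∈ Icc 0 a) : 0 ≤ c u ∧ c u ≤ c a :=
  ⟨hc.2.trans (hc.1 ⟨le_rfl, ha⟩ hu hu.1), hc.1 hu ⟨ha, le_rfl⟩ hu.2⟩

theorem gh_pk_at_bd (ha : 0 ≤ a) {c : ℝ → ℝ} (hc : GhClk1 a c) {p : GhPos} (hp : p.Ok a) : 0 ≤ ghAt a c p ∧ ghAt a c p ≤ c a :=
  ⟨gh_os_at_nonneg ha hc hp.2.2.1, (gh_os_at_le_top ha hc hp).trans (gh_os_at_top a c ha).le⟩

theorem gh_pk_Bd_intble (hn : 0 < n) (ha : 0 < a) {b h c0 c1 : ℝ → ℝ} (hbh : CkAdm a b h) (h0 : GhClk1 a c0) (h1 : GhClk1 a c1) :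
    IntervalIntegrable (fun u => skCB n a b h (ghPosA u) * (c1 u - c0 u)) volume 0 a :=
  gh_pk_mul_intble ha.le (gh_pk_CB_intble ha hbh) ((gh_pk_clk_intble ha.le h1).sub (gh_pk_clk_intble ha.le h0))
    fun _ hu => gh_pk_CB_abs hn ha hbh (gh_os_posA_ok hu.1 hu.2)

theorem gh_pk_Sd_intble (hn : 0 < n) (ha : 0 < a) {b h c0 c1 : ℝ → ℝ} (hbh : CkAdm a b h) (h0 : GhClk1 a c0) (h1 : GhClk1 a c1) :
    IntervalIntegrable (fun u => skCS n a b h (ghPosA u) * (c1 u - c0 u)) volume 0 a :=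
  gh_pk_mul_intble ha.le (gh_pk_CS_intble ha hbh) ((gh_pk_clk_intble ha.le h1).sub (gh_pk_clk_intble ha.le h0))
    fun _ hu => gh_pk_CS_abs hn ha hbh (gh_os_posA_ok hu.1 hu.2)

/-! ### 6. the two terms of the general derivative in the SK model -/

theorem gh_pk_lin {S ι : Type} [Fintype S] [Fintype ι] {B : GhB S} (hB : B.Ok) (Φ : S → ι → ℝ) {v : ι → ℝ → ℝ}
    (hv : GhClk B.a v) (z : S → ℝ) {q : ℕ} {τ : ℕ → ℕ → WithTop GhPos} (hτ : GhIsRT B.a q τ) (P1 P2 : (Fin q → S) → ℝ)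
    (c1 c2 : ℝ) :
    ghCNu B Φ v z q τ (fun σ => c1 * P1 σ + c2 * P2 σ) = c1 * ghCNu B Φ v z q τ P1 + c2 * ghCNu B Φ v z q τ P2 := by
  rw [gh_pt_add_mul hB Φ hv z hτ (fun σ => c1 * P1 σ) P2 c2]
  have e : (fun σ => c1 * P1 σ) = fun σ => (fun _ : Fin q → S => (0 : ℝ)) σ + c1 * P1 σ := by
    funext σ; simp
  rw [e, gh_pt_add_mul hB Φ hv z hτ (fun _ => 0) P1 c1, gh_pt_const hB Φ hv]
  ring

theorem gh_pk_clkAt_sub (n : ℕ) (a : ℝ) (b0 h0 b1 h1 : ℝ → ℝ) (p : GhPos) :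
    (fun i => ghClkAt a (skClk n b1 h1) p i - ghClkAt a (skClk n b0 h0) p i)
      = Sum.elim (fun _ => ghAt a b1 p - ghAt a b0 p) fun _ => ghAt a h1 p - ghAt a h0 p := by
  funext i
  cases i <;> rfl

theorem gh_pk_nu2 (hn : 0 < n) (ha : 0 < a) {b h : ℝ → ℝ} (hbh : CkAdm a b h) {p : GhPos} (hp : p.Ok a) (db dh : ℝ) :
    ghCNu (skBase n a) (skPhi n) (skClk n b h) 0 2 (ghR2 p)
        (fun σ => ghKer (skPhi n) (Sum.elim (fun _ => db) fun _ => dh) (σ 0) (σ 1))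
      = n / 2 * db * skCB n a b h p + n * dh * skCS n a b h p := by
  have e : (fun σ : Fin 2 → SkCfg n => ghKer (skPhi n) (Sum.elim (fun _ => db) fun _ => dh) (σ 0) (σ 1))
      = fun σ => (n / 2 * db) * skOv (σ 0) (σ 1) ^ 2 + (n * dh) * skOv (σ 0) (σ 1) := by
    funext σ
    rw [gh_pk_ker hn]
    ring
  rw [e, gh_pk_lin (gh_pk_base_ok n ha) _ (gh_pk_clk n hbh) 0 (gh_pt_star_rt 2 hp), gh_pk_CB_eq, gh_pk_CS_eq]

theorem gh_pk_nu1 (hn : 0 < n) (ha : 0 < a) {b h : ℝ → ℝ} (hbh : CkAdm a b h) (τ : ℕ → ℕ → WithTop GhPos) (db dh : ℝ) :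
    ghCNu (skBase n a) (skPhi n) (skClk n b h) 0 1 τ
        (fun σ => ghKer (skPhi n) (Sum.elim (fun _ => db) fun _ => dh) (σ 0) (σ 0))
      = n * (db / 2 + dh) := by
  have e : (fun σ : Fin 1 → SkCfg n => ghKer (skPhi n) (Sum.elim (fun _ => db) fun _ => dh) (σ 0) (σ 0))
      = fun _ => n * (db / 2 + dh) := by
    funext σ
    rw [gh_pk_ker hn, gh_pk_ov_self hn]
    ring
  rw [e, gh_pt_const (gh_pk_base_ok n ha) _ (gh_pk_clk n hbh)]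

/-- off a null set the value after the jump is the value of the clock; on `(0,a]` -/
theorem gh_pk_at_ae (ha : 0 ≤ a) {c : ℝ → ℝ} (hc : GhClk1 a c) :
    ∀ᵐ u ∂(volume : Measure ℝ), u ∈ Ioc 0 a → ghAt a c (ghPosA u) = c u := by
  filter_upwards [brg_at_ae ha hc] with u hu hu'
  rcases hu'.2.lt_or_eq with h | h
  · exact hu ⟨hu'.1, h⟩
  · rw [h]; exact gh_os_at_top a c ha

/-! ### 7. the derivative of the pressure along a segment -/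

theorem gh_pk_pr_deriv1 (hn : 0 < n) (ha : 0 < a) {b0 h0 b1 h1 : ℝ → ℝ} (h0' : CkAdm a b0 h0) (h1' : CkAdm a b1 h1)
    {θ : ℝ} (hθ : θ ∈ Icc (0 : ℝ) 1) :
    HasDerivWithinAt (fun s => skCPr n a (ckSeg s b0 b1) (ckSeg s h0 h1)) (ckDPr n a b0 h0 b1 h1 θ) (Icc 0 1) θ := by
  have hn' : (n : ℝ) ≠ 0 := by exact_mod_cast hn.ne'
  have hadm := gh_pk_seg_adm h0' h1' hθ
  have key : HasDerivWithinAt (fun t => ghCPress (skBase n a) (skPhi n) (ghCSeg t (skClk n b0 h0) (skClk n b1 h1)) 0)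
      (a / 2 * ghCNu (skBase n a) (skPhi n) (ghCSeg θ (skClk n b0 h0) (skClk n b1 h1)) 0 1 (ghR2 (ghPosA a))
          (fun σ => ghKer (skPhi n) (fun i => ghClkAt a (skClk n b1 h1) (ghPosA a) i - ghClkAt a (skClk n b0 h0) (ghPosA a) i)
            (σ 0) (σ 0))
        - 1 / 2 * ∫ u in (0 : ℝ)..a, ghCNu (skBase n a) (skPhi n) (ghCSeg θ (skClk n b0 h0) (skClk n b1 h1)) 0 2 (ghR2 (ghPosA u))
          (fun σ => ghKer (skPhi n) (fun i => ghClkAt a (skClk n b1 h1) (ghPosA u) i - ghClkAt a (skClk n b0 h0) (ghPosA u) i)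
            (σ 0) (σ 1)))
      (Icc 0 1) θ :=
    exit_clkC3 (gh_pk_base_ok n ha) (skPhi n) (gh_pk_clk n h0') (gh_pk_clk n h1') 0 hθ
  have hlin : HasDerivWithinAt (fun s => a * (ckSeg s b0 b1 a / 4 + ckSeg s h0 h1 a / 2))
      (a * ((b1 a - b0 a) / 4 + (h1 a - h0 a) / 2)) (Icc 0 1) θ := by
    have e : (fun s => a * (ckSeg s b0 b1 a / 4 + ckSeg s h0 h1 a / 2))
        = fun s => a * (b0 a / 4 + h0 a / 2) + s * (a * ((b1 a - b0 a) / 4 + (h1 a - h0 a) / 2)) := by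
      funext s; unfold ckSeg; ring
    rw [e]
    have := ((hasDerivAt_id θ).mul_const (a * ((b1 a - b0 a) / 4 + (h1 a - h0 a) / 2))).const_add (a * (b0 a / 4 + h0 a / 2))
    simpa using this.hasDerivWithinAt
  have h3 := (key.div_const (n : ℝ)).sub hlin
  have hcongr : ∀ s ∈ Icc (0 : ℝ) 1, skCPr n a (ckSeg s b0 b1) (ckSeg s h0 h1)
      = ghCPress (skBase n a) (skPhi n) (ghCSeg s (skClk n b0 h0) (skClk n b1 h1)) 0 / n
        - a * (ckSeg s b0 b1 a / 4 + ckSeg s h0 h1 a / 2) := by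
    intro s hs
    rw [gh_pk_pr_eq ha (gh_pk_seg_adm h0' h1' hs), gh_pk_seg]
  refine (h3.congr hcongr (hcongr θ hθ)).congr_deriv ?_
  -- the value
  rw [gh_pk_clkAt_sub, ← gh_pk_seg, gh_pk_nu1 hn ha hadm, gh_os_at_top a _ ha.le, gh_os_at_top a _ ha.le,
    gh_os_at_top a _ ha.le, gh_os_at_top a _ ha.le]
  have hint : ∫ u in (0 : ℝ)..a, ghCNu (skBase n a) (skPhi n) (skClk n (ckSeg θ b0 b1) (ckSeg θ h0 h1)) 0 2 (ghR2 (ghPosA u))
          (fun σ => ghKer (skPhi n) (fun i => ghClkAt a (skClk n b1 h1) (ghPosA u) i - ghClkAt a (skClk n b0 h0) (ghPosA u) i)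
            (σ 0) (σ 1))
      = n / 2 * (∫ u in (0 : ℝ)..a, skCB n a (ckSeg θ b0 b1) (ckSeg θ h0 h1) (ghPosA u) * (b1 u - b0 u))
        + n * ∫ u in (0 : ℝ)..a, skCS n a (ckSeg θ b0 b1) (ckSeg θ h0 h1) (ghPosA u) * (h1 u - h0 u) := by
    rw [← intervalIntegral.integral_const_mul, ← intervalIntegral.integral_const_mul,
      ← intervalIntegral.integral_add ((gh_pk_Bd_intble hn ha hadm h0'.1 h1'.1).const_mul _)
        ((gh_pk_Sd_intble hn ha hadm h0'.2 h1'.2).const_mul _)]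
    refine intervalIntegral.integral_congr_ae ?_
    rw [uIoc_of_le ha.le]
    filter_upwards [gh_pk_at_ae ha.le h0'.1, gh_pk_at_ae ha.le h0'.2, gh_pk_at_ae ha.le h1'.1, gh_pk_at_ae ha.le h1'.2]
      with u e1 e2 e3 e4 hu
    rw [gh_pk_clkAt_sub, gh_pk_nu2 hn ha hadm (gh_os_posA_ok hu.1.le hu.2), e1 hu, e2 hu, e3 hu, e4 hu]
    ring
  rw [hint]
  unfold ckDPr
  field_simp
  ring

/-! ### 8. the derivative is Lipschitz in `θ` -/

theorem gh_pk_ker_bd (hn : 0 < n) (db dh : ℝ) (σ τ : SkCfg n) :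
    |ghKer (skPhi n) (Sum.elim (fun _ => db) fun _ => dh) σ τ| ≤ n * (|db| / 2 + |dh|) := by
  have hn' : (0 : ℝ) < n := by exact_mod_cast hn
  rw [gh_pk_ker hn, abs_mul, abs_of_pos hn']
  refine mul_le_mul_of_nonneg_left ?_ hn'.le
  have h1 := gh_pk_ov_sq_abs hn σ τ
  have h2 := gh_pk_ov_abs hn σ τ
  calc |db * skOv σ τ ^ 2 / 2 + dh * skOv σ τ| ≤ |db * skOv σ τ ^ 2 / 2| + |dh * skOv σ τ| := abs_add_le _ _
    _ = |db| * |skOv σ τ ^ 2| / 2 + |dh| * |skOv σ τ| := by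
        rw [abs_div, abs_mul, abs_mul, abs_of_pos (two_pos : (0 : ℝ) < 2)]
    _ ≤ |db| * 1 / 2 + |dh| * 1 := by
        gcongr
    _ = |db| / 2 + |dh| := by ring

/-- the constant of the Lipschitz bounds in `θ` -/
noncomputable def ghPkL (n : ℕ) (a : ℝ) (b0 h0 b1 h1 : ℝ → ℝ) : ℝ :=
  12 * a ^ 2 * (n * ((b0 a + b1 a) / 2 + (h0 a + h1 a)))

theorem gh_pk_at_seg_sub (ha : 0 ≤ a) {c0 c1 : ℝ → ℝ} (h0 : GhClk1 a c0) (h1 : GhClk1 a c1) (θ θ' : ℝ) {p : GhPos}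
    (hp : p.Ok a) : |ghAt a (ckSeg θ' c0 c1) p - ghAt a (ckSeg θ c0 c1) p| ≤ |θ' - θ| * (c0 a + c1 a) := by
  have e : ∀ t, ghAt a (ckSeg t c0 c1) p = (1 - t) * ghAt a c0 p + t * ghAt a c1 p := fun t => brg_at_seg ha h0 h1 t p
  rw [e, e]
  have e2 : (1 - θ') * ghAt a c0 p + θ' * ghAt a c1 p - ((1 - θ) * ghAt a c0 p + θ * ghAt a c1 p)
      = (θ' - θ) * (ghAt a c1 p - ghAt a c0 p) := by ring
  rw [e2, abs_mul]
  refine mul_le_mul_of_nonneg_left ?_ (abs_nonneg _)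
  have b0 := gh_pk_at_bd ha h0 hp
  have b1 := gh_pk_at_bd ha h1 hp
  rw [abs_le]
  constructor <;> linarith [b0.1, b0.2, b1.1, b1.2]

theorem gh_pk_nu_lip (hn : 0 < n) (ha : 0 < a) {b0 h0 b1 h1 : ℝ → ℝ} (h0' : CkAdm a b0 h0) (h1' : CkAdm a b1 h1)
    {θ θ' : ℝ} (hθ : θ ∈ Icc (0 : ℝ) 1) (hθ' : θ' ∈ Icc (0 : ℝ) 1) {p : GhPos} (hp : p.Ok a)
    (P : (Fin 2 → SkCfg n) → ℝ) (hP : ∀ σ, |P σ| ≤ 1) :
    |skCNu n a (ckSeg θ' b0 b1) (ckSeg θ' h0 h1) 2 (ghR2 p) P - skCNu n a (ckSeg θ b0 b1) (ckSeg θ h0 h1) 2 (ghR2 p) P|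
      ≤ ghPkL n a b0 h0 b1 h1 * |θ' - θ| := by
  have hn' : (0 : ℝ) < n := by exact_mod_cast hn
  have hb0 := (gh_pk_clk_bd ha.le h0'.1 ⟨ha.le, le_rfl⟩).1
  have hb1 := (gh_pk_clk_bd ha.le h1'.1 ⟨ha.le, le_rfl⟩).1
  have hh0 := (gh_pk_clk_bd ha.le h0'.2 ⟨ha.le, le_rfl⟩).1
  have hh1 := (gh_pk_clk_bd ha.le h1'.2 ⟨ha.le, le_rfl⟩).1
  rw [sk_c_nu_eq, sk_c_nu_eq]
  have h := gh_pt_lip_nu (gh_pk_base_ok n ha) (skPhi n) (gh_pk_clk n (gh_pk_seg_adm h0' h1' hθ))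
    (gh_pk_clk n (gh_pk_seg_adm h0' h1' hθ')) (M := |θ' - θ| * (n * ((b0 a + b1 a) / 2 + (h0 a + h1 a))))
    (by positivity) (fun r hr s t => ?_) 0 (gh_pt_star_rt 2 hp) P hP
  · refine h.trans (le_of_eq ?_)
    unfold ghPkL
    have : (skBase n a).a = a := rfl
    rw [this]
    push_cast
    ring
  · have hr' : r.Ok a := hr
    have : (skBase n a).a = a := rfl
    rw [this, gh_pk_clkAt_sub]
    refine (gh_pk_ker_bd hn _ _ s t).trans ?_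
    have e1 := gh_pk_at_seg_sub ha.le h0'.1 h1'.1 θ θ' hr'
    have e2 := gh_pk_at_seg_sub ha.le h0'.2 h1'.2 θ θ' hr'
    have e3 : |θ' - θ| * (n * ((b0 a + b1 a) / 2 + (h0 a + h1 a)))
        = n * ((|θ' - θ| * (b0 a + b1 a)) / 2 + |θ' - θ| * (h0 a + h1 a)) := by ring
    rw [e3]
    refine mul_le_mul_of_nonneg_left ?_ hn'.le
    linarith

theorem gh_pk_L_nonneg (ha : 0 < a) {b0 h0 b1 h1 : ℝ → ℝ} (h0' : CkAdm a b0 h0) (h1' : CkAdm a b1 h1) :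
    0 ≤ ghPkL n a b0 h0 b1 h1 := by
  have hb0 := (gh_pk_clk_bd ha.le h0'.1 ⟨ha.le, le_rfl⟩).1
  have hb1 := (gh_pk_clk_bd ha.le h1'.1 ⟨ha.le, le_rfl⟩).1
  have hh0 := (gh_pk_clk_bd ha.le h0'.2 ⟨ha.le, le_rfl⟩).1
  have hh1 := (gh_pk_clk_bd ha.le h1'.2 ⟨ha.le, le_rfl⟩).1
  unfold ghPkL
  positivity

/-- one of the two integrals of `ckDPr`: Lipschitz in `θ` -/
theorem gh_pk_int_lip (ha : 0 < a) {f f' d : ℝ → ℝ} (hf : IntervalIntegrable (fun u => f u * d u) volume 0 a)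
    (hf' : IntervalIntegrable (fun u => f' u * d u) volume 0 a) {L K : ℝ} (hL : ∀ u ∈ Icc 0 a, |f' u - f u| ≤ L)
    (hK : ∀ u ∈ Icc 0 a, |d u| ≤ K) :
    |(∫ u in (0 : ℝ)..a, f' u * d u) - ∫ u in (0 : ℝ)..a, f u * d u| ≤ L * K * a := by
  rw [← intervalIntegral.integral_sub hf' hf]
  have h := intervalIntegral.norm_integral_le_of_norm_le_const (a := 0) (b := a) (C := L * K)
    (f := fun u => f' u * d u - f u * d u) (fun u hu => ?_)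
  · rw [Real.norm_eq_abs, sub_zero, abs_of_pos ha] at h
    exact h
  · rw [uIoc_of_le ha.le] at hu
    have hu' : u ∈ Icc 0 a := ⟨hu.1.le, hu.2⟩
    rw [Real.norm_eq_abs, ← sub_mul, abs_mul]
    exact mul_le_mul (hL u hu') (hK u hu') (abs_nonneg _) ((abs_nonneg _).trans (hL u hu'))

theorem gh_pk_d_bd (ha : 0 ≤ a) {c0 c1 : ℝ → ℝ} (h0 : GhClk1 a c0) (h1 : GhClk1 a c1) {u : ℝ} (hu : u ∈ Icc 0 a) :
    |c1 u - c0 u| ≤ c0 a + c1 a := by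
  have b0 := gh_pk_clk_bd ha h0 hu
  have b1 := gh_pk_clk_bd ha h1 hu
  rw [abs_le]
  constructor <;> linarith [b0.1, b0.2, b1.1, b1.2]

theorem gh_pk_DPr_lip (hn : 0 < n) (ha : 0 < a) {b0 h0 b1 h1 : ℝ → ℝ} (h0' : CkAdm a b0 h0) (h1' : CkAdm a b1 h1)
    {θ θ' : ℝ} (hθ : θ ∈ Icc (0 : ℝ) 1) (hθ' : θ' ∈ Icc (0 : ℝ) 1) :
    |ckDPr n a b0 h0 b1 h1 θ' - ckDPr n a b0 h0 b1 h1 θ|
      ≤ (ghPkL n a b0 h0 b1 h1 * a * ((b0 a + b1 a) / 4 + (h0 a + h1 a) / 2)) * |θ' - θ| := by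
  have hadm := gh_pk_seg_adm h0' h1' hθ
  have hadm' := gh_pk_seg_adm h0' h1' hθ'
  have hB := gh_pk_int_lip ha (gh_pk_Bd_intble hn ha hadm h0'.1 h1'.1) (gh_pk_Bd_intble hn ha hadm' h0'.1 h1'.1)
    (L := ghPkL n a b0 h0 b1 h1 * |θ' - θ|) (K := b0 a + b1 a)
    (fun u hu => gh_pk_nu_lip hn ha h0' h1' hθ hθ' (gh_os_posA_ok hu.1 hu.2) _ fun σ => gh_pk_ov_sq_abs hn _ _)
    (fun u hu => gh_pk_d_bd ha.le h0'.1 h1'.1 hu)
  have hS := gh_pk_int_lip ha (gh_pk_Sd_intble hn ha hadm h0'.2 h1'.2) (gh_pk_Sd_intble hn ha hadm' h0'.2 h1'.2)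
    (L := ghPkL n a b0 h0 b1 h1 * |θ' - θ|) (K := h0 a + h1 a)
    (fun u hu => gh_pk_nu_lip hn ha h0' h1' hθ hθ' (gh_os_posA_ok hu.1 hu.2) _ fun σ => gh_pk_ov_abs hn _ _)
    (fun u hu => gh_pk_d_bd ha.le h0'.2 h1'.2 hu)
  unfold ckDPr
  rw [abs_le] at hB hS ⊢
  constructor <;> nlinarith [hB.1, hB.2, hS.1, hS.2]

theorem gh_pk_DPr_cont (hn : 0 < n) (ha : 0 < a) {b0 h0 b1 h1 : ℝ → ℝ} (h0' : CkAdm a b0 h0) (h1' : CkAdm a b1 h1) :
    ContinuousOn (ckDPr n a b0 h0 b1 h1) (Icc 0 1) := by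
  refine (LipschitzOnWith.of_dist_le_mul
    (K := Real.toNNReal (ghPkL n a b0 h0 b1 h1 * a * ((b0 a + b1 a) / 4 + (h0 a + h1 a) / 2))) fun x hx y hy => ?_).continuousOn
  rw [Real.dist_eq, Real.dist_eq]
  refine (gh_pk_DPr_lip hn ha h0' h1' hy hx).trans ?_
  exact mul_le_mul_of_nonneg_right (Real.le_coe_toNNReal _) (abs_nonneg _)

/-- = `exit_clk_pr_deriv` -/
theorem gh_pk_pr_deriv (hn : 0 < n) (ha : 0 < a) {b0 h0 b1 h1 : ℝ → ℝ} (h0' : CkAdm a b0 h0) (h1' : CkAdm a b1 h1) :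
    (∀ θ ∈ Icc (0 : ℝ) 1,
      HasDerivWithinAt (fun s => skCPr n a (ckSeg s b0 b1) (ckSeg s h0 h1)) (ckDPr n a b0 h0 b1 h1 θ) (Icc 0 1) θ) ∧
    ContinuousOn (ckDPr n a b0 h0 b1 h1) (Icc 0 1) :=
  ⟨fun _ hθ => gh_pk_pr_deriv1 hn ha h0' h1' hθ, gh_pk_DPr_cont hn ha h0' h1'⟩

/-! ### 9. the `L¹` Lipschitz bound -/

theorem gh_pk_int_abs (ha : 0 < a) {f d : ℝ → ℝ} (hf : IntervalIntegrable (fun u => f u * d u) volume 0 a)
    (hd : IntervalIntegrable d volume 0 a) (h1 : ∀ u ∈ Icc 0 a, |f u| ≤ 1) :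
    |∫ u in (0 : ℝ)..a, f u * d u| ≤ ∫ u in (0 : ℝ)..a, |d u| := by
  refine (intervalIntegral.abs_integral_le_integral_abs ha.le).trans ?_
  refine intervalIntegral.integral_mono_on ha.le hf.abs hd.abs fun u hu => ?_
  rw [abs_mul]
  exact mul_le_of_le_one_left (abs_nonneg _) (h1 u hu)

theorem gh_pk_DPr_abs (hn : 0 < n) (ha : 0 < a) {b0 h0 b1 h1 : ℝ → ℝ} (h0' : CkAdm a b0 h0) (h1' : CkAdm a b1 h1)
    {θ : ℝ} (hθ : θ ∈ Icc (0 : ℝ) 1) :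
    |ckDPr n a b0 h0 b1 h1 θ| ≤ (1 / 4) * (∫ u in (0 : ℝ)..a, |b1 u - b0 u|) + (1 / 2) * ∫ u in (0 : ℝ)..a, |h1 u - h0 u| := by
  have hadm := gh_pk_seg_adm h0' h1' hθ
  have hB := gh_pk_int_abs ha (gh_pk_Bd_intble hn ha hadm h0'.1 h1'.1)
    ((gh_pk_clk_intble ha.le h1'.1).sub (gh_pk_clk_intble ha.le h0'.1))
    fun u hu => gh_pk_CB_abs hn ha hadm (gh_os_posA_ok hu.1 hu.2)
  have hS := gh_pk_int_abs ha (gh_pk_Sd_intble hn ha hadm h0'.2 h1'.2)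
    ((gh_pk_clk_intble ha.le h1'.2).sub (gh_pk_clk_intble ha.le h0'.2))
    fun u hu => gh_pk_CS_abs hn ha hadm (gh_os_posA_ok hu.1 hu.2)
  unfold ckDPr
  rw [abs_le] at hB hS ⊢
  constructor <;> linarith [hB.1, hB.2, hS.1, hS.2]

theorem gh_pk_seg_zero (c0 c1 : ℝ → ℝ) : ckSeg 0 c0 c1 = c0 := by
  funext u; simp [ckSeg]

theorem gh_pk_seg_one (c0 c1 : ℝ → ℝ) : ckSeg 1 c0 c1 = c1 := by
  funext u; simp [ckSeg]

/-- = `exit_clk_pr_lip` -/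
theorem gh_pk_pr_lip (hn : 0 < n) (ha : 0 < a) {b h b' h' : ℝ → ℝ} (h1 : CkAdm a b h) (h2 : CkAdm a b' h') :
    |skCPr n a b h - skCPr n a b' h'|
      ≤ (1 / 4) * (∫ u in (0 : ℝ)..a, |b u - b' u|) + (1 / 2) * ∫ u in (0 : ℝ)..a, |h u - h' u| := by
  have key := Convex.norm_image_sub_le_of_norm_hasDerivWithin_le (𝕜 := ℝ)
    (f := fun s => skCPr n a (ckSeg s b' b) (ckSeg s h' h)) (f' := ckDPr n a b' h' b h) (s := Icc (0 : ℝ) 1)
    (C := (1 / 4) * (∫ u in (0 : ℝ)..a, |b u - b' u|) + (1 / 2) * ∫ u in (0 : ℝ)..a, |h u - h' u|)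
    (fun θ hθ => gh_pk_pr_deriv1 hn ha h2 h1 hθ)
    (fun θ hθ => by rw [Real.norm_eq_abs]; exact gh_pk_DPr_abs hn ha h2 h1 hθ) (convex_Icc 0 1)
    (x := 0) (y := 1) ⟨le_rfl, zero_le_one⟩ ⟨zero_le_one, le_rfl⟩
  simp only [gh_pk_seg_zero, gh_pk_seg_one, sub_zero, norm_one, mul_one, Real.norm_eq_abs] at key
  exact key

theorem gh_pk_eqns_cite : True := by
  have := @ghPkL.eq_1
  trivial

end Claimed.Agent.R286
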