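import Claimed.Agent.R286.Fd.ObsU
import Claimed.Agent.R286.Brg.Pos

/-!
# Row 286 (S0533), unit BRIDGE, block H STAT : FINITE IDENTITIES      (owner helper226; prefix `brg_sf_`)

Generic finite hierarchies `(B, ls)`, `N = ls.length`.
* `brgM2 B ls k v w z = E[E_k v E_k w]` (cut `k ≤ N`; `k = N + 1`: `E[v w]`) as a function of the root field;
* `brgGp B ls k`      length in mass of the cut `k`;
* **`brg_sf_abel`**, **`brg_sf_abel_drop`**   summation by parts of the recursion of `ghH`:
  `H = a E[vw] - ∑_k gap_k E[E_k v E_k w]`; at the cut `j`: the cuts `k ≤ j` add up to the mass `m_j` (`max k j`);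
* **`brg_sf_two`**     two leaves which share `k` stages: `ν[v(σ⁰) w(σ¹)] = brgM2 .. k`;
* **`brg_sf_four`**    four leaves, `{0,1}` share `max k j`, `{2,3}` share `max k' j`, the pairs share `j`.
-/

set_option autoImplicit false
set_option linter.unusedSectionVars false

namespace Claimed.Agent.R286

open MeasureTheory Filter

section
variable {S ι : Type} [Fintype S] [Fintype ι]

/-- `E[E_k v E_k w]` as a function of the root field (`k > length`: `E[v w]`) -/
noncomputable def brgM2 (B : GhB S) (ls : List (GhLv S ι)) (k : ℕ) (v w : S → ℝ) (z : S → ℝ) : ℝ :=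
  if k ≤ ls.length then obuIt B ls k (fun G => ghE B (ls.drop k) v G * ghE B (ls.drop k) w G) z
  else ghE B ls (fun s => v s * w s) z

/-- length in mass of the cut `k` (after `k` revelations) -/
def brgGp (B : GhB S) (ls : List (GhLv S ι)) (k : ℕ) : ℝ := trMs B ls k - trPm (trMs B ls) k

theorem brg_sf_eqns_cite : True := by
  have := @brgM2.eq_1
  have := @brgGp.eq_1
  trivial

theorem brg_sf_M2_zero (B : GhB S) (ls : List (GhLv S ι)) (v w : S → ℝ) (z : S → ℝ) :
    brgM2 B ls 0 v w z = ghE B ls v z * ghE B ls w z := by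
  unfold brgM2
  rw [if_pos (Nat.zero_le _), obu_it_zero]
  simp

theorem brg_sf_M2_cons (B : GhB S) (l : GhLv S ι) (ls : List (GhLv S ι)) (k : ℕ) (v w : S → ℝ) :
    brgM2 B (l :: ls) (k + 1) v w = ghA B l ls (brgM2 B ls k v w) := by
  funext z
  unfold brgM2
  by_cases hk : k ≤ ls.length
  · have hk' : k + 1 ≤ (l :: ls).length := by simpa using hk
    rw [if_pos hk']
    simp only [hk, if_true, obuIt, List.drop_succ_cons]
  · have hk' : ¬ k + 1 ≤ (l :: ls).length := by simpa using hk
    rw [if_neg hk']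
    simp only [hk, if_false]
    rfl

theorem brg_sf_M2_top (B : GhB S) (ls : List (GhLv S ι)) {k : ℕ} (hk : ls.length < k) (v w : S → ℝ) (z : S → ℝ) :
    brgM2 B ls k v w z = ghE B ls (fun s => v s * w s) z := by
  unfold brgM2
  rw [if_neg (by omega)]

theorem brg_sf_M2_bc {B : GhB S} (hB : B.Ok) {ls : List (GhLv S ι)} (hls : GhNn ls) (k : ℕ) (v w : S → ℝ) :
    ObuBC (brgM2 B ls k v w) := by
  by_cases hk : k ≤ ls.length
  · have e : brgM2 B ls k v w = obuIt B ls k (fun G => ghE B (ls.drop k) v G * ghE B (ls.drop k) w G) := by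
      funext z; unfold brgM2; rw [if_pos hk]
    rw [e]
    have hd : GhNn (ls.drop k) := fun l hl => hls l (List.mem_of_mem_drop hl)
    exact ⟨_, obu_it_bc hB hls k ((gh_b_E_bc' hB v hd).mul (gh_b_E_bc' hB w hd))⟩
  · have e : brgM2 B ls k v w = ghE B ls (fun s => v s * w s) := by
      funext z; unfold brgM2; rw [if_neg hk]
    rw [e]
    exact ⟨_, gh_b_E_bc' hB _ hls⟩

/-! ### the gaps -/

theorem brg_sf_ms_cons_zero (B : GhB S) (l : GhLv S ι) (ls : List (GhLv S ι)) : trMs B (l :: ls) 0 = l.m := by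
  simp [trMs]

theorem brg_sf_ms_cons_succ (B : GhB S) (l : GhLv S ι) (ls : List (GhLv S ι)) (k : ℕ) :
    trMs B (l :: ls) (k + 1) = trMs B ls k := by
  simp [trMs]

theorem brg_sf_gp_cons_zero (B : GhB S) (l : GhLv S ι) (ls : List (GhLv S ι)) : brgGp B (l :: ls) 0 = l.m := by
  simp [brgGp, trPm, brg_sf_ms_cons_zero]

theorem brg_sf_gp_cons_succ (B : GhB S) (l : GhLv S ι) (ls : List (GhLv S ι)) (k : ℕ) :
    brgGp B (l :: ls) (k + 1) = brgGp B ls k - if k = 0 then l.m else 0 := by
  unfold brgGp trPm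
  rw [brg_sf_ms_cons_succ]
  cases k with
  | zero => simp [brg_sf_ms_cons_zero]
  | succ k => simp [brg_sf_ms_cons_succ]

/-! ### linearity of one planted average over finite sums -/

theorem brg_sf_A_sum {B : GhB S} (hB : B.Ok) {l : GhLv S ι} {ls : List (GhLv S ι)} (h : GhNn (l :: ls)) {κ : Type}
    (t : Finset κ) (c : κ → ℝ) (g : κ → (S → ℝ) → ℝ) (hg : ∀ k ∈ t, ObuBC (g k)) (z : S → ℝ) :
    ghA B l ls (fun y => ∑ k ∈ t, c k * g k y) z = ∑ k ∈ t, c k * ghA B l ls (g k) z := by
  classical
  induction t using Finset.induction_on with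
  | empty => simpa using gh_b_A_const hB h 0 z
  | insert a t ha ih =>
    simp only [Finset.sum_insert ha]
    obtain ⟨M, hM⟩ := (hg a (Finset.mem_insert_self a t)).const_mul (c a)
    obtain ⟨M', hM'⟩ := ObuBC.sum t fun k hk => (hg k (Finset.mem_insert_of_mem hk)).const_mul (c k)
    rw [gh_b_A_add hB h hM hM', gh_b_A_const_mul, ih fun k hk => hg k (Finset.mem_insert_of_mem hk)]

/-- the recursion of `ghH` with the square expanded -/
theorem brg_sf_H_cons {B : GhB S} (hB : B.Ok) (v w : S → ℝ) {l : GhLv S ι} {ls : List (GhLv S ι)} (h : GhNn (l :: ls))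
    (z : S → ℝ) :
    ghH B (l :: ls) v w z = ghA B l ls (fun y => ghH B ls v w y + l.m * (ghE B ls v y * ghE B ls w y)) z
      - l.m * (ghE B (l :: ls) v z * ghE B (l :: ls) w z) := by
  obtain ⟨M, hM⟩ := gh_b_H_bc hB v w h.tail
  rw [gh_b_H_cons]
  set ev := ghE B (l :: ls) v z with hev
  set ew := ghE B (l :: ls) w z with hew
  have bv := gh_b_E_bc' hB v h.tail
  have bw := gh_b_E_bc' hB w h.tail
  have e1 : (fun y => ghH B ls v w y + l.m * ghQ B l ls v w z y)
      = fun y => (ghH B ls v w y + l.m * (ghE B ls v y * ghE B ls w y))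
        - ((l.m * ev) * ghE B ls w y + (l.m * ew) * ghE B ls v y) + l.m * (ev * ew) := by
    funext y
    simp only [ghQ, ← hev, ← hew]
    ring
  have b1 := hM.add ((bv.mul bw).const_mul l.m)
  have b2 := bw.const_mul (l.m * ev)
  have b3 := bv.const_mul (l.m * ew)
  rw [e1, gh_b_A_add hB h (b1.sub (b2.add b3)) (gh_b_bc_const _),
    gh_b_A_sub hB h b1 (b2.add b3), gh_b_A_add hB h b2 b3, gh_b_A_const_mul,
    gh_b_A_const_mul, gh_b_A_const hB h, ← gh_b_E_cons, ← gh_b_E_cons, ← hev, ← hew]
  ring

/-- **summation by parts** of the recursion of the Hessian -/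
theorem brg_sf_abel {B : GhB S} (hB : B.Ok) (v w : S → ℝ) : ∀ {ls : List (GhLv S ι)}, GhNn ls → ∀ z,
    ghH B ls v w z = B.a * brgM2 B ls (ls.length + 1) v w z
      - ∑ k ∈ Finset.range (ls.length + 1), brgGp B ls k * brgM2 B ls k v w z
  | [], _, z => by
      rw [gh_b_H_nil, brg_sf_M2_top B [] (by simp)]
      simp only [List.length_nil, zero_add, Finset.range_one, Finset.sum_singleton, brg_sf_M2_zero]
      simp only [brgGp, trPm, trMs, ghC]
      simp
      ring
  | l :: ls, h, z => by
      rw [brg_sf_H_cons hB v w h]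
      have ih : (fun y => ghH B ls v w y + l.m * (ghE B ls v y * ghE B ls w y))
          = fun y => ∑ k ∈ Finset.range (ls.length + 2),
              (if k = ls.length + 1 then B.a else -(brgGp B ls k - if k = 0 then l.m else 0)) * brgM2 B ls k v w y := by
        funext y
        rw [brg_sf_abel hB v w h.tail y, Finset.sum_range_succ _ (ls.length + 1), if_pos rfl]
        have e : ∀ k ∈ Finset.range (ls.length + 1),
            (if k = ls.length + 1 then B.a else -(brgGp B ls k - if k = 0 then l.m else 0)) * brgM2 B ls k v w y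
              = -(brgGp B ls k * brgM2 B ls k v w y) + (if k = 0 then l.m * brgM2 B ls k v w y else 0) := by
          intro k hk
          rw [if_neg (by have := Finset.mem_range.1 hk; omega)]
          split_ifs <;> ring
        rw [Finset.sum_congr rfl e, Finset.sum_add_distrib, Finset.sum_neg_distrib,
          Finset.sum_ite_eq' (Finset.range (ls.length + 1)) 0, if_pos (Finset.mem_range.2 (Nat.succ_pos _)),
          brg_sf_M2_zero]
        ring
      rw [ih, brg_sf_A_sum hB h _ _ _ (fun k _ => brg_sf_M2_bc hB h.tail k v w)]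
      simp only [← brg_sf_M2_cons]
      rw [Finset.sum_range_succ _ (ls.length + 1), if_pos rfl]
      have hlen : (l :: ls).length = ls.length + 1 := rfl
      rw [hlen, Finset.sum_range_succ' _ (ls.length + 1), brg_sf_gp_cons_zero, brg_sf_M2_zero]
      have e : ∀ k ∈ Finset.range (ls.length + 1),
          (if k = ls.length + 1 then B.a else -(brgGp B ls k - if k = 0 then l.m else 0)) * brgM2 B (l :: ls) (k + 1) v w z
            = -(brgGp B (l :: ls) (k + 1) * brgM2 B (l :: ls) (k + 1) v w z) := by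
        intro k hk
        rw [if_neg (by have := Finset.mem_range.1 hk; omega), brg_sf_gp_cons_succ]
        ring
      rw [Finset.sum_congr rfl e, Finset.sum_neg_distrib]
      ring

/-- the same at the cut `j`: the cuts `k ≤ j` add up to the mass of the next revelation -/
theorem brg_sf_abel_drop {B : GhB S} (hB : B.Ok) (v w : S → ℝ) : ∀ (j : ℕ) {ls : List (GhLv S ι)}, GhNn ls → j ≤ ls.length →
    ∀ z, ghH B (ls.drop j) v w z = B.a * brgM2 B (ls.drop j) (ls.length + 1 - j) v w z
      - ∑ k ∈ Finset.range (ls.length + 1), brgGp B ls k * brgM2 B (ls.drop j) (max k j - j) v w z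
  | 0, ls, h, _, z => by
      simpa using brg_sf_abel hB v w h z
  | j + 1, [], _, hj, _ => by simp at hj
  | j + 1, l :: ls, h, hj, z => by
      have ih := brg_sf_abel_drop hB v w j h.tail (by simpa using hj) z
      simp only [List.drop_succ_cons]
      rw [ih]
      have hlen : (l :: ls).length = ls.length + 1 := rfl
      rw [hlen, Finset.sum_range_succ' _ (ls.length + 1), brg_sf_gp_cons_zero]
      have e : ∀ k ∈ Finset.range (ls.length + 1),
          brgGp B (l :: ls) (k + 1) * brgM2 B (ls.drop j) (max (k + 1) (j + 1) - (j + 1)) v w z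
            = brgGp B ls k * brgM2 B (ls.drop j) (max k j - j) v w z
              - (if k = 0 then l.m * brgM2 B (ls.drop j) (max k j - j) v w z else 0) := by
        intro k _
        rw [brg_sf_gp_cons_succ]
        have : max (k + 1) (j + 1) - (j + 1) = max k j - j := by omega
        rw [this]
        split_ifs <;> ring
      rw [Finset.sum_congr rfl e, Finset.sum_sub_distrib,
        Finset.sum_ite_eq' (Finset.range (ls.length + 1)) 0, if_pos (Finset.mem_range.2 (Nat.succ_pos _))]
      have e1 : max 0 (j + 1) - (j + 1) = 0 := by omega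
      have e2 : max 0 j - j = 0 := by omega
      have e3 : ls.length + 1 + 1 - (j + 1) = ls.length + 1 - j := by omega
      rw [e1, e2, e3]
      ring

/-- the weights of the Abel form: `- gap_k` at the cuts, `a` at the terminal draw -/
noncomputable def brgW (B : GhB S) (ls : List (GhLv S ι)) (k : ℕ) : ℝ := if k = ls.length + 1 then B.a else -brgGp B ls k

theorem brg_sf_W_eqns_cite : True := by
  have := @brgW.eq_1
  trivial

/-- the Hessian at the cut `j` as ONE signed sum -/
theorem brg_sf_abel_W {B : GhB S} (hB : B.Ok) (v w : S → ℝ) (j : ℕ) {ls : List (GhLv S ι)} (h : GhNn ls) (hj : j ≤ ls.length)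
    (z : S → ℝ) :
    ghH B (ls.drop j) v w z
      = ∑ k ∈ Finset.range (ls.length + 2), brgW B ls k * brgM2 B (ls.drop j) (max k j - j) v w z := by
  rw [brg_sf_abel_drop hB v w j h hj, Finset.sum_range_succ _ (ls.length + 1)]
  have e : ∀ k ∈ Finset.range (ls.length + 1), brgW B ls k * brgM2 B (ls.drop j) (max k j - j) v w z
      = -(brgGp B ls k * brgM2 B (ls.drop j) (max k j - j) v w z) := by
    intro k hk
    unfold brgW
    rw [if_neg (by have := Finset.mem_range.1 hk; omega)]
    ring
  rw [Finset.sum_congr rfl e, Finset.sum_neg_distrib]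
  have e1 : max (ls.length + 1) j - j = ls.length + 1 - j := by omega
  unfold brgW
  rw [if_pos rfl, e1]
  ring

/-- the conditional covariance at the cut `j` in the same form -/
theorem brg_sf_C_W (B : GhB S) (v w : S → ℝ) (j : ℕ) (ls : List (GhLv S ι)) (hj : j ≤ ls.length) (z : S → ℝ) :
    ghC B (ls.drop j) v w z
      = brgM2 B (ls.drop j) (max (ls.length + 1) j - j) v w z - brgM2 B (ls.drop j) (max 0 j - j) v w z := by
  have e2 : max 0 j - j = 0 := by omega
  rw [e2, brg_sf_M2_zero, brg_sf_M2_top B _ (by simp only [List.length_drop]; omega)]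
  rfl

/-- `trFld` of `Defs/Tr` is `obuIt` of `Fd/ObsU` -/
theorem brg_sf_fld (B : GhB S) : ∀ (ls : List (GhLv S ι)) (t : ℕ) (z : S → ℝ) (f : (S → ℝ) → ℝ),
    trFld B ls t z f = obuIt B ls t f z
  | [], _, _, _ => by simp [trFld, obuIt]
  | _ :: _, 0, _, _ => by simp [trFld, obuIt]
  | l :: ls, t + 1, z, f => by
      simp only [trFld, obuIt, ghA]
      simp_rw [brg_sf_fld B ls t]

end

/-! ### tree numbers -/

/-- four leaves: `{0,1}` share `max k j` stages, `{2,3}` share `max k' j` stages, the two pairs share `j` stages -/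
def brgT4 (N j k k' : ℕ) : ℕ → ℕ → ℕ := fun x y =>
  if x = y then N + 1 else if x < 2 ∧ y < 2 then max k j else if 2 ≤ x ∧ 2 ≤ y then max k' j else j

theorem brg_sf_T4_eqns_cite : True := by
  have := @brgT4.eq_1
  trivial

theorem brg_sf_T4_isTr {N j k k' : ℕ} (hj : j ≤ N + 1) (hk : k ≤ N + 1) (hk' : k' ≤ N + 1) : IsTr N 4 (brgT4 N j k k') where
  le := fun x y _ _ => by unfold brgT4; split_ifs <;> omega
  diag := fun x _ => by simp [brgT4]
  symm := fun x y _ _ => by
    unfold brgT4
    by_cases hxy : x = y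
    · subst hxy; rfl
    · have hyx : ¬ y = x := fun h => hxy h.symm
      simp only [hxy, hyx, if_false, and_comm]
  ultra := fun x y z hx hy hz => by
    unfold brgT4
    split_ifs <;> omega

section
variable {S ι : Type} [Fintype S] [Fintype ι] [Inhabited S]

/-- only the values of the table on the leaves matter -/
theorem brg_sf_nu_congr (B : GhB S) (ls : List (GhLv S ι)) {q : ℕ} {τ τ' : ℕ → ℕ → ℕ}
    (h : ∀ x y, x < q → y < q → τ x y = τ' x y) (z : S → ℝ) (P : (ℕ → S) → ℝ) :
    trNu B ls q τ z P = trNu B ls q τ' z P := by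
  unfold trNu
  have : (fun t => trRep q τ t) = fun t => trRep q τ' t := by
    funext t
    exact tr_e_rep_congr fun a b => by rw [h _ _ a.2 b.2]
  rw [this]

/-- one leaf -/
theorem brg_sf_one (B : GhB S) (ls : List (GhLv S ι)) (τ : ℕ → ℕ → ℕ) (z : S → ℝ) (φ : S → ℝ) :
    trNu B ls 1 τ z (fun σ => φ (σ 0)) = ghE B ls φ z := by
  unfold trNu
  have : (fun (_ : ℕ → Fin 1 → ι → ℝ) (σ : Fin 1 → S) => φ (trExt σ 0)) = fun _ σ => φ (σ 0) := by
    funext _ σ
    simp [trExt]
  rw [this, gh_n_one_spin]

/-- **two leaves** which share `k` stages -/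
theorem brg_sf_two {B : GhB S} (hB : B.Ok) (v w : S → ℝ) : ∀ (ls : List (GhLv S ι)), GhNn ls → ∀ (k : ℕ), k ≤ ls.length + 1 →
    ∀ z, trNu B ls 2 (trT2 (ls.length + 1) k) z (fun σ => v (σ 0) * w (σ 1)) = brgM2 B ls k v w z
  | ls, h, 0, _, z => by
      have hτ : IsTr ls.length 2 (trT2 (ls.length + 1) 0) := gh_c4_T2_isTr (Nat.zero_le _) 2
      have hr1 : GhRepOk (fun (_ : ℕ) (a : Fin 1) => a) := ⟨fun _ _ => rfl, fun _ _ _ h => h⟩
      have key := gh_n_indep B hB ls h (fun _ : Fin 1 => (0 : Fin 2)) (fun _ : Fin 1 => (1 : Fin 2))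
        (fun t => trRep 2 (trT2 (ls.length + 1) 0) t) (fun _ a => a) (fun _ a => a) (tb2_repOk hτ) hr1 hr1
        (fun t a b => by simp [Subsingleton.elim a b]) (fun t a b => by simp [Subsingleton.elim a b])
        (fun a b hab => by
          rw [tb2_rep_iff hτ] at hab
          rcases hab with hab | hab
          · exact absurd hab (by decide)
          · simp [trT2] at hab)
        (fun _ => z) (fun _ _ _ => rfl) (fun _ σ => v (σ 0)) (fun _ σ => w (σ 0))
      rw [gh_n_one_spin, gh_n_one_spin] at key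
      rw [brg_sf_M2_zero, ← key]
      unfold trNu
      congr 1
  | [], h, k + 1, hk, z => by
      have hk0 : k = 0 := by simpa using hk
      subst hk0
      have hls : GhAdm B 0 ([] : List (GhLv S ι)) := ⟨List.Pairwise.nil, by simp⟩
      have hτ : IsTr ([] : List (GhLv S ι)).length 2 (trT2 (([] : List (GhLv S ι)).length + 1) (0 + 1)) :=
        gh_c4_T2_isTr (by simp) 2
      rw [tr_nu_coinc hB hls hτ z _ (x := 0) (y := 1) (by omega) (by omega) (by simp [trT2])]
      have h1 := tr_nu_comap hB hls hτ z (fun _ => 0) (p := 1) (fun _ _ => by omega) (fun σ => v (σ 0) * w (σ 0))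
        (fun σ σ' hσ => by simp only [hσ 0 (by omega)])
      have e : (fun σ : ℕ → S => v (Function.update σ 1 (σ 0) 0) * w (Function.update σ 1 (σ 0) 1))
          = fun σ => v (σ 0) * w (σ 0) := by
        funext σ
        simp
      rw [e, h1, brg_sf_one B _ _ z fun s => v s * w s, brg_sf_M2_top B _ (by simp)]
  | l :: ls, h, k + 1, hk, z => by
      rw [tr_b3_step hB h z _ (fun x y _ _ => by unfold trT2; split_ifs <;> omega), brg_sf_M2_cons]
      simp only [ghA]
      refine integral_congr_ae (Eventually.of_forall fun ξ => ?_)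
      simp only
      have e : (fun x y => trT2 ((l :: ls).length + 1) (k + 1) x y - 1) = trT2 (ls.length + 1) k := by
        funext x y
        unfold trT2
        split_ifs <;> simp
      rw [e, brg_sf_two hB v w ls h.tail k (by simpa using hk)]

theorem brg_sf_adm_drop {B : GhB S} {ls : List (GhLv S ι)} (hls : GhAdm B 0 ls) (j : ℕ) : GhAdm B 0 (ls.drop j) :=
  ⟨hls.1.sublist (List.drop_sublist j ls), fun l hl => hls.2 l (List.mem_of_mem_drop hl)⟩

/-- **four leaves** -/
theorem brg_sf_four {B : GhB S} (hB : B.Ok) {ls : List (GhLv S ι)} (hls : GhAdm B 0 ls) (v w v' w' : S → ℝ) {j k k' : ℕ}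
    (hj : j ≤ ls.length) (hk : k ≤ ls.length + 1) (hk' : k' ≤ ls.length + 1) (z : S → ℝ) :
    trNu B ls 4 (brgT4 ls.length j k k') z (fun σ => v (σ 0) * w (σ 1) * (v' (σ 2) * w' (σ 3)))
      = obuIt B ls j (fun G => brgM2 B (ls.drop j) (max k j - j) v w G * brgM2 B (ls.drop j) (max k' j - j) v' w' G) z := by
  rw [tr_nu_cut hB hls (brg_sf_T4_isTr (by omega) hk hk') z _ hj
    (fun x y _ _ => by unfold brgT4; split_ifs <;> omega), brg_sf_fld]
  congr 1
  funext G
  have hd : GhAdm B 0 (ls.drop j) := brg_sf_adm_drop hls j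
  have hlen : (ls.drop j).length = ls.length - j := List.length_drop
  have e : (fun x y => brgT4 ls.length j k k' x y - j)
      = brgT4 (ls.drop j).length 0 (max k j - j) (max k' j - j) := by
    funext x y
    rw [hlen]
    unfold brgT4
    split_ifs <;> omega
  rw [e]
  have hτ' : IsTr (ls.drop j).length 4 (brgT4 (ls.drop j).length 0 (max k j - j) (max k' j - j)) :=
    brg_sf_T4_isTr (by omega) (by omega) (by omega)
  rw [tr_nu_indep hB hd hτ' G (fun x => x < 2)
    (fun x y _ _ hx hy => by
      unfold brgT4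
      have hxy : x ≠ y := fun h => hy (h ▸ hx)
      rw [if_neg hxy, if_neg (fun h => hy h.2), if_neg (fun h => by omega)])
    (fun σ => v (σ 0) * w (σ 1)) (fun σ => v' (σ 2) * w' (σ 3))
    (fun σ σ' h => by simp only [h 0 (by omega) (by omega), h 1 (by omega) (by omega)])
    (fun σ σ' h => by simp only [h 2 (by omega) (by omega), h 3 (by omega) (by omega)])]
  congr 1
  · have h1 := tr_nu_comap hB hd hτ' G (fun x => x) (p := 2) (fun x hx => by omega) (fun σ => v (σ 0) * w (σ 1))
      (fun σ σ' hσ => by simp only [hσ 0 (by omega), hσ 1 (by omega)])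
    rw [h1, brg_sf_nu_congr B _ (τ' := trT2 ((ls.drop j).length + 1) (max k j - j)) (fun x y hx hy => by
      unfold brgT4 trT2
      split_ifs <;> omega), brg_sf_two hB v w _ (hd.ghNn le_rfl) _ (by omega)]
  · have h1 := tr_nu_comap hB hd hτ' G (fun x => x + 2) (p := 2) (fun x hx => by omega) (fun σ => v' (σ 0) * w' (σ 1))
      (fun σ σ' hσ => by simp only [hσ 0 (by omega), hσ 1 (by omega)])
    rw [show (fun σ : ℕ → S => v' (σ 2) * w' (σ 3)) = fun σ => (fun σ : ℕ → S => v' (σ 0) * w' (σ 1)) fun x => σ (x + 2) from rfl,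
      h1, brg_sf_nu_congr B _ (τ' := trT2 ((ls.drop j).length + 1) (max k' j - j)) (fun x y hx hy => by
      unfold brgT4 trT2
      split_ifs <;> omega), brg_sf_two hB v' w' _ (hd.ghNn le_rfl) _ (by omega)]

/-- linearity of the iterated planted average over finite sums -/
theorem brg_sf_it_sum {B : GhB S} (hB : B.Ok) {ls : List (GhLv S ι)} (hls : GhNn ls) (j : ℕ) {κ : Type}
    (t : Finset κ) (c : κ → ℝ) (g : κ → (S → ℝ) → ℝ) (hg : ∀ k ∈ t, ObuBC (g k)) (z : S → ℝ) :
    obuIt B ls j (fun y => ∑ k ∈ t, c k * g k y) z = ∑ k ∈ t, c k * obuIt B ls j (g k) z := by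
  classical
  induction t using Finset.induction_on with
  | empty =>
    have := obu_it_const_mul B ls j (fun _ => 0) 0 z
    simpa using this
  | insert a t ha ih =>
    simp only [Finset.sum_insert ha]
    rw [obu_it_add' hB hls j ((hg a (Finset.mem_insert_self a t)).const_mul (c a))
      (ObuBC.sum t fun k hk => (hg k (Finset.mem_insert_of_mem hk)).const_mul (c k)), obu_it_const_mul,
      ih fun k hk => hg k (Finset.mem_insert_of_mem hk)]

/-- **bilinear form**: the average at the cut `j` of a product of two signed sums of `brgM2` = signed double sum of four-leaf numbers -/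
theorem brg_sf_bilin {B : GhB S} (hB : B.Ok) {ls : List (GhLv S ι)} (hls : GhAdm B 0 ls) (v w v' w' : S → ℝ) {j : ℕ}
    (hj : j ≤ ls.length) (W W' : ℕ → ℝ) (z : S → ℝ) :
    obuIt B ls j (fun G => (∑ k ∈ Finset.range (ls.length + 2), W k * brgM2 B (ls.drop j) (max k j - j) v w G)
        * ∑ k' ∈ Finset.range (ls.length + 2), W' k' * brgM2 B (ls.drop j) (max k' j - j) v' w' G) z
      = ∑ k ∈ Finset.range (ls.length + 2), ∑ k' ∈ Finset.range (ls.length + 2), W k * W' k' *
          trNu B ls 4 (brgT4 ls.length j k k') z (fun σ => v (σ 0) * w (σ 1) * (v' (σ 2) * w' (σ 3))) := by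
  have hd : GhNn (ls.drop j) := (brg_sf_adm_drop hls j).ghNn le_rfl
  have e : (fun G => (∑ k ∈ Finset.range (ls.length + 2), W k * brgM2 B (ls.drop j) (max k j - j) v w G)
        * ∑ k' ∈ Finset.range (ls.length + 2), W' k' * brgM2 B (ls.drop j) (max k' j - j) v' w' G)
      = fun G => ∑ x ∈ Finset.range (ls.length + 2) ×ˢ Finset.range (ls.length + 2), (W x.1 * W' x.2) *
          (brgM2 B (ls.drop j) (max x.1 j - j) v w G * brgM2 B (ls.drop j) (max x.2 j - j) v' w' G) := by
    funext G
    rw [Finset.sum_mul_sum, Finset.sum_product]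
    exact Finset.sum_congr rfl fun k _ => Finset.sum_congr rfl fun k' _ => by ring
  rw [e, brg_sf_it_sum hB (hls.ghNn le_rfl) j _ _ _
    (fun x _ => (brg_sf_M2_bc hB hd _ v w).mul (brg_sf_M2_bc hB hd _ v' w')), Finset.sum_product]
  refine Finset.sum_congr rfl fun k hk => Finset.sum_congr rfl fun k' hk' => ?_
  rw [brg_sf_four hB hls v w v' w' hj (by have := Finset.mem_range.1 hk; omega)
    (by have := Finset.mem_range.1 hk'; omega)]

end

end Claimed.Agent.R286
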