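import Claimed.Agent.R286.Defs.Clk
import Claimed.Agent.R286.Defs.GhBasic
import Claimed.Agent.R286.Defs.SkLem
import Claimed.Agent.R286.Brg.Osc
import Claimed.Agent.R286.Gk.Split

/-!
# Row 286 (S0533), Brg/Step : A STEP CLOCK IS REACHED EXACTLY      (owner helper256; prefix `sk_stp_`, `gh_stp_`; sorry free)

PE Prop 2.14 (G0.d), pressure part.      Proves `exit_clk_step_pr` of `Exit/ClkLim.lean`.

* `sk_stp_clkB_cons`, `sk_stp_clk_below/above/nonneg/mono/right`     the clocks `skClkB P`, `skClkH P` of a step path (monotone, right continuous)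
* `gh_stp_drop`, `gh_stp_merge`, `sk_stp_drop`, `sk_stp_merge`       the two HEAD moves (from `Gk/Split.lean` of 135)
* `SkRed`, `sk_stp_red_unique`, `sk_stp_reduce`                      reduced form (strict masses, no empty revelation); it is determined by the clocks
* **`sk_stp_F_clk`, `sk_stp_pr_clk`** (Lemma G)                      `SkAdm a P`, `SkAdm a Q`, same clocks `=>` same continuation (every source `z`), same pressure
* `sk_stp_chain_adm`, `sk_stp_chain_clkB`                            the chain of two admissible clocks is admissible; its clock telescopes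
* `sk_stp_chain_F`                                                   a chain through the positions after all the jumps of a step clock has the clocks of the step path
* `gh_stp_lim_const`                                                 the limit operator on an eventually constant net
* **`sk_stp_pr`, `sk_stp_prS`**                                      `skCPr n a (skClkB P) (skClkH P) = skPr n a P` (+ `GhLimEx`), the same with a source
* `sk_stp_cpr_congr`                                                 `skCPr` depends only on the values of the clocks on `[0,a]`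
-/

set_option autoImplicit false

namespace Claimed.Agent.R286

open MeasureTheory ProbabilityTheory Filter Topology Set Function

noncomputable section

/-! ### the clocks of a step path -/

theorem sk_stp_clkB_nil (u : ℝ) : skClkB [] u = 0 := by simp [skClkB]
theorem sk_stp_clkH_nil (u : ℝ) : skClkH [] u = 0 := by simp [skClkH]

theorem sk_stp_clkB_cons (e : SkInc) (P : SkStp) (u : ℝ) :
    skClkB (e :: P) u = (if e.m ≤ u then e.db else 0) + skClkB P u := by
  unfold skClkB
  by_cases h : e.m ≤ u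
  · simp [h]
  · simp [h]

theorem sk_stp_clkH_cons (e : SkInc) (P : SkStp) (u : ℝ) :
    skClkH (e :: P) u = (if e.m ≤ u then e.dh else 0) + skClkH P u := by
  unfold skClkH
  by_cases h : e.m ≤ u
  · simp [h]
  · simp [h]

theorem sk_stp_adm_tail {a : ℝ} {e : SkInc} {P : SkStp} (h : SkAdm a (e :: P)) : SkAdm a P :=
  ⟨(List.pairwise_cons.1 h.1).2, fun f hf => h.2 f (List.mem_cons_of_mem _ hf)⟩

theorem sk_stp_adm_nil (a : ℝ) : SkAdm a [] := ⟨List.Pairwise.nil, fun _ h => absurd h List.not_mem_nil⟩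

/-- below all masses the clocks vanish -/
theorem sk_stp_clk_below : ∀ (P : SkStp) (u : ℝ), (∀ e ∈ P, u < e.m) → skClkB P u = 0 ∧ skClkH P u = 0
  | [], u, _ => ⟨sk_stp_clkB_nil u, sk_stp_clkH_nil u⟩
  | e :: P, u, h => by
      have h1 := sk_stp_clk_below P u fun f hf => h f (List.mem_cons_of_mem _ hf)
      have h2 : ¬ e.m ≤ u := not_le.2 (h e List.mem_cons_self)
      rw [sk_stp_clkB_cons, sk_stp_clkH_cons, if_neg h2, if_neg h2, h1.1, h1.2]
      simp

/-- above all masses the clocks are the totals -/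
theorem sk_stp_clk_above : ∀ (P : SkStp) (u : ℝ), (∀ e ∈ P, e.m ≤ u) → skClkB P u = skTotB P ∧ skClkH P u = skTotH P
  | [], u, _ => by simp [skClkB, skClkH, skTotB, skTotH]
  | e :: P, u, h => by
      have h1 := sk_stp_clk_above P u fun f hf => h f (List.mem_cons_of_mem _ hf)
      have h2 : e.m ≤ u := h e List.mem_cons_self
      rw [sk_stp_clkB_cons, sk_stp_clkH_cons, if_pos h2, if_pos h2, h1.1, h1.2]
      simp [skTotB, skTotH]

theorem sk_stp_clk_nonneg : ∀ (P : SkStp) (u : ℝ), (∀ e ∈ P, 0 ≤ e.db ∧ 0 ≤ e.dh) → 0 ≤ skClkB P u ∧ 0 ≤ skClkH P u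
  | [], u, _ => by rw [sk_stp_clkB_nil, sk_stp_clkH_nil]; exact ⟨le_rfl, le_rfl⟩
  | e :: P, u, h => by
      have h1 := sk_stp_clk_nonneg P u fun f hf => h f (List.mem_cons_of_mem _ hf)
      have h2 := h e List.mem_cons_self
      rw [sk_stp_clkB_cons, sk_stp_clkH_cons]
      constructor
      · split_ifs <;> linarith [h1.1, h2.1]
      · split_ifs <;> linarith [h1.2, h2.2]

theorem sk_stp_clk_mono : ∀ (P : SkStp), (∀ e ∈ P, 0 ≤ e.db ∧ 0 ≤ e.dh) → Monotone (skClkB P) ∧ Monotone (skClkH P)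
  | [], _ => by
      constructor <;> intro x y _
      · rw [sk_stp_clkB_nil, sk_stp_clkB_nil]
      · rw [sk_stp_clkH_nil, sk_stp_clkH_nil]
  | e :: P, h => by
      have h1 := sk_stp_clk_mono P fun f hf => h f (List.mem_cons_of_mem _ hf)
      have h2 := h e List.mem_cons_self
      constructor <;> intro x y hxy
      · rw [sk_stp_clkB_cons, sk_stp_clkB_cons]
        have := h1.1 hxy
        by_cases hx : e.m ≤ x
        · rw [if_pos hx, if_pos (hx.trans hxy)]; linarith
        · rw [if_neg hx]; split_ifs <;> linarith [h2.1]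
      · rw [sk_stp_clkH_cons, sk_stp_clkH_cons]
        have := h1.2 hxy
        by_cases hx : e.m ≤ x
        · rw [if_pos hx, if_pos (hx.trans hxy)]; linarith
        · rw [if_neg hx]; split_ifs <;> linarith [h2.2]

/-- the clocks of a step path are right continuous -/
theorem sk_stp_clk_right : ∀ (P : SkStp) (u : ℝ),
    Tendsto (skClkB P) (𝓝[>] u) (𝓝 (skClkB P u)) ∧ Tendsto (skClkH P) (𝓝[>] u) (𝓝 (skClkH P u))
  | [], u => by
      constructor
      · exact tendsto_const_nhds.congr fun x => by rw [sk_stp_clkB_nil, sk_stp_clkB_nil]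
      · exact tendsto_const_nhds.congr fun x => by rw [sk_stp_clkH_nil, sk_stp_clkH_nil]
  | e :: P, u => by
      have h1 := sk_stp_clk_right P u
      have key : ∀ d : ℝ, Tendsto (fun x : ℝ => if e.m ≤ x then d else 0) (𝓝[>] u) (𝓝 (if e.m ≤ u then d else 0)) := by
        intro d
        by_cases hu : e.m ≤ u
        · rw [if_pos hu]
          refine tendsto_const_nhds.congr' ?_
          filter_upwards [self_mem_nhdsWithin] with x hx
          rw [if_pos (hu.trans (le_of_lt hx))]
        · rw [if_neg hu]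
          refine tendsto_const_nhds.congr' ?_
          filter_upwards [Ioo_mem_nhdsGT (not_le.1 hu)] with x hx
          rw [if_neg (not_le.2 hx.2)]
      constructor
      · have := (key e.db).add h1.1
        rw [sk_stp_clkB_cons]
        exact this.congr fun x => (sk_stp_clkB_cons e P x).symm
      · have := (key e.dh).add h1.2
        rw [sk_stp_clkH_cons]
        exact this.congr fun x => (sk_stp_clkH_cons e P x).symm

/-! ### the two head moves -/

section gh

variable {S ι : Type} [Fintype S] [Fintype ι]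

/-- an empty level at the head drops -/
theorem gh_stp_drop (B : GhB S) (Φ : S → ι → ℝ) (m : ℝ) (ls : List (GhLv S ι)) (z : S → ℝ) :
    ghF B (ghLvF Φ m (fun _ => 0) :: ls) z = ghF B ls z := by
  have h0 : ∀ ξ : ι → ℝ, (ghLvF Φ m fun _ => 0).inc ξ = 0 := by
    intro ξ; funext s; simp [GhLv.inc, ghLvF]
  have : IsProbabilityMeasure (ghStd ι) := by unfold ghStd; infer_instance
  rw [ghF]
  simp only [h0, add_zero]
  unfold ghT
  have hm' : (ghLvF Φ m fun _ => 0 : GhLv S ι).m = m := rfl
  rw [hm']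
  by_cases hm : m = 0
  · rw [if_pos hm]; simp
  · rw [if_neg hm]; simp [Real.log_exp, hm]

/-- two levels of the same mass at the head merge -/
theorem gh_stp_merge {B : GhB S} (hB : B.Ok) (Φ : S → ι → ℝ) (m : ℝ) {d1 d2 : ι → ℝ}
    (h1 : ∀ i, 0 ≤ d1 i) (h2 : ∀ i, 0 ≤ d2 i) (ls : List (GhLv S ι)) (z : S → ℝ) :
    ghF B (ghLvF Φ m d1 :: ghLvF Φ m d2 :: ls) z = ghF B (ghLvF Φ m (fun i => d1 i + d2 i) :: ls) z := by
  have hcov : ∀ (d : ι → ℝ), (∀ i, 0 ≤ d i) → ∀ s t, (ghLvF Φ m d).cov s t = ∑ i, d i * (Φ s i * Φ t i) := by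
    intro d hd s t
    unfold GhLv.cov ghLvF
    refine Finset.sum_congr rfl fun i _ => ?_
    have := Real.mul_self_sqrt (hd i)
    calc Real.sqrt (d i) * Φ s i * (Real.sqrt (d i) * Φ t i) = (Real.sqrt (d i) * Real.sqrt (d i)) * (Φ s i * Φ t i) := by ring
      _ = _ := by rw [this]
  refine congrFun (ghs_F_merge hB (ghLvF Φ m d1) (ghLvF Φ m d2) (ghLvF Φ m fun i => d1 i + d2 i) ls rfl rfl fun s t => ?_) z
  rw [hcov _ (fun i => add_nonneg (h1 i) (h2 i)), hcov _ h1, hcov _ h2, ← Finset.sum_add_distrib]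
  exact Finset.sum_congr rfl fun i _ => by ring

end gh

theorem sk_stp_F_cons (n : ℕ) (a : ℝ) (e : SkInc) (P : SkStp) (z : SkCfg n → ℝ) :
    skF n a (e :: P) z = ghT (ghStd (SkDr n)) e.m fun ξ => skF n a P (z + (e.lv n).inc ξ) := rfl

theorem sk_stp_F_congr (n : ℕ) (a : ℝ) (e : SkInc) {P Q : SkStp} (h : ∀ z, skF n a P z = skF n a Q z) (z : SkCfg n → ℝ) :
    skF n a (e :: P) z = skF n a (e :: Q) z := by
  rw [sk_stp_F_cons, sk_stp_F_cons]
  simp only [h]

theorem sk_stp_drop (n : ℕ) (a m : ℝ) (P : SkStp) (z : SkCfg n → ℝ) : skF n a (⟨m, 0, 0⟩ :: P) z = skF n a P z := by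
  have h : (SkInc.lv n ⟨m, 0, 0⟩) = ghLvF (skPhi n) m fun _ => 0 := by
    unfold SkInc.lv
    congr 1
    funext i; cases i <;> rfl
  unfold skF skLvs
  rw [List.map_cons, h, gh_stp_drop]

theorem sk_stp_base_ok (n : ℕ) {a : ℝ} (ha : 0 < a) : (skBase n a).Ok := by
  refine ⟨fun s => ?_, ?_, ha⟩
  · simp only [skBase, ghUnif]; positivity
  · simp [skBase, ghUnif]

theorem sk_stp_merge (n : ℕ) {a : ℝ} (ha : 0 < a) (m : ℝ) {d1 e1 d2 e2 : ℝ} (hd1 : 0 ≤ d1) (he1 : 0 ≤ e1)
    (hd2 : 0 ≤ d2) (he2 : 0 ≤ e2) (P : SkStp) (z : SkCfg n → ℝ) :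
    skF n a (⟨m, d1, e1⟩ :: ⟨m, d2, e2⟩ :: P) z = skF n a (⟨m, d1 + d2, e1 + e2⟩ :: P) z := by
  have h : (SkInc.lv n ⟨m, d1 + d2, e1 + e2⟩) = ghLvF (skPhi n) m fun i =>
      (Sum.elim (fun _ => d1) fun _ => e1 : SkDr n → ℝ) i + (Sum.elim (fun _ => d2) fun _ => e2 : SkDr n → ℝ) i := by
    unfold SkInc.lv
    congr 1
    funext i; cases i <;> rfl
  unfold skF
  rw [skLvs, List.map_cons, List.map_cons, skLvs, List.map_cons, h]
  exact gh_stp_merge (sk_stp_base_ok n ha) (skPhi n) m (fun i => by cases i <;> assumption)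
    (fun i => by cases i <;> assumption) _ z

/-! ### reduced step paths -/

/-- reduced step path: strictly increasing masses, no empty revelation -/
def SkRed (P : SkStp) : Prop := P.Pairwise (fun e e' => e.m < e'.m) ∧ ∀ e ∈ P, e.db ≠ 0 ∨ e.dh ≠ 0

theorem sk_stp_eqns_cite : True := by
  have := @SkRed.eq_1
  trivial

theorem sk_stp_red_tail {e : SkInc} {P : SkStp} (h : SkRed (e :: P)) : SkRed P :=
  ⟨(List.pairwise_cons.1 h.1).2, fun f hf => h.2 f (List.mem_cons_of_mem _ hf)⟩

theorem sk_stp_red_head {e : SkInc} {P : SkStp} (h : SkRed (e :: P)) :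
    skClkB (e :: P) e.m = e.db ∧ skClkH (e :: P) e.m = e.dh := by
  have h1 := sk_stp_clk_below P e.m (List.pairwise_cons.1 h.1).1
  rw [sk_stp_clkB_cons, sk_stp_clkH_cons, if_pos le_rfl, if_pos le_rfl, h1.1, h1.2]
  simp

theorem sk_stp_red_below {e : SkInc} {P : SkStp} (h : SkRed (e :: P)) {u : ℝ} (hu : u < e.m) :
    skClkB (e :: P) u = 0 ∧ skClkH (e :: P) u = 0 := by
  refine sk_stp_clk_below _ u fun f hf => ?_
  rcases List.mem_cons.1 hf with rfl | hf
  · exact hu
  · exact hu.trans ((List.pairwise_cons.1 h.1).1 f hf)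

theorem sk_stp_red_not_lt {e f : SkInc} {P Q : SkStp} (hP : SkRed (e :: P)) (hQ : SkRed (f :: Q))
    (hB : skClkB (e :: P) = skClkB (f :: Q)) (hH : skClkH (e :: P) = skClkH (f :: Q)) : ¬ e.m < f.m := by
  intro hlt
  have h1 := sk_stp_red_head hP
  have h2 := sk_stp_red_below hQ hlt
  rw [hB, h2.1] at h1
  rw [hH, h2.2] at h1
  rcases hP.2 e List.mem_cons_self with h | h
  · exact h h1.1.symm
  · exact h h1.2.symm

/-- a reduced step path is determined by its clocks -/
theorem sk_stp_red_unique : ∀ (P Q : SkStp), SkRed P → SkRed Q → skClkB P = skClkB Q → skClkH P = skClkH Q → P = Q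
  | [], [], _, _, _, _ => rfl
  | [], f :: Q, _, hQ, hB, hH => by
      exfalso
      have h1 := sk_stp_red_head hQ
      rw [← hB, ← hH, sk_stp_clkB_nil, sk_stp_clkH_nil] at h1
      rcases hQ.2 f List.mem_cons_self with h | h
      · exact h h1.1.symm
      · exact h h1.2.symm
  | e :: P, [], hP, _, hB, hH => by
      exfalso
      have h1 := sk_stp_red_head hP
      rw [hB, hH, sk_stp_clkB_nil, sk_stp_clkH_nil] at h1
      rcases hP.2 e List.mem_cons_self with h | h
      · exact h h1.1.symm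
      · exact h h1.2.symm
  | e :: P, f :: Q, hP, hQ, hB, hH => by
      have hm : e.m = f.m :=
        le_antisymm (not_lt.1 (sk_stp_red_not_lt hQ hP hB.symm hH.symm)) (not_lt.1 (sk_stp_red_not_lt hP hQ hB hH))
      have h1 := sk_stp_red_head hP
      have h2 := sk_stp_red_head hQ
      rw [hB, hH, hm, h2.1, h2.2] at h1
      have hef : e = f := by
        cases e; cases f
        simp only at hm h1
        rw [hm, h1.1, h1.2]
      subst hef
      congr 1
      refine sk_stp_red_unique P Q (sk_stp_red_tail hP) (sk_stp_red_tail hQ) ?_ ?_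
      · funext u
        have := congrFun hB u
        rw [sk_stp_clkB_cons, sk_stp_clkB_cons] at this
        linarith
      · funext u
        have := congrFun hH u
        rw [sk_stp_clkH_cons, sk_stp_clkH_cons] at this
        linarith

/-- every admissible step path has a reduced form with the same clocks and the same continuation -/
theorem sk_stp_reduce (n : ℕ) {a : ℝ} (ha : 0 < a) : ∀ P : SkStp, SkAdm a P →
    ∃ R : SkStp, SkAdm a R ∧ SkRed R ∧ skClkB R = skClkB P ∧ skClkH R = skClkH P ∧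
      (∀ f ∈ R, ∃ e ∈ P, f.m = e.m) ∧ ∀ z, skF n a R z = skF n a P z
  | [], h => ⟨[], h, ⟨List.Pairwise.nil, fun _ h => absurd h List.not_mem_nil⟩, rfl, rfl,
      fun _ h => absurd h List.not_mem_nil, fun _ => rfl⟩
  | e :: P, h => by
      obtain ⟨R, hRa, hRr, hRB, hRH, hRm, hRF⟩ := sk_stp_reduce n ha P (sk_stp_adm_tail h)
      have he := h.2 e List.mem_cons_self
      have hle : ∀ f ∈ R, e.m ≤ f.m := by
        intro f hf
        obtain ⟨e', he', hm⟩ := hRm f hf
        rw [hm]
        exact (List.pairwise_cons.1 h.1).1 e' he'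
      have hF1 : ∀ z, skF n a (e :: R) z = skF n a (e :: P) z := sk_stp_F_congr n a e hRF
      have hB1 : skClkB (e :: R) = skClkB (e :: P) := by
        funext u; rw [sk_stp_clkB_cons, sk_stp_clkB_cons, hRB]
      have hH1 : skClkH (e :: R) = skClkH (e :: P) := by
        funext u; rw [sk_stp_clkH_cons, sk_stp_clkH_cons, hRH]
      by_cases h0 : e.db = 0 ∧ e.dh = 0
      · -- the head is empty
        refine ⟨R, hRa, hRr, ?_, ?_, fun f hf => ?_, fun z => ?_⟩
        · rw [← hB1]; funext u; rw [sk_stp_clkB_cons, h0.1]; simp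
        · rw [← hH1]; funext u; rw [sk_stp_clkH_cons, h0.2]; simp
        · obtain ⟨e', he', hm⟩ := hRm f hf
          exact ⟨e', List.mem_cons_of_mem _ he', hm⟩
        · rw [← hF1]
          have : e = ⟨e.m, 0, 0⟩ := by
            cases e; simp only at h0; rw [h0.1, h0.2]
          rw [this, sk_stp_drop]
      · have h0' : e.db ≠ 0 ∨ e.dh ≠ 0 := by
          by_contra hc
          push Not at hc
          exact h0 hc
        cases R with
        | nil =>
          refine ⟨[e], ⟨List.pairwise_singleton _ _, ?_⟩, ⟨List.pairwise_singleton _ _, ?_⟩, hB1, hH1, ?_, hF1⟩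
          · intro f hf; rw [List.mem_singleton.1 hf]; exact he
          · intro f hf; rw [List.mem_singleton.1 hf]; exact h0'
          · intro f hf; rw [List.mem_singleton.1 hf]; exact ⟨e, List.mem_cons_self, rfl⟩
        | cons f R =>
          have hf := hRa.2 f List.mem_cons_self
          have hfR := (List.pairwise_cons.1 hRr.1).1
          by_cases hm : e.m = f.m
          · -- merge
            refine ⟨⟨e.m, e.db + f.db, e.dh + f.dh⟩ :: R, ⟨?_, ?_⟩, ⟨?_, ?_⟩, ?_, ?_, ?_, ?_⟩
            · refine List.pairwise_cons.2 ⟨fun g hg => ?_, (List.pairwise_cons.1 hRa.1).2⟩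
              exact hle g (List.mem_cons_of_mem _ hg)
            · intro g hg
              rcases List.mem_cons.1 hg with rfl | hg
              · exact ⟨he.1, he.2.1, add_nonneg he.2.2.1 hf.2.2.1, add_nonneg he.2.2.2 hf.2.2.2⟩
              · exact hRa.2 g (List.mem_cons_of_mem _ hg)
            · refine List.pairwise_cons.2 ⟨fun g hg => ?_, (List.pairwise_cons.1 hRr.1).2⟩
              show e.m < g.m
              rw [hm]; exact hfR g hg
            · intro g hg
              rcases List.mem_cons.1 hg with rfl | hg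
              · rcases h0' with h | h
                · left; show e.db + f.db ≠ 0
                  have := lt_of_le_of_ne he.2.2.1 (Ne.symm h)
                  intro hc; linarith [hf.2.2.1]
                · right; show e.dh + f.dh ≠ 0
                  have := lt_of_le_of_ne he.2.2.2 (Ne.symm h)
                  intro hc; linarith [hf.2.2.2]
              · exact hRr.2 g (List.mem_cons_of_mem _ hg)
            · rw [← hB1]; funext u
              rw [sk_stp_clkB_cons, sk_stp_clkB_cons, sk_stp_clkB_cons, ← hm]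
              show (if e.m ≤ u then e.db + f.db else 0) + _ = _
              split_ifs <;> ring
            · rw [← hH1]; funext u
              rw [sk_stp_clkH_cons, sk_stp_clkH_cons, sk_stp_clkH_cons, ← hm]
              show (if e.m ≤ u then e.dh + f.dh else 0) + _ = _
              split_ifs <;> ring
            · intro g hg
              rcases List.mem_cons.1 hg with rfl | hg
              · exact ⟨e, List.mem_cons_self, rfl⟩
              · obtain ⟨e', he', hm'⟩ := hRm g (List.mem_cons_of_mem _ hg)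
                exact ⟨e', List.mem_cons_of_mem _ he', hm'⟩
            · intro z
              rw [← hF1]
              have e1 : e = ⟨e.m, e.db, e.dh⟩ := rfl
              have e2 : f = ⟨e.m, f.db, f.dh⟩ := by rw [hm]
              rw [e2]
              exact (sk_stp_merge n ha e.m he.2.2.1 he.2.2.2 hf.2.2.1 hf.2.2.2 R z).symm
          · have hlt : e.m < f.m := lt_of_le_of_ne (hle f List.mem_cons_self) hm
            refine ⟨e :: f :: R, ⟨?_, ?_⟩, ⟨?_, ?_⟩, hB1, hH1, ?_, hF1⟩
            · exact List.pairwise_cons.2 ⟨hle, hRa.1⟩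
            · intro g hg
              rcases List.mem_cons.1 hg with rfl | hg
              · exact he
              · exact hRa.2 g hg
            · refine List.pairwise_cons.2 ⟨fun g hg => ?_, hRr.1⟩
              rcases List.mem_cons.1 hg with rfl | hg
              · exact hlt
              · exact hlt.trans (hfR g hg)
            · intro g hg
              rcases List.mem_cons.1 hg with rfl | hg
              · exact h0'
              · exact hRr.2 g hg
            · intro g hg
              rcases List.mem_cons.1 hg with rfl | hg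
              · exact ⟨g, List.mem_cons_self, rfl⟩
              · obtain ⟨e', he', hm'⟩ := hRm g hg
                exact ⟨e', List.mem_cons_of_mem _ he', hm'⟩

/-- **Lemma G**: the continuation of an admissible step path depends only on its clocks -/
theorem sk_stp_F_clk (n : ℕ) {a : ℝ} (ha : 0 < a) {P Q : SkStp} (hP : SkAdm a P) (hQ : SkAdm a Q)
    (hB : skClkB P = skClkB Q) (hH : skClkH P = skClkH Q) (z : SkCfg n → ℝ) : skF n a P z = skF n a Q z := by
  obtain ⟨R, -, hRr, hRB, hRH, -, hRF⟩ := sk_stp_reduce n ha P hP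
  obtain ⟨R', -, hRr', hRB', hRH', -, hRF'⟩ := sk_stp_reduce n ha Q hQ
  have : R = R' := sk_stp_red_unique R R' hRr hRr' (by rw [hRB, hRB', hB]) (by rw [hRH, hRH', hH])
  rw [← hRF, ← hRF', this]

/-- the pressure of an admissible step path depends only on its clocks -/
theorem sk_stp_pr_clk (n : ℕ) {a : ℝ} (ha : 0 < a) {P Q : SkStp} (hP : SkAdm a P) (hQ : SkAdm a Q)
    (hB : skClkB P = skClkB Q) (hH : skClkH P = skClkH Q) : skPr n a P = skPr n a Q := by
  have h1 := sk_stp_clk_above P a fun e he => (hP.2 e he).2.1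
  have h2 := sk_stp_clk_above Q a fun e he => (hQ.2 e he).2.1
  unfold skPr
  rw [sk_stp_F_clk n ha hP hQ hB hH, ← h1.1, ← h1.2, ← h2.1, ← h2.2, hB, hH]

/-! ### the chains of a pair of clocks -/

theorem sk_stp_chain_mem (a : ℝ) (b h : ℝ → ℝ) : ∀ (ps : List GhPos) (b0 h0 : ℝ) (e : SkInc),
    e ∈ skCStp a b h b0 h0 ps → ∃ p ∈ ps, e.m = p.u
  | [], _, _, e, he => by simp [skCStp] at he
  | p :: ps, b0, h0, e, he => by
      rw [skCStp] at he
      rcases List.mem_cons.1 he with rfl | he
      · exact ⟨p, List.mem_cons_self, rfl⟩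
      · obtain ⟨p', hp', hm⟩ := sk_stp_chain_mem a b h ps _ _ e he
        exact ⟨p', List.mem_cons_of_mem _ hp', hm⟩

theorem sk_stp_pos_u_le {p q : GhPos} (h : p ≤ q) : p.u ≤ q.u := by
  rcases (gh_os_pos_le_iff p q).1 h with h | h
  · exact h.le
  · exact h.1.le

/-- the chain of two admissible clocks is an admissible step path -/
theorem sk_stp_chain_adm {a : ℝ} (ha : 0 ≤ a) {b h : ℝ → ℝ} (hb : GhClk1 a b) (hh : GhClk1 a h) :
    ∀ (ps : List GhPos) (b0 h0 : ℝ), ps.Pairwise (· ≤ ·) → (∀ p ∈ ps, p.Ok a) → (∀ p ∈ ps, b0 ≤ ghAt a b p) →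
      (∀ p ∈ ps, h0 ≤ ghAt a h p) → SkAdm a (skCStp a b h b0 h0 ps)
  | [], _, _, _, _, _, _ => sk_stp_adm_nil a
  | p :: ps, b0, h0, hs, hok, hb0, hh0 => by
      have hs' := List.pairwise_cons.1 hs
      have hp := hok p List.mem_cons_self
      have ih := sk_stp_chain_adm ha hb hh ps (ghAt a b p) (ghAt a h p) hs'.2
        (fun q hq => hok q (List.mem_cons_of_mem _ hq))
        (fun q hq => gh_os_at_mono ha hb hp.2.2.2 (hok q (List.mem_cons_of_mem _ hq)).2.2.1 (hs'.1 q hq))
        (fun q hq => gh_os_at_mono ha hh hp.2.2.2 (hok q (List.mem_cons_of_mem _ hq)).2.2.1 (hs'.1 q hq))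
      rw [skCStp]
      refine ⟨List.pairwise_cons.2 ⟨fun e he => ?_, ih.1⟩, fun e he => ?_⟩
      · obtain ⟨q, hq, hm⟩ := sk_stp_chain_mem a b h ps _ _ e he
        show p.u ≤ e.m
        rw [hm]
        exact sk_stp_pos_u_le (hs'.1 q hq)
      · rcases List.mem_cons.1 he with rfl | he
        · exact ⟨hp.1, hp.2.1, sub_nonneg.2 (hb0 p List.mem_cons_self), sub_nonneg.2 (hh0 p List.mem_cons_self)⟩
        · exact ih.2 e he

theorem sk_stp_chain_swap (a : ℝ) (b h : ℝ → ℝ) (u : ℝ) : ∀ (ps : List GhPos) (b0 h0 : ℝ),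
    skClkH (skCStp a b h b0 h0 ps) u = skClkB (skCStp a h b h0 b0 ps) u
  | [], _, _ => by simp [skCStp, skClkH, skClkB]
  | p :: ps, b0, h0 => by
      rw [skCStp, skCStp, sk_stp_clkH_cons, sk_stp_clkB_cons, sk_stp_chain_swap a b h u ps]

/-- telescoping: the clock of a chain at the mass `u` -/
theorem sk_stp_chain_clkB {a : ℝ} (ha : 0 ≤ a) {b : ℝ → ℝ} (h : ℝ → ℝ) (hb : GhClk1 a b) (u V : ℝ) :
    ∀ (ps : List GhPos) (b0 h0 : ℝ), ps.Pairwise (· ≤ ·) → (∀ p ∈ ps, p.Ok a) →
      (∀ p ∈ ps, p.u ≤ u → b0 ≤ ghAt a b p ∧ ghAt a b p ≤ V) →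
      ((∃ p ∈ ps, p.u ≤ u ∧ ghAt a b p = V) ∨ b0 = V) → skClkB (skCStp a b h b0 h0 ps) u = V - b0
  | [], b0, h0, _, _, _, h2 => by
      rcases h2 with ⟨p, hp, -⟩ | h2
      · exact absurd hp List.not_mem_nil
      · rw [skCStp, sk_stp_clkB_nil, h2, sub_self]
  | p :: ps, b0, h0, hs, hok, h1, h2 => by
      have hs' := List.pairwise_cons.1 hs
      have hp := hok p List.mem_cons_self
      by_cases hu : p.u ≤ u
      · have hpV := h1 p List.mem_cons_self hu
        have ih := sk_stp_chain_clkB ha h hb u V ps (ghAt a b p) (ghAt a h p) hs'.2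
          (fun q hq => hok q (List.mem_cons_of_mem _ hq))
          (fun q hq hqu => ⟨gh_os_at_mono ha hb hp.2.2.2 (hok q (List.mem_cons_of_mem _ hq)).2.2.1 (hs'.1 q hq),
            (h1 q (List.mem_cons_of_mem _ hq) hqu).2⟩)
          (by
            rcases h2 with ⟨q, hq, hqu, hqV⟩ | h2
            · rcases List.mem_cons.1 hq with rfl | hq
              · exact Or.inr hqV
              · exact Or.inl ⟨q, hq, hqu, hqV⟩
            · exact Or.inr (le_antisymm hpV.2 (h2 ▸ hpV.1)))
        rw [skCStp, sk_stp_clkB_cons, ih]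
        show (if p.u ≤ u then ghAt a b p - b0 else 0) + _ = _
        rw [if_pos hu]; ring
      · have hall : ∀ e ∈ skCStp a b h b0 h0 (p :: ps), u < e.m := by
          intro e he
          obtain ⟨q, hq, hm⟩ := sk_stp_chain_mem a b h _ _ _ e he
          rw [hm]
          rcases List.mem_cons.1 hq with rfl | hq
          · exact not_le.1 hu
          · exact lt_of_lt_of_le (not_le.1 hu) (sk_stp_pos_u_le (hs'.1 q hq))
        rw [(sk_stp_clk_below _ u hall).1]
        rcases h2 with ⟨q, hq, hqu, -⟩ | h2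
        · exfalso
          rcases List.mem_cons.1 hq with rfl | hq
          · exact hu hqu
          · exact hu ((sk_stp_pos_u_le (hs'.1 q hq)).trans hqu)
        · rw [h2, sub_self]

/-! ### step clocks -/

theorem sk_stp_clk1 {a : ℝ} {P : SkStp} (hP : SkAdm a P) : GhClk1 a (skClkB P) ∧ GhClk1 a (skClkH P) := by
  have hnn : ∀ e ∈ P, 0 ≤ e.db ∧ 0 ≤ e.dh := fun e he => (hP.2 e he).2.2
  have h1 := sk_stp_clk_mono P hnn
  have h2 := sk_stp_clk_nonneg P 0 hnn
  exact ⟨⟨h1.1.monotoneOn _, h2.1⟩, ⟨h1.2.monotoneOn _, h2.2⟩⟩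

/-- a right continuous clock is read exactly after its jumps -/
theorem sk_stp_at_posA {a : ℝ} {c : ℝ → ℝ} {v : ℝ} (hc : Tendsto c (𝓝[>] v) (𝓝 (c v))) (h0 : 0 ≤ v) (h1 : v ≤ a) :
    ghAt a c (ghPosA v) = c v := by
  rw [gh_os_at_posA]
  rcases eq_or_lt_of_le h1 with rfl | h1
  · exact gh_os_right_top _ c h0 le_rfl
  · apply rightLim_eq_of_tendsto
    refine hc.congr' ?_
    filter_upwards [Ioo_mem_nhdsGT h1] with x hx
    unfold ghClamp
    rw [if_neg (not_lt.2 (h0.trans hx.1.le)), min_eq_left hx.2.le]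

/-- the last mass `≤ u` -/
theorem sk_stp_last (P : SkStp) (u : ℝ) (h : ∃ e ∈ P, e.m ≤ u) :
    ∃ e ∈ P, e.m ≤ u ∧ skClkB P e.m = skClkB P u ∧ skClkH P e.m = skClkH P u := by
  classical
  obtain ⟨e0, he0, he0u⟩ := h
  obtain ⟨e, he, hmax⟩ := Finset.exists_max_image (P.toFinset.filter fun e => e.m ≤ u) SkInc.m
    ⟨e0, by simp [he0, he0u]⟩
  rw [Finset.mem_filter, List.mem_toFinset] at he
  have hc : (P.filter fun f => decide (f.m ≤ e.m)) = P.filter fun f => decide (f.m ≤ u) := by
    refine List.filter_congr fun f hf => ?_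
    by_cases hfu : f.m ≤ u
    · have := hmax f (by simp [hf, hfu])
      simp [hfu, this]
    · have : ¬ f.m ≤ e.m := fun hc => hfu (hc.trans he.2)
      simp [hfu, this]
  refine ⟨e, he.1, he.2, ?_, ?_⟩
  · unfold skClkB; rw [hc]
  · unfold skClkH; rw [hc]

/-- the clocks of a chain of a step clock which contains the positions after all the jumps -/
theorem sk_stp_chain_clk {a : ℝ} (ha : 0 ≤ a) {P : SkStp} (hP : SkAdm a P) {ps : List GhPos} (hs : ps.Pairwise (· ≤ ·))
    (hok : ∀ p ∈ ps, p.Ok a) (hF : ∀ e ∈ P, ghPosA e.m ∈ ps) :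
    skClkB (skCStp a (skClkB P) (skClkH P) 0 0 ps) = skClkB P ∧
    skClkH (skCStp a (skClkB P) (skClkH P) 0 0 ps) = skClkH P := by
  have hnn : ∀ e ∈ P, 0 ≤ e.db ∧ 0 ≤ e.dh := fun e he => (hP.2 e he).2.2
  have hc := sk_stp_clk1 hP
  have hmono := sk_stp_clk_mono P hnn
  have hA : ∀ v, 0 ≤ v → v ≤ a → ghAt a (skClkB P) (ghPosA v) = skClkB P v ∧ ghAt a (skClkH P) (ghPosA v) = skClkH P v :=
    fun v h0 h1 => ⟨sk_stp_at_posA (sk_stp_clk_right P v).1 h0 h1, sk_stp_at_posA (sk_stp_clk_right P v).2 h0 h1⟩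
  have hwit : ∀ u, ((∃ p ∈ ps, p.u ≤ u ∧ ghAt a (skClkB P) p = skClkB P u) ∨ (0:ℝ) = skClkB P u) ∧
      ((∃ p ∈ ps, p.u ≤ u ∧ ghAt a (skClkH P) p = skClkH P u) ∨ (0:ℝ) = skClkH P u) := by
    intro u
    by_cases hex : ∃ e ∈ P, e.m ≤ u
    · obtain ⟨e, he, heu, hB, hH⟩ := sk_stp_last P u hex
      have hem := hP.2 e he
      have h3 := hA e.m hem.1 hem.2.1
      exact ⟨Or.inl ⟨ghPosA e.m, hF e he, heu, by rw [h3.1, hB]⟩, Or.inl ⟨ghPosA e.m, hF e he, heu, by rw [h3.2, hH]⟩⟩
    · push Not at hex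
      have := sk_stp_clk_below P u hex
      exact ⟨Or.inr this.1.symm, Or.inr this.2.symm⟩
  constructor
  · funext u
    rw [sk_stp_chain_clkB ha (skClkH P) hc.1 u (skClkB P u) ps 0 0 hs hok ?_ (hwit u).1, sub_zero]
    intro p hp hpu
    have hpo := hok p hp
    refine ⟨gh_os_at_nonneg ha hc.1 hpo.2.2.1, ?_⟩
    calc ghAt a (skClkB P) p ≤ rightLim (ghClamp a (skClkB P)) p.u := gh_os_at_le_right ha hc.1 hpo.2.2.2
      _ = skClkB P p.u := by rw [← gh_os_at_posA, (hA p.u hpo.1 hpo.2.1).1]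
      _ ≤ skClkB P u := hmono.1 hpu
  · funext u
    rw [sk_stp_chain_swap, sk_stp_chain_clkB ha (skClkB P) hc.2 u (skClkH P u) ps 0 0 hs hok ?_ (hwit u).2, sub_zero]
    intro p hp hpu
    have hpo := hok p hp
    refine ⟨gh_os_at_nonneg ha hc.2 hpo.2.2.1, ?_⟩
    calc ghAt a (skClkH P) p ≤ rightLim (ghClamp a (skClkH P)) p.u := gh_os_at_le_right ha hc.2 hpo.2.2.2
      _ = skClkH P p.u := by rw [← gh_os_at_posA, (hA p.u hpo.1 hpo.2.1).2]
      _ ≤ skClkH P u := hmono.2 hpu

/-- the limit operator on an eventually constant net -/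
theorem gh_stp_lim_const (a : ℝ) (Q : List GhPos → ℝ) (F₀ : Finset GhPos) (v : ℝ)
    (h : ∀ F : Finset GhPos, F₀ ⊆ F → Q (ghPs a F) = v) : ghLim a Q = v ∧ GhLimEx a Q := by
  have ht : Tendsto (fun F : Finset GhPos => Q (ghPs a F)) atTop (𝓝 v) := by
    refine tendsto_const_nhds.congr' ?_
    filter_upwards [eventually_ge_atTop F₀] with F hF
    exact (h F hF).symm
  have h1 : ghLim a Q = v := ht.limUnder_eq
  exact ⟨h1, by unfold GhLimEx; rw [h1]; exact ht⟩

/-- the chains which contain the positions after all the jumps of a step clock give the step path -/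
theorem sk_stp_chain_F {a : ℝ} (ha : 0 < a) {P : SkStp} (hP : SkAdm a P) (F : Finset GhPos)
    (hF : ∀ e ∈ P, ghPosA e.m ∈ F) :
    SkAdm a (skCStp a (skClkB P) (skClkH P) 0 0 (ghPs a F)) ∧
    skClkB (skCStp a (skClkB P) (skClkH P) 0 0 (ghPs a F)) = skClkB P ∧
    skClkH (skCStp a (skClkB P) (skClkH P) 0 0 (ghPs a F)) = skClkH P := by
  have hc := sk_stp_clk1 hP
  have hok : ∀ p ∈ ghPs a F, p.Ok a := fun p hp => (gh_os_ps_mem.1 hp).2
  have h1 := sk_stp_chain_clk ha.le hP (gh_os_ps_pairwise a F) hok fun e he =>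
    gh_os_ps_mem.2 ⟨hF e he, gh_os_posA_ok (hP.2 e he).1 (hP.2 e he).2.1⟩
  exact ⟨sk_stp_chain_adm ha.le hc.1 hc.2 _ 0 0 (gh_os_ps_pairwise a F) hok
    (fun p hp => gh_os_at_nonneg ha.le hc.1 (hok p hp).2.2.1) (fun p hp => gh_os_at_nonneg ha.le hc.2 (hok p hp).2.2.1), h1⟩

/-- **(G0.d)** step clocks: the pressure is the pressure of the step path, and the limit exists -/
theorem sk_stp_pr (n : ℕ) {a : ℝ} (ha : 0 < a) {P : SkStp} (hP : SkAdm a P) :
    skCPr n a (skClkB P) (skClkH P) = skPr n a P ∧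
      GhLimEx a fun ps => skPr n a (skCStp a (skClkB P) (skClkH P) 0 0 ps) := by
  classical
  unfold skCPr
  refine gh_stp_lim_const a _ (P.map fun e => ghPosA e.m).toFinset _ fun F hF => ?_
  obtain ⟨h1, h2, h3⟩ := sk_stp_chain_F ha hP F fun e he =>
    hF (List.mem_toFinset.2 (List.mem_map.2 ⟨e, he, rfl⟩))
  exact sk_stp_pr_clk n ha h1 hP h2 h3

/-- the same with a source -/
theorem sk_stp_prS (n : ℕ) {a : ℝ} (ha : 0 < a) {P : SkStp} (hP : SkAdm a P) (z : SkCfg n → ℝ) :
    skCPrS n a (skClkB P) (skClkH P) z = skPrS n a P z ∧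
      GhLimEx a fun ps => skPrS n a (skCStp a (skClkB P) (skClkH P) 0 0 ps) z := by
  classical
  unfold skCPrS
  refine gh_stp_lim_const a _ (P.map fun e => ghPosA e.m).toFinset _ fun F hF => ?_
  obtain ⟨h1, h2, h3⟩ := sk_stp_chain_F ha hP F fun e he =>
    hF (List.mem_toFinset.2 (List.mem_map.2 ⟨e, he, rfl⟩))
  have h4 := sk_stp_clk_above _ a fun e he => (h1.2 e he).2.1
  have h5 := sk_stp_clk_above P a fun e he => (hP.2 e he).2.1
  unfold skPrS
  rw [sk_stp_F_clk n ha h1 hP h2 h3, ← h4.1, ← h4.2, ← h5.1, ← h5.2, h2, h3]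

/-! ### only the values on `[0,a]` matter -/

theorem sk_stp_clamp_congr {a : ℝ} {c c' : ℝ → ℝ} (ha : 0 ≤ a) (h : ∀ u ∈ Icc 0 a, c u = c' u) : ghClamp a c = ghClamp a c' := by
  funext u
  unfold ghClamp
  by_cases hu : u < 0
  · rw [if_pos hu, if_pos hu]
  · rw [if_neg hu, if_neg hu]
    exact h _ ⟨le_min (not_lt.1 hu) ha, min_le_right _ _⟩

theorem sk_stp_at_congr {a : ℝ} {c c' : ℝ → ℝ} (ha : 0 ≤ a) (h : ∀ u ∈ Icc 0 a, c u = c' u) : ghAt a c = ghAt a c' := by
  funext p
  unfold ghAt
  rw [sk_stp_clamp_congr ha h]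

theorem sk_stp_chain_congr {a : ℝ} {b b' h h' : ℝ → ℝ} (hb : ghAt a b = ghAt a b') (hh : ghAt a h = ghAt a h') :
    ∀ (ps : List GhPos) (b0 h0 : ℝ), skCStp a b h b0 h0 ps = skCStp a b' h' b0 h0 ps
  | [], _, _ => rfl
  | p :: ps, b0, h0 => by
      rw [skCStp, skCStp, sk_stp_chain_congr hb hh ps, hb, hh]

/-- the pressure of clocks depends only on their values on `[0,a]` -/
theorem sk_stp_cpr_congr (n : ℕ) {a : ℝ} (ha : 0 ≤ a) {b b' h h' : ℝ → ℝ} (hb : ∀ u ∈ Icc 0 a, b u = b' u)
    (hh : ∀ u ∈ Icc 0 a, h u = h' u) : skCPr n a b h = skCPr n a b' h' := by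
  unfold skCPr
  congr 1
  funext ps
  rw [sk_stp_chain_congr (sk_stp_at_congr ha hb) (sk_stp_at_congr ha hh)]

end

end Claimed.Agent.R286
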