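import Claimed.Agent.R286.Brg.StatFin
import Claimed.Agent.R286.Brg.PrLeaf
import Claimed.Agent.R286.Brg.Step
import Claimed.Agent.R286.Fd.ClkDefs
import Claimed.Agent.R286.Fd.ObsTw

/-!
# Row 286 (S0533), unit BRIDGE, block H STAT : the single path statistics of SK step paths and chains as TREE NUMBERS      (owner helper226; prefix `brg_ss_`)

* `brgTs i l i' l'`     the product test `y_i(σ⁰) y_l(σ¹) y_i'(σ²) y_l'(σ³)`, `|·| ≤ 1/n²`;
* `brgN4 n a P z₀ j k k' T`   four-leaf number of a step path, table `brgT4 P.length j k k'`;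
* STEP PATHS: `brg_ss_H2`, `brg_ss_C2`, `brg_ss_X4`:  `obTrH2`, `obTrC2`, `ckX4F` = finite signed sums of `brgN4`;
* `brgR4 p s s'`        the real tree: `{0,1}` fork at `max s p`, `{2,3}` at `max s' p`, the pairs at `p`;
* `brgLL a f = a f(⊤) - ∫_0^a f((u,1)) du`      the signed measure of the Abel form of `H`: FREE OF THE CHAIN;
* CHAINS: `brg_ss_chain_S/B/C2/X4/H2`: the five statistics at the cut `ghIdx ps p` of the chain `ps` in terms of `ckNuF`.
-/

set_option autoImplicit false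
set_option linter.unusedSectionVars false

namespace Claimed.Agent.R286

open MeasureTheory Filter Set

section sk
variable {n : ℕ}

/-- the product test of four labels -/
noncomputable def brgTs (i l i' l' : Fin n) : (Fin 4 → SkCfg n) → ℝ :=
  fun σ => obY i (σ 0) * obY l (σ 1) * (obY i' (σ 2) * obY l' (σ 3))

/-- four-leaf number of a step path -/
noncomputable def brgN4 (n : ℕ) (a : ℝ) (P : SkStp) (z₀ : SkCfg n → ℝ) (j k k' : ℕ) (T : (Fin 4 → SkCfg n) → ℝ) : ℝ :=
  ghNu (skBase n a) (skLvs n P) (ghRepN 4 (brgT4 P.length j k k')) (fun _ => z₀) fun _ σ => T σ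

/-- the weights of the conditional covariance: `+1` at the terminal draw, `-1` at the cut -/
def brgWC (N k : ℕ) : ℝ := if k = N + 1 then 1 else if k = 0 then -1 else 0

theorem brg_ss_eqns_cite : True := by
  have := @brgTs.eq_1
  have := @brgN4.eq_1
  have := @brgWC.eq_1
  trivial

theorem brg_ss_WC_sum (N : ℕ) (f : ℕ → ℝ) : ∑ k ∈ Finset.range (N + 2), brgWC N k * f k = f (N + 1) - f 0 := by
  rw [Finset.sum_range_succ _ (N + 1), Finset.sum_range_succ' _ N]
  have e : ∀ k ∈ Finset.range N, brgWC N (k + 1) * f (k + 1) = 0 := by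
    intro k hk
    unfold brgWC
    rw [if_neg (by have := Finset.mem_range.1 hk; omega), if_neg (by omega), zero_mul]
  rw [Finset.sum_eq_zero e]
  unfold brgWC
  rw [if_pos rfl, if_neg (by omega), if_pos rfl]
  ring

theorem brg_ss_N4_tr (a : ℝ) (P : SkStp) (z₀ : SkCfg n → ℝ) (j k k' : ℕ) (i l i' l' : Fin n) :
    brgN4 n a P z₀ j k k' (brgTs i l i' l')
      = trNu (skBase n a) (skLvs n P) 4 (brgT4 (skLvs n P).length j k k') z₀
          (fun σ => obY i (σ 0) * obY l (σ 1) * (obY i' (σ 2) * obY l' (σ 3))) := by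
  unfold brgN4
  rw [obu_lvs_length]
  rw [gh_ct_nu (skBase n a) (skLvs n P) 4 (brgT4 P.length j k k')
    (fun x _ => by rw [obu_lvs_length]; simp [brgT4]) z₀ (brgTs i l i' l')]
  rfl

theorem brg_ss_adm (n : ℕ) {a : ℝ} {P : SkStp} (hP : SkAdm a P) : GhAdm (skBase n a) 0 (skLvs n P) := by
  constructor
  · unfold skLvs
    rw [List.pairwise_map]
    exact hP.1
  · intro l hl
    simp only [skLvs, List.mem_map] at hl
    obtain ⟨e, he, rfl⟩ := hl
    exact ⟨(hP.2 e he).1, (hP.2 e he).2.1⟩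

/-- bilinear form on a step path -/
theorem brg_ss_bilin {a : ℝ} (ha : 0 < a) {P : SkStp} (hP : SkAdm a P) (z₀ : SkCfg n → ℝ) {j : ℕ} (hj : j ≤ P.length)
    (W W' : ℕ → ℝ) (i l i' l' : Fin n) :
    obuIt (skBase n a) (skLvs n P) j (fun G =>
        (∑ k ∈ Finset.range (P.length + 2), W k * brgM2 (skBase n a) ((skLvs n P).drop j) (max k j - j) (obY i) (obY l) G)
        * ∑ k' ∈ Finset.range (P.length + 2), W' k' * brgM2 (skBase n a) ((skLvs n P).drop j) (max k' j - j) (obY i') (obY l') G) z₀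
      = ∑ k ∈ Finset.range (P.length + 2), ∑ k' ∈ Finset.range (P.length + 2), W k * W' k' *
          brgN4 n a P z₀ j k k' (brgTs i l i' l') := by
  have h := brg_sf_bilin (obu_base_ok n ha) (brg_ss_adm n hP) (obY i) (obY l) (obY i') (obY l') (j := j)
    (by rw [obu_lvs_length]; exact hj) W W' z₀
  simp only [brg_ss_N4_tr, obu_lvs_length]
  rw [obu_lvs_length] at h
  exact h

/-- sums over the coordinates go through the planted average -/
theorem brg_ss_it_sum2 {a : ℝ} (ha : 0 < a) {P : SkStp} (hP : SkAdm a P) (z₀ : SkCfg n → ℝ) (j : ℕ)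
    (φ : Fin n → Fin n → (SkCfg n → ℝ) → ℝ) (hφ : ∀ i l, ObuBC (φ i l)) :
    obuIt (skBase n a) (skLvs n P) j (fun G => ∑ i, ∑ l, φ i l G) z₀
      = ∑ i, ∑ l, obuIt (skBase n a) (skLvs n P) j (φ i l) z₀ := by
  have hB := obu_base_ok n ha
  have hls := obu_lvs_nn n hP
  have h1 := brg_sf_it_sum hB hls j Finset.univ (fun _ : Fin n => (1 : ℝ)) (fun i G => ∑ l, φ i l G)
    (fun i _ => ObuBC.sum _ fun l _ => hφ i l) z₀
  simp only [one_mul] at h1
  rw [h1]
  refine Finset.sum_congr rfl fun i _ => ?_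
  have h2 := brg_sf_it_sum hB hls j Finset.univ (fun _ : Fin n => (1 : ℝ)) (fun l G => φ i l G) (fun l _ => hφ i l) z₀
  simp only [one_mul] at h2
  exact h2

/-- **`E tr H²`** at the cut `j` of a step path -/
theorem brg_ss_H2 {a : ℝ} (ha : 0 < a) {P : SkStp} (hP : SkAdm a P) (z₀ : SkCfg n → ℝ) {j : ℕ} (hj : j ≤ P.length) :
    obTrH2 n a P z₀ j = ∑ i, ∑ l, ∑ k ∈ Finset.range (P.length + 2), ∑ k' ∈ Finset.range (P.length + 2),
      brgW (skBase n a) (skLvs n P) k * brgW (skBase n a) (skLvs n P) k' * brgN4 n a P z₀ j k k' (brgTs i l i l) := by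
  have hB := obu_base_ok n ha
  have hls := obu_lvs_nn n hP
  have hd : GhNn (skLvs n (P.drop j)) := obu_lvs_nn n (obu_adm_drop hP j)
  have p0 : obTrH2 n a P z₀ j = obuIt (skBase n a) (skLvs n P) j
      (fun G => ∑ i, ∑ l, obH n a (P.drop j) G i l ^ 2) z₀ :=
    obu_path_field hB hls z₀ j fun G => ∑ i, ∑ l, obH n a (P.drop j) G i l ^ 2
  rw [p0, brg_ss_it_sum2 ha hP z₀ j (fun i l G => obH n a (P.drop j) G i l ^ 2)
    (fun i l => ObuBC.sq (gh_b_H_bc hB _ _ hd))]
  refine Finset.sum_congr rfl fun i _ => Finset.sum_congr rfl fun l _ => ?_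
  rw [← brg_ss_bilin ha hP z₀ hj]
  congr 1
  funext G
  have := brg_sf_abel_W hB (obY i) (obY l) j hls (by rw [obu_lvs_length]; exact hj) G
  rw [obu_lvs_length] at this
  rw [← this, ← obu_lvs_drop]
  simp only [obH]
  ring

/-- **`E tr C²`** at the cut `j` of a step path -/
theorem brg_ss_C2 {a : ℝ} (ha : 0 < a) {P : SkStp} (hP : SkAdm a P) (z₀ : SkCfg n → ℝ) {j : ℕ} (hj : j ≤ P.length) :
    obTrC2 n a P z₀ j = ∑ i, ∑ l, (brgN4 n a P z₀ j (P.length + 1) (P.length + 1) (brgTs i l i l)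
      - brgN4 n a P z₀ j (P.length + 1) 0 (brgTs i l i l) - brgN4 n a P z₀ j 0 (P.length + 1) (brgTs i l i l)
      + brgN4 n a P z₀ j 0 0 (brgTs i l i l)) := by
  have hB := obu_base_ok n ha
  have hls := obu_lvs_nn n hP
  have hd : GhNn (skLvs n (P.drop j)) := obu_lvs_nn n (obu_adm_drop hP j)
  have p0 : obTrC2 n a P z₀ j = obuIt (skBase n a) (skLvs n P) j
      (fun G => ∑ i, ∑ l, obC n a (P.drop j) G i l ^ 2) z₀ :=
    obu_path_field hB hls z₀ j fun G => ∑ i, ∑ l, obC n a (P.drop j) G i l ^ 2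
  rw [p0, brg_ss_it_sum2 ha hP z₀ j (fun i l G => obC n a (P.drop j) G i l ^ 2)
    (fun i l => ObuBC.sq ⟨_, gh_b_C_bc hB _ _ hd⟩)]
  refine Finset.sum_congr rfl fun i _ => Finset.sum_congr rfl fun l _ => ?_
  have h := brg_ss_bilin ha hP z₀ hj (brgWC P.length) (brgWC P.length) i l i l
  simp only [mul_assoc, ← Finset.mul_sum, brg_ss_WC_sum] at h
  have e : (fun G => obC n a (P.drop j) G i l ^ 2) = fun G =>
      (brgM2 (skBase n a) ((skLvs n P).drop j) (max (P.length + 1) j - j) (obY i) (obY l) G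
        - brgM2 (skBase n a) ((skLvs n P).drop j) (max 0 j - j) (obY i) (obY l) G)
      * (brgM2 (skBase n a) ((skLvs n P).drop j) (max (P.length + 1) j - j) (obY i) (obY l) G
        - brgM2 (skBase n a) ((skLvs n P).drop j) (max 0 j - j) (obY i) (obY l) G) := by
    funext G
    have := brg_sf_C_W (skBase n a) (obY i) (obY l) j (skLvs n P) (by rw [obu_lvs_length]; exact hj) G
    rw [obu_lvs_length] at this
    rw [← this, ← obu_lvs_drop]
    simp only [obC]
    ring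
  rw [e, h]
  ring

/-- **`E|X|⁴`** at the cut `j` of a step path -/
theorem brg_ss_X4 {a : ℝ} (ha : 0 < a) {P : SkStp} (hP : SkAdm a P) {j : ℕ} (hj : j ≤ P.length) :
    ckX4F n a P j = ∑ i, ∑ l, brgN4 n a P 0 j 0 0 (brgTs i i l l) := by
  have hB := obu_base_ok n ha
  have hls := obu_lvs_nn n hP
  have hd : GhNn (skLvs n (P.drop j)) := obu_lvs_nn n (obu_adm_drop hP j)
  have p0 : ckX4F n a P j = obuIt (skBase n a) (skLvs n P) j
      (fun G => (∑ i, obX n a (P.drop j) G i ^ 2) ^ 2) 0 :=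
    obu_path_field hB hls 0 j fun G => (∑ i, obX n a (P.drop j) G i ^ 2) ^ 2
  have e : (fun G => (∑ i, obX n a (P.drop j) G i ^ 2) ^ 2)
      = fun G => ∑ i, ∑ l, obX n a (P.drop j) G i ^ 2 * obX n a (P.drop j) G l ^ 2 := by
    funext G
    rw [pow_two, Finset.sum_mul_sum]
  have hX : ∀ i, ObuBC (fun y => obX n a (P.drop j) y i) := fun i => ⟨_, gh_b_E_bc' hB (obY i) hd⟩
  rw [p0, e, brg_ss_it_sum2 ha hP 0 j (fun i l G => obX n a (P.drop j) G i ^ 2 * obX n a (P.drop j) G l ^ 2)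
    (fun i l => (hX i).sq.mul (hX l).sq)]
  refine Finset.sum_congr rfl fun i _ => Finset.sum_congr rfl fun l _ => ?_
  rw [brg_ss_N4_tr, brg_sf_four hB (brg_ss_adm n hP) _ _ _ _ (by rw [obu_lvs_length]; exact hj) (Nat.zero_le _)
    (Nat.zero_le _)]
  congr 1
  funext G
  have e2 : max 0 j - j = 0 := by omega
  rw [e2, brg_sf_M2_zero, brg_sf_M2_zero, ← obu_lvs_drop]
  simp only [obX]
  ring

/-- the product tests are bounded by `1/n²` -/
theorem brg_ss_Y_abs (i : Fin n) (σ : SkCfg n) : |obY i σ| = 1 / Real.sqrt n := by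
  have h1 : |skSp σ i| = 1 := by
    have := sk_d_sp_mul σ i
    have h2 : |skSp σ i| * |skSp σ i| = 1 := by rw [← abs_mul, this, abs_one]
    nlinarith [abs_nonneg (skSp σ i)]
  unfold obY skY
  rw [abs_div, h1, abs_of_nonneg (Real.sqrt_nonneg _)]

theorem brg_ss_Ts_abs (hn : 0 < n) (i l i' l' : Fin n) (σ : Fin 4 → SkCfg n) : |brgTs i l i' l' σ| ≤ 1 / (n : ℝ) ^ 2 := by
  unfold brgTs
  rw [abs_mul, abs_mul, abs_mul, brg_ss_Y_abs, brg_ss_Y_abs, brg_ss_Y_abs, brg_ss_Y_abs]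
  have hn' : (0 : ℝ) < n := by exact_mod_cast hn
  have h2 : Real.sqrt n * Real.sqrt n = n := Real.mul_self_sqrt hn'.le
  have h3 : 1 / Real.sqrt n * (1 / Real.sqrt n) = 1 / n := by
    rw [div_mul_div_comm, h2, one_mul]
  rw [h3, div_mul_div_comm, one_mul, pow_two]

end sk

/-! ### real trees with four labels -/

/-- the real tree: `{0,1}` fork at `max s p`, `{2,3}` fork at `max s' p`, the two pairs fork at `p` -/
noncomputable def brgR4 (p : GhPos) (s s' : WithTop GhPos) : ℕ → ℕ → WithTop GhPos := fun x y =>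
  if x = y then ⊤ else if x < 2 ∧ y < 2 then max s (p : WithTop GhPos)
  else if 2 ≤ x ∧ 2 ≤ y then max s' (p : WithTop GhPos) else (p : WithTop GhPos)

/-- `⊤` or a valid position -/
def BrgOkT (a : ℝ) (s : WithTop GhPos) : Prop := ∀ r : GhPos, s = (r : WithTop GhPos) → r.Ok a

/-- the signed measure of the Abel form of the Hessian: mass `a` at `⊤`, minus the Lebesgue measure on the positions `(u,1)` -/
noncomputable def brgLL (a : ℝ) (f : WithTop GhPos → ℝ) : ℝ :=
  a * f ⊤ - ∫ u in (0 : ℝ)..a, f ((ghPosA u : GhPos) : WithTop GhPos)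

theorem brg_ss_R4_eqns_cite : True := by
  have := @brgR4.eq_1
  have := @BrgOkT.eq_1
  have := @brgLL.eq_1
  trivial

theorem brg_ss_okT_top (a : ℝ) : BrgOkT a ⊤ := fun r h => absurd h (by simp)

theorem brg_ss_okT_coe {a : ℝ} {p : GhPos} (hp : p.Ok a) : BrgOkT a (p : WithTop GhPos) := fun r h => by
  rw [← WithTop.coe_injective h]; exact hp

theorem brg_ss_okT_max {a : ℝ} {p : GhPos} (hp : p.Ok a) {s : WithTop GhPos} (hs : BrgOkT a s) :
    BrgOkT a (max s (p : WithTop GhPos)) := by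
  rcases le_total s (p : WithTop GhPos) with h | h
  · rw [max_eq_right h]; exact brg_ss_okT_coe hp
  · rw [max_eq_left h]; exact hs

theorem brg_ss_rt {a : ℝ} {p : GhPos} (hp : p.Ok a) {s s' : WithTop GhPos} (hs : BrgOkT a s) (hs' : BrgOkT a s') :
    GhIsRT a 4 (brgR4 p s s') where
  diag := fun x _ => by simp [brgR4]
  symm := fun x y _ _ => by
    unfold brgR4
    by_cases hxy : x = y
    · subst hxy; rfl
    · have hyx : ¬ y = x := fun h => hxy h.symm
      simp only [hxy, hyx, if_false, and_comm]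
  ultra := fun x y z hx hy hz => by
    unfold brgR4
    split_ifs <;> first | (simp; done) | (exfalso; omega)
  ok := fun x y _ _ r hr => by
    unfold brgR4 at hr
    split_ifs at hr
    · exact absurd hr (by simp)
    · exact brg_ss_okT_max hp hs r hr
    · exact brg_ss_okT_max hp hs' r hr
    · exact brg_ss_okT_coe hp r hr

theorem brg_ss_disc (ps : List GhPos) (p : GhPos) (s s' : WithTop GhPos) :
    ghDisc ps (brgR4 p s s') = brgT4 ps.length (ghIdx ps (p : WithTop GhPos)) (ghIdx ps s) (ghIdx ps s') := by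
  funext x y
  have hm : Monotone (ghIdx ps) := fun _ _ h => gh_ct_idx_mono ps h
  unfold ghDisc brgR4 brgT4
  split_ifs
  · exact gh_ct_idx_top ps
  · exact hm.map_max
  · exact hm.map_max
  · rfl

theorem brg_ss_T4_max (N j k k' : ℕ) : brgT4 N j k k' = brgT4 N j (max k j) (max k' j) := by
  funext x y
  unfold brgT4
  simp only [max_assoc, max_self]

/-! ### chains -/

theorem brg_ss_stp_length (a : ℝ) (b h : ℝ → ℝ) : ∀ (ps : List GhPos) (b0 h0 : ℝ), (skCStp a b h b0 h0 ps).length = ps.length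
  | [], _, _ => rfl
  | p :: ps, _, _ => by simp only [skCStp, List.length_cons, brg_ss_stp_length a b h ps]

theorem brg_ss_stp_adm {a : ℝ} (ha : 0 < a) {b h : ℝ → ℝ} (hbh : CkAdm a b h) {ps : List GhPos} (hps : GhChOk a ps) :
    SkAdm a (ckStp a b h ps) :=
  sk_stp_chain_adm ha.le hbh.1 hbh.2 ps 0 0 (hps.1.imp fun h => h.le) hps.2
    (fun p hp => gh_os_at_nonneg ha.le hbh.1 (hps.2 p hp).2.2.1) (fun p hp => gh_os_at_nonneg ha.le hbh.2 (hps.2 p hp).2.2.1)

theorem brg_ss_stp_m (n : ℕ) (a : ℝ) (b h : ℝ → ℝ) : ∀ (ps : List GhPos) (b0 h0 : ℝ),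
    (skLvs n (skCStp a b h b0 h0 ps)).map GhLv.m = ps.map GhPos.u
  | [], _, _ => rfl
  | p :: ps, _, _ => by
      have ih := brg_ss_stp_m n a b h ps (ghAt a b p) (ghAt a h p)
      simp only [skLvs, List.map_map] at ih
      simp only [skCStp, skLvs, List.map_cons, List.map_map, ih]
      rfl

section chain
variable {n : ℕ}

theorem brg_ss_ms (n : ℕ) (a : ℝ) (b h : ℝ → ℝ) (ps : List GhPos) (k : ℕ) :
    trMs (skBase n a) (skLvs n (ckStp a b h ps)) k = brgMs a ps k := by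
  unfold trMs brgMs
  rw [← List.getElem?_map, ← List.getElem?_map]
  unfold ckStp
  rw [brg_ss_stp_m]
  rfl

theorem brg_ss_gp (n : ℕ) (a : ℝ) (b h : ℝ → ℝ) (ps : List GhPos) (k : ℕ) :
    brgGp (skBase n a) (skLvs n (ckStp a b h ps)) k = brgGap a ps k := by
  unfold brgGp brgGap trPm
  simp only [brg_ss_ms]

/-- a four-leaf number of a chain, forks at positions -/
theorem brg_ss_nuF (a : ℝ) (b h : ℝ → ℝ) (p : GhPos) (s s' : WithTop GhPos) (T : (Fin 4 → SkCfg n) → ℝ) (ps : List GhPos) :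
    ckNuF n a b h 4 (brgR4 p s s') T ps
      = brgN4 n a (ckStp a b h ps) 0 (ghIdx ps (p : WithTop GhPos)) (ghIdx ps s) (ghIdx ps s') T := by
  unfold ckNuF brgN4
  rw [brg_ss_disc]
  unfold ckStp
  rw [brg_ss_stp_length]

/-- the signed sum over the cuts of a chain = the signed measure `brgLL` -/
theorem brg_ss_W_LL {a : ℝ} (ha : 0 < a) (b h : ℝ → ℝ) (F : Finset GhPos) (g : ℕ → ℝ) :
    ∑ k ∈ Finset.range ((ghPs a F).length + 2), brgW (skBase n a) (skLvs n (ckStp a b h (ghPs a F))) k * g k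
      = brgLL a fun s => g (ghIdx (ghPs a F) s) := by
  have hlen : (skLvs n (ckStp a b h (ghPs a F))).length = (ghPs a F).length := by
    rw [obu_lvs_length]; unfold ckStp; rw [brg_ss_stp_length]
  rw [Finset.sum_range_succ _ ((ghPs a F).length + 1)]
  have e : ∀ k ∈ Finset.range ((ghPs a F).length + 1),
      brgW (skBase n a) (skLvs n (ckStp a b h (ghPs a F))) k * g k = -(brgGap a (ghPs a F) k * g k) := by
    intro k hk
    unfold brgW
    rw [hlen, if_neg (by have := Finset.mem_range.1 hk; omega), brg_ss_gp]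
    ring
  rw [Finset.sum_congr rfl e, Finset.sum_neg_distrib, brg_sum_gap ha.le]
  unfold brgW brgLL
  rw [hlen, if_pos rfl]
  simp only [gh_ct_idx_top]
  have : (skBase n a).a = a := rfl
  rw [this]
  ring

/-- **`E tr H²` on a chain** -/
theorem brg_ss_chain_H2 {a : ℝ} (ha : 0 < a) {b h : ℝ → ℝ} (hbh : CkAdm a b h) (F : Finset GhPos) (p : GhPos) :
    obTrH2 n a (ckStp a b h (ghPs a F)) 0 (ghIdx (ghPs a F) (p : WithTop GhPos))
      = ∑ i, ∑ l, brgLL a fun s => brgLL a fun s' => ckNuF n a b h 4 (brgR4 p s s') (brgTs i l i l) (ghPs a F) := by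
  have hps : GhChOk a (ghPs a F) := ⟨gh_os_ps_lt a F, fun _ hp => (gh_os_ps_mem.1 hp).2⟩
  have hlen : (ckStp a b h (ghPs a F)).length = (ghPs a F).length := by unfold ckStp; rw [brg_ss_stp_length]
  rw [brg_ss_H2 ha (brg_ss_stp_adm ha hbh hps) 0 (by rw [hlen]; exact gh_ct_idx_coe_le _ p)]
  refine Finset.sum_congr rfl fun i _ => Finset.sum_congr rfl fun l _ => ?_
  simp only [brg_ss_nuF]
  rw [hlen]
  rw [← brg_ss_W_LL (n := n) ha b h F fun k => brgLL a fun s' =>
    brgN4 n a (ckStp a b h (ghPs a F)) 0 (ghIdx (ghPs a F) (p : WithTop GhPos)) k (ghIdx (ghPs a F) s') (brgTs i l i l)]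
  refine Finset.sum_congr rfl fun k _ => ?_
  rw [← brg_ss_W_LL (n := n) ha b h F fun k' =>
    brgN4 n a (ckStp a b h (ghPs a F)) 0 (ghIdx (ghPs a F) (p : WithTop GhPos)) k k' (brgTs i l i l), Finset.mul_sum]
  exact Finset.sum_congr rfl fun k' _ => by ring

/-- **`E tr C²` on a chain** -/
theorem brg_ss_chain_C2 {a : ℝ} (ha : 0 < a) {b h : ℝ → ℝ} (hbh : CkAdm a b h) {ps : List GhPos} (hps : GhChOk a ps) (p : GhPos) :
    obTrC2 n a (ckStp a b h ps) 0 (ghIdx ps (p : WithTop GhPos))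
      = ∑ i, ∑ l, (ckNuF n a b h 4 (brgR4 p ⊤ ⊤) (brgTs i l i l) ps - ckNuF n a b h 4 (brgR4 p ⊤ p) (brgTs i l i l) ps
          - ckNuF n a b h 4 (brgR4 p p ⊤) (brgTs i l i l) ps + ckNuF n a b h 4 (brgR4 p p p) (brgTs i l i l) ps) := by
  have hlen : (ckStp a b h ps).length = ps.length := by unfold ckStp; rw [brg_ss_stp_length]
  rw [brg_ss_C2 ha (brg_ss_stp_adm ha hbh hps) 0 (by rw [hlen]; exact gh_ct_idx_coe_le _ p)]
  refine Finset.sum_congr rfl fun i _ => Finset.sum_congr rfl fun l _ => ?_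
  simp only [brg_ss_nuF, gh_ct_idx_top, hlen]
  unfold brgN4
  rw [hlen]
  set j := ghIdx ps (p : WithTop GhPos)
  rw [brg_ss_T4_max ps.length j (ps.length + 1) 0, brg_ss_T4_max ps.length j 0 (ps.length + 1), brg_ss_T4_max ps.length j 0 0,
    brg_ss_T4_max ps.length j (ps.length + 1) j, brg_ss_T4_max ps.length j j (ps.length + 1), brg_ss_T4_max ps.length j j j]
  simp only [Nat.zero_max, max_self]

/-- **`E|X|⁴` on a chain** -/
theorem brg_ss_chain_X4 {a : ℝ} (ha : 0 < a) {b h : ℝ → ℝ} (hbh : CkAdm a b h) {ps : List GhPos} (hps : GhChOk a ps) (p : GhPos) :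
    ckX4F n a (ckStp a b h ps) (ghIdx ps (p : WithTop GhPos))
      = ∑ i, ∑ l, ckNuF n a b h 4 (brgR4 p p p) (brgTs i i l l) ps := by
  have hlen : (ckStp a b h ps).length = ps.length := by unfold ckStp; rw [brg_ss_stp_length]
  rw [brg_ss_X4 ha (brg_ss_stp_adm ha hbh hps) (by rw [hlen]; exact gh_ct_idx_coe_le _ p)]
  refine Finset.sum_congr rfl fun i _ => Finset.sum_congr rfl fun l _ => ?_
  simp only [brg_ss_nuF]
  unfold brgN4
  rw [hlen]
  set j := ghIdx ps (p : WithTop GhPos)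
  rw [brg_ss_T4_max ps.length j 0 0, brg_ss_T4_max ps.length j j j]
  simp only [Nat.zero_max, max_self]

/-- the representatives of two labels -/
theorem brg_ss_rep2 (ps : List GhPos) (p : GhPos) :
    ghRepN 2 (ghDisc ps (ghR2 p)) = (obT2 (ghIdx ps (p : WithTop GhPos))).rep := by
  funext t x
  have hs : (Finset.univ.filter fun y : Fin 2 => y = x ∨ t < ghDisc ps (ghR2 p) x.1 y.1)
      = Finset.univ.filter fun y : Fin 2 => y = x ∨ t < (obT2 (ghIdx ps (p : WithTop GhPos))).sh x y := by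
    refine Finset.filter_congr fun y _ => ?_
    simp only [obT2, ghDisc, ghR2]
    constructor
    · rintro (h | h)
      · left; exact h
      · by_cases hxy : x.1 = y.1
        · left; exact (Fin.ext hxy).symm
        · right; simpa [hxy] using h
    · rintro (h | h)
      · left; exact h
      · by_cases hxy : x.1 = y.1
        · left; exact (Fin.ext hxy).symm
        · right; simpa [hxy] using h
  unfold ghRepN GhTree.rep
  simp only [hs]

/-- **`S` on a chain** -/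
theorem brg_ss_chain_S (hn : 0 < n) {a : ℝ} (ha : 0 < a) {b h : ℝ → ℝ} (hbh : CkAdm a b h) {ps : List GhPos} (hps : GhChOk a ps)
    (p : GhPos) :
    obS n a (ckStp a b h ps) 0 (ghIdx ps (p : WithTop GhPos)) = ckNuF n a b h 2 (ghR2 p) (fun σ => skOv (σ 0) (σ 1)) ps := by
  have hlen : (ckStp a b h ps).length = ps.length := by unfold ckStp; rw [brg_ss_stp_length]
  rw [← obt_S_two hn ha _ (brg_ss_stp_adm ha hbh hps) 0 _ (by rw [hlen]; exact gh_ct_idx_coe_le _ p)]
  unfold ckNuF GhTree.nu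
  rw [brg_ss_rep2]

/-- **`B` on a chain** -/
theorem brg_ss_chain_B (hn : 0 < n) {a : ℝ} (ha : 0 < a) {b h : ℝ → ℝ} (hbh : CkAdm a b h) {ps : List GhPos} (hps : GhChOk a ps)
    (p : GhPos) :
    obB n a (ckStp a b h ps) 0 (ghIdx ps (p : WithTop GhPos)) = ckNuF n a b h 2 (ghR2 p) (fun σ => skOv (σ 0) (σ 1) ^ 2) ps := by
  have hlen : (ckStp a b h ps).length = ps.length := by unfold ckStp; rw [brg_ss_stp_length]
  rw [← obt_B_two hn ha _ (brg_ss_stp_adm ha hbh hps) 0 _ (by rw [hlen]; exact gh_ct_idx_coe_le _ p)]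
  unfold ckNuF GhTree.nu
  rw [brg_ss_rep2]

/-! ### the same with the overlap tests (linearity of the tree numbers in the spin test) -/

theorem brg_ss_N4_sum2 {a : ℝ} (ha : 0 < a) {P : SkStp} (hP : SkAdm a P) (z₀ : SkCfg n → ℝ) (j k k' : ℕ)
    (T : Fin n → Fin n → (Fin 4 → SkCfg n) → ℝ) :
    brgN4 n a P z₀ j k k' (fun σ => ∑ i, ∑ l, T i l σ) = ∑ i, ∑ l, brgN4 n a P z₀ j k k' (T i l) := by
  unfold brgN4
  rw [gh_c4_sum (skBase n a) (obu_base_ok n ha) _ (obu_lvs_nn n hP) _ _ Finset.univ fun i σ => ∑ l, T i l σ]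
  refine Finset.sum_congr rfl fun i _ => ?_
  rw [gh_c4_sum (skBase n a) (obu_base_ok n ha) _ (obu_lvs_nn n hP) _ _ Finset.univ fun l σ => T i l σ]

theorem brg_ss_Ts_sum_H (hn : 0 < n) (σ : Fin 4 → SkCfg n) :
    ∑ i, ∑ l, brgTs i l i l σ = skOv (σ 0) (σ 2) * skOv (σ 1) (σ 3) := by
  rw [← obu_feat_h hn, ← obu_feat_h hn, Finset.sum_mul_sum]
  exact Finset.sum_congr rfl fun i _ => Finset.sum_congr rfl fun l _ => by unfold brgTs; ring

theorem brg_ss_Ts_sum_X (hn : 0 < n) (σ : Fin 4 → SkCfg n) :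
    ∑ i, ∑ l, brgTs i i l l σ = skOv (σ 0) (σ 1) * skOv (σ 2) (σ 3) := by
  rw [← obu_feat_h hn, ← obu_feat_h hn, Finset.sum_mul_sum]
  exact Finset.sum_congr rfl fun i _ => Finset.sum_congr rfl fun l _ => by unfold brgTs; ring

/-- the double functional of the four-leaf numbers of a chain as a signed double sum over the cuts -/
theorem brg_ss_LL_LL {a : ℝ} (ha : 0 < a) (b h : ℝ → ℝ) (F : Finset GhPos) (p : GhPos) (T : (Fin 4 → SkCfg n) → ℝ) :
    (brgLL a fun s => brgLL a fun s' => ckNuF n a b h 4 (brgR4 p s s') T (ghPs a F))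
      = ∑ k ∈ Finset.range ((ghPs a F).length + 2), ∑ k' ∈ Finset.range ((ghPs a F).length + 2),
          brgW (skBase n a) (skLvs n (ckStp a b h (ghPs a F))) k * brgW (skBase n a) (skLvs n (ckStp a b h (ghPs a F))) k' *
            brgN4 n a (ckStp a b h (ghPs a F)) 0 (ghIdx (ghPs a F) (p : WithTop GhPos)) k k' T := by
  simp only [brg_ss_nuF]
  rw [← brg_ss_W_LL (n := n) ha b h F fun k => brgLL a fun s' =>
    brgN4 n a (ckStp a b h (ghPs a F)) 0 (ghIdx (ghPs a F) (p : WithTop GhPos)) k (ghIdx (ghPs a F) s') T]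
  refine Finset.sum_congr rfl fun k _ => ?_
  rw [← brg_ss_W_LL (n := n) ha b h F fun k' =>
    brgN4 n a (ckStp a b h (ghPs a F)) 0 (ghIdx (ghPs a F) (p : WithTop GhPos)) k k' T, Finset.mul_sum]
  exact Finset.sum_congr rfl fun k' _ => by ring

/-- **`E tr H²` on a chain**, overlap test -/
theorem brg_ss_chain_H2' (hn : 0 < n) {a : ℝ} (ha : 0 < a) {b h : ℝ → ℝ} (hbh : CkAdm a b h) (F : Finset GhPos) (p : GhPos) :
    obTrH2 n a (ckStp a b h (ghPs a F)) 0 (ghIdx (ghPs a F) (p : WithTop GhPos))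
      = brgLL a fun s => brgLL a fun s' =>
          ckNuF n a b h 4 (brgR4 p s s') (fun σ => skOv (σ 0) (σ 2) * skOv (σ 1) (σ 3)) (ghPs a F) := by
  have hps : GhChOk a (ghPs a F) := ⟨gh_os_ps_lt a F, fun _ hp => (gh_os_ps_mem.1 hp).2⟩
  have hA := brg_ss_stp_adm ha hbh hps
  rw [brg_ss_chain_H2 ha hbh, brg_ss_LL_LL ha]
  simp only [brg_ss_LL_LL ha, ← brg_ss_Ts_sum_H hn, brg_ss_N4_sum2 ha hA, Finset.mul_sum]
  rw [Finset.sum_congr rfl fun i _ => Finset.sum_comm]
  rw [Finset.sum_comm]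
  refine Finset.sum_congr rfl fun k _ => ?_
  rw [Finset.sum_congr rfl fun i _ => Finset.sum_comm]
  rw [Finset.sum_comm]

theorem brg_ss_nuF_sum2 {a : ℝ} (ha : 0 < a) {b h : ℝ → ℝ} (hbh : CkAdm a b h) {ps : List GhPos} (hps : GhChOk a ps)
    (τ : ℕ → ℕ → WithTop GhPos) (T : Fin n → Fin n → (Fin 4 → SkCfg n) → ℝ) :
    ckNuF n a b h 4 τ (fun σ => ∑ i, ∑ l, T i l σ) ps = ∑ i, ∑ l, ckNuF n a b h 4 τ (T i l) ps := by
  have hA := brg_ss_stp_adm ha hbh hps
  unfold ckNuF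
  rw [gh_c4_sum (skBase n a) (obu_base_ok n ha) _ (obu_lvs_nn n hA) _ _ Finset.univ fun i σ => ∑ l, T i l σ]
  refine Finset.sum_congr rfl fun i _ => ?_
  rw [gh_c4_sum (skBase n a) (obu_base_ok n ha) _ (obu_lvs_nn n hA) _ _ Finset.univ fun l σ => T i l σ]

/-- **`E tr C²` on a chain**, overlap test -/
theorem brg_ss_chain_C2' (hn : 0 < n) {a : ℝ} (ha : 0 < a) {b h : ℝ → ℝ} (hbh : CkAdm a b h) {ps : List GhPos} (hps : GhChOk a ps)
    (p : GhPos) :
    obTrC2 n a (ckStp a b h ps) 0 (ghIdx ps (p : WithTop GhPos))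
      = ckNuF n a b h 4 (brgR4 p ⊤ ⊤) (fun σ => skOv (σ 0) (σ 2) * skOv (σ 1) (σ 3)) ps
        - ckNuF n a b h 4 (brgR4 p ⊤ p) (fun σ => skOv (σ 0) (σ 2) * skOv (σ 1) (σ 3)) ps
        - ckNuF n a b h 4 (brgR4 p p ⊤) (fun σ => skOv (σ 0) (σ 2) * skOv (σ 1) (σ 3)) ps
        + ckNuF n a b h 4 (brgR4 p p p) (fun σ => skOv (σ 0) (σ 2) * skOv (σ 1) (σ 3)) ps := by
  rw [brg_ss_chain_C2 ha hbh hps]
  simp only [← brg_ss_Ts_sum_H hn, brg_ss_nuF_sum2 ha hbh hps, Finset.sum_add_distrib, Finset.sum_sub_distrib]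

/-- **`E|X|⁴` on a chain**, overlap test -/
theorem brg_ss_chain_X4' (hn : 0 < n) {a : ℝ} (ha : 0 < a) {b h : ℝ → ℝ} (hbh : CkAdm a b h) {ps : List GhPos} (hps : GhChOk a ps)
    (p : GhPos) :
    ckX4F n a (ckStp a b h ps) (ghIdx ps (p : WithTop GhPos))
      = ckNuF n a b h 4 (brgR4 p p p) (fun σ => skOv (σ 0) (σ 1) * skOv (σ 2) (σ 3)) ps := by
  rw [brg_ss_chain_X4 ha hbh hps]
  simp only [← brg_ss_Ts_sum_X hn, brg_ss_nuF_sum2 ha hbh hps]

end chain

end Claimed.Agent.R286
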