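import Claimed.Agent.R286.Brg.Refine
import Claimed.Agent.R286.Brg.PrLeaf
import Claimed.Agent.R286.Brg.Net
import Claimed.Agent.R286.Brg.Pos
import Claimed.Agent.R286.Brg.ChTr
import Claimed.Agent.R286.Fd.ClkDefs
import Claimed.Agent.R286.Fd.ObsTw
import Claimed.Agent.R286.Brg.StatFin
import Claimed.Agent.R286.Brg.StatSk
import Claimed.Agent.R286.Brg.PrKit

/-!
# Row 286 (S0533), Brg/Stat : block H of the clock API, LIMIT part      (typed by helper55, 04:35Z; OWNER from 04:25Z: helper125; prefix `brg_s_`, defs `brgCut`, `brgQ4`, `BrgFkP`, `BrgGood`; `brgR4`, `brgLL`, `BrgOkT` live in `Brg/StatSk.lean` of 226)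

DESIGN: origin/helper226:notes/R286/H_design_226.md (LIM) + origin/helper55:notes/R286/H_iface_55.md.      FIN = `Brg/StatFin.lean` (226).
DO NOT import `Brg/Path`, `Exit/ClkStat`, `Brg/Stat251` here (cycles: `Exit/ClkLip`, `Exit/ClkLim` must import this file).

* `brg_s_fork`  PROVED    GENERAL FORK MODULUS on one chain (forks may merge): two real trees which, at each pair of labels, agree or have both forks in `[x, x']`.
                          `exit_clkC2` = corollary (`τ' = ghRMove τ x x'`); `exit_clk_fork` = at most `2 q²` such moves, then the limit.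
* `brgR4 p s s'`          real tree of four labels: `{0,1}` fork at `max s p`, `{2,3}` at `max s' p`, the two pairs at `p`.
* `brgLL a f = a f(⊤) - ∫_0^a f (u,1) du`      the functional which is FREE of the chain (`brg_sum_gap` turns the gap sums of the Abel form of `ghH` into it).
* `brgQ4 .. T p ps = LL (s ↦ LL (s' ↦ ckNuF 4 (brgR4 p s s') T ps))`.
PLAN.  (R) `brg_s_rep_H2/C2/X4`: FIN (e) + `brg_s_R4_disc` + `brg_s_LL_sum`.   (C) `brg_s_Q4_refine`: `brg_s_LL_close` twice + `gh_br_ask_nu_refine` (`brg_s_R4_fk`: forks `(u,1)` off the masses of `F`).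
(L) `gh_nt_cauchy` with `F₀ = {p}` and `ω F = 160 a⁴ (modulus of F)`: `GhLimEx` + rate for EVERY `F ∋ p`, uniform in `p` => `exit_clk_lim_stat` (`brg_fine_eventually`).
(Lip) `gh_br_clkLip` termwise under `LL LL`, then `gh_nt_le`-type closure => `exit_clk_stat_lip`.   (Pos) `brg_s_fork` termwise (`x = p`, `x' = p'`, trees `brgR4 p s s'`, `brgR4 p' s s'`) => `exit_clk_stat_pos`.
`S`, `B`: `obt_S_two`, `obt_B_two` + table of `obT2` (`brg_disc_r2`, `brg_t_rep_eq`-type dictionary), same three steps with `q = 2`, tree `ghR2 p`.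
SK constants: `∑ i, c i * skPhi n s i ^ 2 = n (cb / 2 + ch)` for `c = Sum.elim cb ch`; `ckNuF = ghCNuF (skBase n a) (skPhi n) (skClk n b h) 0` by `sk_c_chain`.
-/

set_option autoImplicit false

namespace Claimed.Agent.R286

open MeasureTheory Filter Topology Set

noncomputable section

/-! ### the general fork modulus on one chain -/

/-- the chain without its positions in `(x, x']` -/
def brgCut (x x' : GhPos) (ps : List GhPos) : List GhPos := ps.filter fun r => decide (¬ (x < r ∧ r ≤ x'))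

theorem brg_s_cut_sub (x x' : GhPos) (ps : List GhPos) : (brgCut x x' ps).Sublist ps := List.filter_sublist

theorem brg_s_cut_mem {x x' r : GhPos} {ps : List GhPos} : r ∈ brgCut x x' ps ↔ r ∈ ps ∧ ¬ (x < r ∧ r ≤ x') := by
  unfold brgCut
  simp only [List.mem_filter, decide_eq_true_eq]

/-- on the cut chain all the positions of `[x, x']` have the same index -/
theorem brg_s_cut_idx {x x' : GhPos} (ps : List GhPos) {f : WithTop GhPos} (h1 : (x : WithTop GhPos) ≤ f)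
    (h2 : f ≤ (x' : WithTop GhPos)) : ghIdx (brgCut x x' ps) f = ghIdx (brgCut x x' ps) (x : WithTop GhPos) := by
  obtain ⟨g, rfl⟩ := WithTop.ne_top_iff_exists.mp (ne_top_of_le_ne_top WithTop.coe_ne_top h2)
  have h1' : x ≤ g := WithTop.coe_le_coe.mp h1
  have h2' : g ≤ x' := WithTop.coe_le_coe.mp h2
  rw [gh_rm_idx_eq, gh_rm_idx_eq]
  simp only [WithTop.coe_ne_top, if_false, WithTop.coe_le_coe]
  congr 2
  apply List.filter_congr
  intro r hr
  have hr' := (brg_s_cut_mem.mp hr).2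
  have : r ≤ g ↔ r ≤ x := by
    constructor
    · intro hrg
      by_contra hc
      exact hr' ⟨not_le.mp hc, hrg.trans h2'⟩
    · intro hrx
      exact hrx.trans h1'
  simp [this]

variable {S ι : Type}

/-- the held values of the cut chain -/
theorem brg_s_cut_held (W : GhPos → ι → ℝ) {x x' : GhPos} {ps : List GhPos} (hs : ps.Pairwise (· < ·)) (hx : x ∈ ps)
    {r : GhPos} (hr : r ∈ ps) : ghBrHeld W (brgCut x x' ps) r = if x < r ∧ r ≤ x' then W x else W r := by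
  have hs0 : (brgCut x x' ps).Pairwise (· < ·) := hs.sublist (brg_s_cut_sub x x' ps)
  split_ifs with h
  · have hx0 : x ∈ brgCut x x' ps := brg_s_cut_mem.mpr ⟨hx, fun c => lt_irrefl _ c.1⟩
    rw [← gh_br_held_self W hs0 hx0]
    unfold ghBrHeld
    congr 1
    apply List.filter_congr
    intro p hp
    have hp' := (brg_s_cut_mem.mp hp).2
    have : p ≤ r ↔ p ≤ x := by
      constructor
      · intro hpr
        by_contra hc
        exact hp' ⟨not_le.mp hc, hpr.trans h.2⟩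
      · intro hpx
        exact hpx.trans h.1.le
    simp [this]
  · exact gh_br_held_self W hs0 (brg_s_cut_mem.mpr ⟨hr, h⟩)

variable [Fintype S] [Fintype ι]

/-- **GENERAL FORK MODULUS on one chain** TEX[PE:prop:found-limits]: at each pair of labels the two trees agree, or both forks lie in `[x, x']`; `x` is a position of the chain.
`M` = growth of the diagonal of the cumulative kernel between `x` and `x'`.      No term in the masses; the forks may merge, and need not belong to the chain. -/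
theorem brg_s_fork {B : GhB S} (hB : B.Ok) (Φ : S → ι → ℝ) {v : ι → ℝ → ℝ} (hv : GhClk B.a v) {ps : List GhPos}
    (hps : GhChOk B.a ps) (z : S → ℝ) {q : ℕ} {τ τ' : ℕ → ℕ → WithTop GhPos} (hτ : GhIsRT B.a q τ) (hτ' : GhIsRT B.a q τ')
    {x x' : GhPos} (hx : x ∈ ps) (hx' : x'.Ok B.a) (hxx : x ≤ x')
    (hd : ∀ y w, y < q → w < q → τ y w = τ' y w ∨
      ((x : WithTop GhPos) ≤ τ y w ∧ τ y w ≤ (x' : WithTop GhPos) ∧ (x : WithTop GhPos) ≤ τ' y w ∧ τ' y w ≤ (x' : WithTop GhPos)))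
    {M : ℝ} (hM : ∀ s, ghKer Φ (fun i => ghClkAt B.a v x' i - ghClkAt B.a v x i) s s ≤ M)
    (P : (Fin q → S) → ℝ) {K : ℝ} (hP : ∀ σ, |P σ| ≤ K) :
    |ghCNuF B Φ v z q τ' P ps - ghCNuF B Φ v z q τ P ps| ≤ 4 * B.a ^ 2 * q * (q + 1) * M * K := by
  have ha : 0 ≤ B.a := hB.pos.le
  obtain ⟨hs, hok⟩ := hps
  set W := ghClkAt B.a v with hWdef
  have hW : GhBrVal B.a W := gh_br_clk_val ha hv
  set ps₀ := brgCut x x' ps with hps₀
  have hsub : ps₀.Sublist ps := brg_s_cut_sub x x' ps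
  have hs₀ : ps₀.Pairwise (· < ·) := hs.sublist hsub
  have hok₀ : ∀ p ∈ ps₀, p.Ok B.a := fun p hp => hok p (hsub.subset hp)
  have hxok : x.Ok B.a := hok x hx
  rw [gh_rm_cnuF_eq, gh_rm_cnuF_eq]
  -- removal of the emptied positions, any tree
  have e3 : ∀ σ : ℕ → ℕ → WithTop GhPos,
      ghNuV B Φ (ghBrHeld W ps₀) z q σ P ps = ghNuV B Φ (ghBrHeld W ps₀) z q σ P ps₀ := by
    intro σ
    apply gh_br_held_gen hs hsub W (ghNuV B Φ (ghBrHeld W ps₀) z q σ P)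
    intro l₁ r l₂ hL hr
    obtain ⟨h1, h2, -⟩ := gh_br_pw_split (hs.sublist hL)
    exact gh_rm_nuV_empty B Φ _ z q σ P h1 h2 hr
  -- the tables agree on the cut chain
  have eT : ghNuV B Φ (ghBrHeld W ps₀) z q τ P ps₀ = ghNuV B Φ (ghBrHeld W ps₀) z q τ' P ps₀ := by
    unfold ghNuV
    have : ghRepN q (ghDisc ps₀ τ) = ghRepN q (ghDisc ps₀ τ') := by
      funext t
      apply gh_rm_repN_congr
      intro a b
      unfold ghDisc
      rcases hd a.1 b.1 a.2 b.2 with h | ⟨h1, h2, h3, h4⟩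
      · rw [h]
      · rw [brg_s_cut_idx ps h1 h2, brg_s_cut_idx ps h3 h4]
    rw [this]
  -- the distance
  have hO : ∀ s, ∑ i, (W x' i - W x i) * Φ s i ^ 2 ≤ M := by
    intro s
    refine le_trans (le_of_eq ?_) (hM s)
    unfold ghKer
    exact Finset.sum_congr rfl fun i _ => by ring
  have hmono : ∀ i, W x i ≤ W x' i := fun i => hW.mono x x' hxok hx' hxx i
  have hdist : ∀ r ∈ ps, ∀ s t, |ghBrKer Φ (fun i => W r i - ghBrHeld W ps₀ r i) s t| ≤ M := by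
    intro r hr s t
    refine gh_br_ker_le Φ (O := fun i => W x' i - W x i) (fun i => ?_) (fun i => ?_) hO s t
    · rw [brg_s_cut_held W hs hx hr]
      split_ifs with h
      · have := hW.mono x r hxok (hok r hr) h.1.le i
        linarith
      · simp
    · rw [brg_s_cut_held W hs hx hr]
      split_ifs with h
      · have := hW.mono r x' (hok r hr) hx' h.2 i
        linarith
      · have := hmono i
        simpa using this
  have hM0 : 0 ≤ M := by
    obtain ⟨s⟩ := gh_br_nonempty hB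
    refine le_trans ?_ (hO s)
    exact Finset.sum_nonneg fun i _ => mul_nonneg (by have := hmono i; linarith) (sq_nonneg _)
  have hA1 := gh_br_adm_held hW hs₀ hok₀ hs hok
  have hA2 := gh_br_adm_of_val hW hs hok
  have e2 := gh_br_nu_engine hB Φ hA1 hA2 z hτ P hP hM0 hdist
  have e2' := gh_br_nu_engine hB Φ hA1 hA2 z hτ' P hP hM0 hdist
  unfold ghBrNu at e2 e2'
  rw [gh_br_ch_chV, gh_br_ch_chV] at e2 e2'
  have e5 : ghNuV B Φ (ghBrHeld W ps₀) z q τ P ps = ghNuV B Φ (ghBrHeld W ps₀) z q τ' P ps := by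
    rw [e3 τ, e3 τ', eT]
  unfold ghNuV at e5 ⊢
  rw [abs_le] at e2 e2' ⊢
  constructor <;> nlinarith [e2.1, e2.2, e2'.1, e2'.2]

/-! ### four labels      (`brgR4`, `brgLL`, `BrgOkT`, `brg_ss_rt`, `brg_ss_disc`, the chain forms `brg_ss_chain_*`: `Brg/StatSk.lean`) -/

/-- the double functional of the four-leaf numbers of one chain -/
def brgQ4 (n : ℕ) (a : ℝ) (b h : ℝ → ℝ) (T : (Fin 4 → SkCfg n) → ℝ) (p : GhPos) (ps : List GhPos) : ℝ :=
  brgLL a fun s => brgLL a fun s' => ckNuF n a b h 4 (brgR4 p s s') T ps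

/-- a fork which is compatible with the finite set `F`: `⊤`, a position of `F`, or a position such that no later valid position of `F` has its mass -/
def BrgFkP (a : ℝ) (F : Finset GhPos) (s : WithTop GhPos) : Prop :=
  ∀ f : GhPos, s = (f : WithTop GhPos) → f ∈ F ∨ ∀ r ∈ F, r.Ok a → f < r → f.u < r.u

/-- the points which carry the signed measure `brgLL`: `⊤` and the positions `(u,1)`, `u ∈ [0,a]` -/
def BrgGood (a : ℝ) (s : WithTop GhPos) : Prop :=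
  s = ⊤ ∨ ∃ u : ℝ, u ∈ Icc 0 a ∧ s = ((ghPosA u : GhPos) : WithTop GhPos)

theorem brg_s_eqns_cite : True := by
  have := @brgCut.eq_1
  have := @brgQ4.eq_1
  have := @BrgFkP.eq_1
  have := @BrgGood.eq_1
  trivial

theorem brg_s_fkP_top (a : ℝ) (F : Finset GhPos) : BrgFkP a F ⊤ := fun f h => absurd h (by simp)

theorem brg_s_fkP_mem {a : ℝ} {F : Finset GhPos} {p : GhPos} (hp : p ∈ F) : BrgFkP a F (p : WithTop GhPos) := fun f h => by
  rw [← WithTop.coe_injective h]; exact Or.inl hp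

/-- a position AFTER a jump is compatible with every finite set -/
theorem brg_s_fkP_lam {a : ℝ} (F : Finset GhPos) {p : GhPos} (hp : p.lam = 1) : BrgFkP a F (p : WithTop GhPos) := fun f h => by
  rw [← WithTop.coe_injective h]
  refine Or.inr fun r _ hr hlt => ?_
  rcases (gh_os_pos_lt_iff _ _).1 hlt with h' | h'
  · exact h'
  · exact absurd hr.2.2.2 (by rw [hp] at h'; exact not_le.2 h'.2)

theorem brg_s_fkP_max {a : ℝ} {F : Finset GhPos} {s t : WithTop GhPos} (hs : BrgFkP a F s) (ht : BrgFkP a F t) :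
    BrgFkP a F (max s t) := by
  rcases le_total s t with h | h
  · rw [max_eq_right h]; exact ht
  · rw [max_eq_left h]; exact hs

theorem brg_s_good_fkP {a : ℝ} (F : Finset GhPos) {s : WithTop GhPos} (hs : BrgGood a s) : BrgFkP a F s := by
  rcases hs with rfl | ⟨u, _, rfl⟩
  · exact brg_s_fkP_top a F
  · exact brg_s_fkP_lam F rfl

theorem brg_s_good_ok {a : ℝ} {s : WithTop GhPos} (hs : BrgGood a s) : BrgOkT a s := by
  rcases hs with rfl | ⟨u, hu, rfl⟩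
  · exact brg_ss_okT_top a
  · exact brg_ss_okT_coe (gh_os_posA_ok hu.1 hu.2)

/-- compatibility of the forks of `brgR4` -/
theorem brg_s_R4_fk {a : ℝ} {F : Finset GhPos} {p : GhPos} {s s' : WithTop GhPos} (hp : BrgFkP a F (p : WithTop GhPos))
    (hs : BrgFkP a F s) (hs' : BrgFkP a F s') : BrgFk a 4 (brgR4 p s s') F := by
  intro x y _ _ f hf
  unfold brgR4 at hf
  split_ifs at hf
  · exact absurd hf (by simp)
  · exact brg_s_fkP_max hs hp f hf
  · exact brg_s_fkP_max hs' hp f hf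
  · exact hp f hf

theorem brg_s_r2_fk {a : ℝ} {F : Finset GhPos} {p : GhPos} (hp : BrgFkP a F (p : WithTop GhPos)) (q : ℕ) :
    BrgFk a q (ghR2 p) F := by
  intro x y _ _ f hf
  unfold ghR2 at hf
  split_ifs at hf
  · exact absurd hf (by simp)
  · exact hp f hf

/-! ### the functional `brgLL` -/

/-- comparison: closeness at `⊤` and at the positions `(u,1)` -/
theorem brg_s_LL_close {a : ℝ} (ha : 0 ≤ a) {f f' : WithTop GhPos → ℝ}
    (hf : IntervalIntegrable (fun u => f ((ghPosA u : GhPos) : WithTop GhPos)) volume 0 a)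
    (hf' : IntervalIntegrable (fun u => f' ((ghPosA u : GhPos) : WithTop GhPos)) volume 0 a)
    {ε : ℝ} (h : ∀ s, BrgGood a s → |f' s - f s| ≤ ε) :
    |brgLL a f' - brgLL a f| ≤ 2 * a * ε := by
  unfold brgLL
  have h1 : |f' ⊤ - f ⊤| ≤ ε := h ⊤ (Or.inl rfl)
  have h2 : |(∫ u in (0 : ℝ)..a, f' ((ghPosA u : GhPos) : WithTop GhPos))
      - ∫ u in (0 : ℝ)..a, f ((ghPosA u : GhPos) : WithTop GhPos)| ≤ ε * a := by
    rw [← intervalIntegral.integral_sub hf' hf]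
    have := intervalIntegral.norm_integral_le_of_norm_le_const (a := (0:ℝ)) (b := a) (C := ε)
      (f := fun u => f' ((ghPosA u : GhPos) : WithTop GhPos) - f ((ghPosA u : GhPos) : WithTop GhPos))
      (fun u hu' => by
        rw [uIoc_of_le ha] at hu'
        rw [Real.norm_eq_abs]
        exact h _ (Or.inr ⟨u, ⟨hu'.1.le, hu'.2⟩, rfl⟩))
    rwa [Real.norm_eq_abs, sub_zero, abs_of_nonneg ha] at this
  have e : a * f' ⊤ - (∫ u in (0 : ℝ)..a, f' ((ghPosA u : GhPos) : WithTop GhPos))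
      - (a * f ⊤ - ∫ u in (0 : ℝ)..a, f ((ghPosA u : GhPos) : WithTop GhPos))
      = a * (f' ⊤ - f ⊤) - ((∫ u in (0 : ℝ)..a, f' ((ghPosA u : GhPos) : WithTop GhPos))
      - ∫ u in (0 : ℝ)..a, f ((ghPosA u : GhPos) : WithTop GhPos)) := by ring
  rw [e]
  have h3 : |a * (f' ⊤ - f ⊤)| ≤ a * ε := by
    rw [abs_mul, abs_of_nonneg ha]
    exact mul_le_mul_of_nonneg_left h1 ha
  calc _ ≤ |a * (f' ⊤ - f ⊤)| + _ := abs_sub _ _
    _ ≤ a * ε + ε * a := add_le_add h3 h2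
    _ = 2 * a * ε := by ring

/-- the double functional on two step tables (two chains `F`, `F'`) -/
theorem brg_s_LL2_close {a : ℝ} (ha : 0 ≤ a) (F F' : Finset GhPos) (G G' : ℕ → ℕ → ℝ) {ε : ℝ}
    (h : ∀ s s' : WithTop GhPos, BrgGood a s → BrgGood a s' →
      |G' (ghIdx (ghPs a F') s) (ghIdx (ghPs a F') s') - G (ghIdx (ghPs a F) s) (ghIdx (ghPs a F) s')| ≤ ε) :
    |brgLL a (fun s => brgLL a fun s' => G' (ghIdx (ghPs a F') s) (ghIdx (ghPs a F') s'))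
      - brgLL a (fun s => brgLL a fun s' => G (ghIdx (ghPs a F) s) (ghIdx (ghPs a F) s'))| ≤ (2 * a) ^ 2 * ε := by
  have key := brg_s_LL_close ha
    (f := fun s => brgLL a fun s' => G (ghIdx (ghPs a F) s) (ghIdx (ghPs a F) s'))
    (f' := fun s => brgLL a fun s' => G' (ghIdx (ghPs a F') s) (ghIdx (ghPs a F') s'))
    (brg_step_intble F fun k => brgLL a fun s' => G k (ghIdx (ghPs a F) s'))
    (brg_step_intble F' fun k => brgLL a fun s' => G' k (ghIdx (ghPs a F') s'))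
    (ε := 2 * a * ε) (fun s hs => brg_s_LL_close ha
      (brg_step_intble F fun k => G (ghIdx (ghPs a F) s) k)
      (brg_step_intble F' fun k => G' (ghIdx (ghPs a F') s) k) fun s' hs' => h s s' hs hs')
  calc _ ≤ 2 * a * (2 * a * ε) := key
    _ = (2 * a) ^ 2 * ε := by ring

/-- **THE COMPARISON LEMMA of block H**: two clocks, two cuts, two chains; closeness of the four-leaf numbers at the good forks ⟹ closeness of the double functionals -/
theorem brg_s_Q4_close {n : ℕ} {a : ℝ} (ha : 0 ≤ a) (b h b' h' : ℝ → ℝ) (T : (Fin 4 → SkCfg n) → ℝ) (p p' : GhPos)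
    (F F' : Finset GhPos) {ε : ℝ}
    (hc : ∀ s s' : WithTop GhPos, BrgGood a s → BrgGood a s' →
      |ckNuF n a b' h' 4 (brgR4 p' s s') T (ghPs a F') - ckNuF n a b h 4 (brgR4 p s s') T (ghPs a F)| ≤ ε) :
    |brgQ4 n a b' h' T p' (ghPs a F') - brgQ4 n a b h T p (ghPs a F)| ≤ (2 * a) ^ 2 * ε := by
  unfold brgQ4
  simp only [brg_ss_nuF] at hc ⊢
  exact brg_s_LL2_close ha F F'
    (fun k k' => brgN4 n a (ckStp a b h (ghPs a F)) 0 (ghIdx (ghPs a F) (p : WithTop GhPos)) k k' T)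
    (fun k k' => brgN4 n a (ckStp a b' h' (ghPs a F')) 0 (ghIdx (ghPs a F') (p' : WithTop GhPos)) k k' T) hc

/-! ### the SK dictionary -/

theorem brg_s_nuF_eq (n : ℕ) (a : ℝ) (b h : ℝ → ℝ) (q : ℕ) (τ : ℕ → ℕ → WithTop GhPos) (P : (Fin q → SkCfg n) → ℝ)
    (ps : List GhPos) :
    ckNuF n a b h q τ P ps = ghCNuF (skBase n a) (skPhi n) (skClk n b h) 0 q τ P ps := by
  have h0 : (Sum.elim (fun _ => (0:ℝ)) fun _ => (0:ℝ) : SkDr n → ℝ) = 0 := by
    funext i; cases i <;> rfl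
  have ea : (skBase n a).a = a := rfl
  unfold ckNuF ghCNuF ckStp
  rw [sk_c_chain, h0, ea]

theorem brg_s_clk (n : ℕ) {a : ℝ} {b h : ℝ → ℝ} (hbh : CkAdm a b h) : GhClk a (skClk n b h) := by
  intro i
  cases i with
  | inl p => exact hbh.1
  | inr i => exact hbh.2

/-- refinement of a tree number of a chain, SK form -/
theorem brg_s_nu_refine {n : ℕ} {a : ℝ} (ha : 0 < a) {b h : ℝ → ℝ} (hbh : CkAdm a b h) {q : ℕ}
    {τ : ℕ → ℕ → WithTop GhPos} (hτ : GhIsRT a q τ) {F F' : Finset GhPos} (hFF : F ⊆ F') (hfk : BrgFk a q τ F) {M : ℝ}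
    (hM : BrgFine a (skPhi n) (skClk n b h) (ghPs a F) M) (P : (Fin q → SkCfg n) → ℝ) {K : ℝ} (hK : ∀ σ, |P σ| ≤ K) :
    |ckNuF n a b h q τ P (ghPs a F') - ckNuF n a b h q τ P (ghPs a F)| ≤ 2 * a ^ 2 * q * (q + 1) * M * K := by
  rw [brg_s_nuF_eq, brg_s_nuF_eq]
  exact gh_br_ask_nu_refine (B := skBase n a) (obu_base_ok n ha) (skPhi n) (brg_s_clk n hbh) 0 hτ hFF hfk hM P hK

/-- (C) refinement of the double functional, uniform in the cut `p`;  `M` = modulus of `F` -/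
theorem brg_s_Q4_refine {n : ℕ} {a : ℝ} (ha : 0 < a) {b h : ℝ → ℝ} (hbh : CkAdm a b h) {F F' : Finset GhPos}
    (hFF : F ⊆ F') {p : GhPos} (hp : BrgFkP a F (p : WithTop GhPos)) (hpo : p.Ok a) {M : ℝ}
    (hM : BrgFine a (skPhi n) (skClk n b h) (ghPs a F) M) (T : (Fin 4 → SkCfg n) → ℝ) {K : ℝ} (hK : ∀ σ, |T σ| ≤ K) :
    |brgQ4 n a b h T p (ghPs a F') - brgQ4 n a b h T p (ghPs a F)| ≤ (2 * a) ^ 2 * (2 * a ^ 2 * (4 : ℕ) * ((4 : ℕ) + 1) * M * K) :=
  brg_s_Q4_close ha.le b h b h T p p F F' fun s s' hs hs' =>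
    brg_s_nu_refine ha hbh (brg_ss_rt hpo (brg_s_good_ok hs) (brg_s_good_ok hs')) hFF
      (brg_s_R4_fk hp (brg_s_good_fkP F hs) (brg_s_good_fkP F hs')) hM T hK

/-! ### limits along the net from a refinement estimate in terms of the modulus -/

/-- existence + rate -/
theorem brg_s_lim_of_refine {n : ℕ} {a : ℝ} (ha : 0 < a) {b h : ℝ → ℝ} (hbh : CkAdm a b h) {Q : List GhPos → ℝ} {C : ℝ}
    (hC : 0 ≤ C) (good : Finset GhPos → Prop) (F₁ : Finset GhPos) (hg : ∀ F, F₁ ⊆ F → good F)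
    (href : ∀ F F' M, good F → F ⊆ F' → BrgFine a (skPhi n) (skClk n b h) (ghPs a F) M →
      |Q (ghPs a F') - Q (ghPs a F)| ≤ C * M) :
    GhLimEx a Q ∧ ∀ F M, good F → BrgFine a (skPhi n) (skClk n b h) (ghPs a F) M → |Q (ghPs a F) - ghLim a Q| ≤ C * M := by
  classical
  have hex : GhLimEx a Q := by
    refine brg_k_limEx_of_cauchy fun ε hε => ?_
    obtain ⟨F0, hF0⟩ := brg_fine_eventually ha.le (skPhi n) (brg_s_clk n hbh) (ε := ε / (C + 1)) (by positivity)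
    refine ⟨F0 ∪ F₁, fun F hF => ?_⟩
    refine (href (F0 ∪ F₁) F _ (hg _ Finset.subset_union_right) hF (hF0 _ Finset.subset_union_left)).trans ?_
    rw [mul_div_assoc', div_le_iff₀ (by positivity)]
    nlinarith
  exact ⟨hex, fun F M hF hM => brg_k_close hex fun F' hF' => href F F' M hF hF' hM⟩

/-- tree numbers: existence and rate on every chain which is compatible with the forks -/
theorem brg_s_nu_lim {n : ℕ} {a : ℝ} (ha : 0 < a) {b h : ℝ → ℝ} (hbh : CkAdm a b h) {q : ℕ}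
    {τ : ℕ → ℕ → WithTop GhPos} (hτ : GhIsRT a q τ) (P : (Fin q → SkCfg n) → ℝ) {K : ℝ} (hK : ∀ σ, |P σ| ≤ K) :
    GhLimEx a (ckNuF n a b h q τ P) ∧ ∀ F M, BrgFk a q τ F → BrgFine a (skPhi n) (skClk n b h) (ghPs a F) M →
      |ckNuF n a b h q τ P (ghPs a F) - skCNu n a b h q τ P| ≤ 2 * a ^ 2 * q * (q + 1) * K * M := by
  have hK0 : 0 ≤ K := (abs_nonneg _).trans (hK fun _ => fun _ => true)
  refine brg_s_lim_of_refine ha hbh (by positivity) (fun F => BrgFk a q τ F) (ghForks q τ) ?_ ?_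
  · intro F hF x y hx hy f hf
    refine Or.inl (hF ?_)
    unfold ghForks
    refine Finset.mem_image.2 ⟨(x, y), Finset.mem_product.2 ⟨Finset.mem_range.2 hx, Finset.mem_range.2 hy⟩, ?_⟩
    simp [hf]
  · intro F F' M hF hFF hM
    refine (brg_s_nu_refine ha hbh hτ hFF hF hM P hK).trans (le_of_eq ?_)
    ring

/-- the double functional: existence and rate, uniform in the cut -/
theorem brg_s_Q4_lim {n : ℕ} {a : ℝ} (ha : 0 < a) {b h : ℝ → ℝ} (hbh : CkAdm a b h) {p : GhPos} (hpo : p.Ok a)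
    (T : (Fin 4 → SkCfg n) → ℝ) {K : ℝ} (hK : ∀ σ, |T σ| ≤ K) :
    GhLimEx a (brgQ4 n a b h T p) ∧ ∀ F M, BrgFkP a F (p : WithTop GhPos) →
      BrgFine a (skPhi n) (skClk n b h) (ghPs a F) M →
      |brgQ4 n a b h T p (ghPs a F) - ghLim a (brgQ4 n a b h T p)| ≤ 160 * a ^ 4 * K * M := by
  have hK0 : 0 ≤ K := (abs_nonneg _).trans (hK fun _ => fun _ => true)
  refine brg_s_lim_of_refine ha hbh (by positivity) (fun F => BrgFkP a F (p : WithTop GhPos)) {p} ?_ ?_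
  · intro F hF
    exact brg_s_fkP_mem (hF (Finset.mem_singleton_self p))
  · intro F F' M hF hFF hM
    refine (brg_s_Q4_refine ha hbh hFF hF hpo hM T hK).trans (le_of_eq ?_)
    push_cast
    ring

/-! ### the five statistics: representation (226), limits, rates -/

/-- (R) representation of `E tr H²` at a cut of a chain -/
theorem brg_s_rep_H2 {n : ℕ} {a : ℝ} (hn : 0 < n) (ha : 0 < a) {b h : ℝ → ℝ} (hbh : CkAdm a b h) (F : Finset GhPos) (p : GhPos) :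
    obTrH2 n a (ckStp a b h (ghPs a F)) 0 (ghIdx (ghPs a F) (p : WithTop GhPos))
      = brgQ4 n a b h (fun σ => skOv (σ 0) (σ 2) * skOv (σ 1) (σ 3)) p (ghPs a F) :=
  brg_ss_chain_H2' hn ha hbh F p

/-- (R) `E tr C²` -/
theorem brg_s_rep_C2 {n : ℕ} {a : ℝ} (hn : 0 < n) (ha : 0 < a) {b h : ℝ → ℝ} (hbh : CkAdm a b h) (F : Finset GhPos) (p : GhPos) :
    obTrC2 n a (ckStp a b h (ghPs a F)) 0 (ghIdx (ghPs a F) (p : WithTop GhPos))
      = ckNuF n a b h 4 (brgR4 p ⊤ ⊤) (fun σ => skOv (σ 0) (σ 2) * skOv (σ 1) (σ 3)) (ghPs a F)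
        - ckNuF n a b h 4 (brgR4 p ⊤ (p : WithTop GhPos)) (fun σ => skOv (σ 0) (σ 2) * skOv (σ 1) (σ 3)) (ghPs a F)
        - ckNuF n a b h 4 (brgR4 p (p : WithTop GhPos) ⊤) (fun σ => skOv (σ 0) (σ 2) * skOv (σ 1) (σ 3)) (ghPs a F)
        + ckNuF n a b h 4 (brgR4 p (p : WithTop GhPos) (p : WithTop GhPos))
            (fun σ => skOv (σ 0) (σ 2) * skOv (σ 1) (σ 3)) (ghPs a F) :=
  brg_ss_chain_C2' hn ha hbh ⟨gh_os_ps_lt a F, fun _ hp => (gh_os_ps_mem.1 hp).2⟩ p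

/-- (R) `E|X|⁴` -/
theorem brg_s_rep_X4 {n : ℕ} {a : ℝ} (hn : 0 < n) (ha : 0 < a) {b h : ℝ → ℝ} (hbh : CkAdm a b h) (F : Finset GhPos) (p : GhPos) :
    ckX4F n a (ckStp a b h (ghPs a F)) (ghIdx (ghPs a F) (p : WithTop GhPos))
      = ckNuF n a b h 4 (brgR4 p (p : WithTop GhPos) (p : WithTop GhPos))
          (fun σ => skOv (σ 0) (σ 1) * skOv (σ 2) (σ 3)) (ghPs a F) :=
  brg_ss_chain_X4' hn ha hbh ⟨gh_os_ps_lt a F, fun _ hp => (gh_os_ps_mem.1 hp).2⟩ p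

theorem brg_s_ov_abs {n : ℕ} (σ τ : SkCfg n) : |skOv σ τ| ≤ 1 := by
  have hsp : ∀ (σ : SkCfg n) (i : Fin n), |skSp σ i| = 1 := fun σ i => by
    unfold skSp Claims.C0461.pmSpin
    split_ifs <;> simp
  unfold skOv
  rcases Nat.eq_zero_or_pos n with rfl | hn
  · simp
  have hn' : (0:ℝ) < n := by exact_mod_cast hn
  rw [abs_div, abs_of_pos hn', div_le_one hn']
  calc |∑ i, skSp σ i * skSp τ i| ≤ ∑ i, |skSp σ i * skSp τ i| := Finset.abs_sum_le_sum_abs _ _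
    _ = ∑ _i : Fin n, (1:ℝ) := by
        refine Finset.sum_congr rfl fun i _ => ?_
        rw [abs_mul, hsp, hsp, one_mul]
    _ = n := by simp

theorem brg_s_ov2_abs {n : ℕ} (σ τ σ' τ' : SkCfg n) : |skOv σ τ * skOv σ' τ'| ≤ 1 := by
  rw [abs_mul]
  exact mul_le_one₀ (brg_s_ov_abs σ τ) (abs_nonneg _) (brg_s_ov_abs σ' τ')

theorem brg_s_ovsq_abs {n : ℕ} (σ τ : SkCfg n) : |skOv σ τ ^ 2| ≤ 1 := by
  rw [pow_two]; exact brg_s_ov2_abs σ τ σ τ

/-- **`E tr H²`**: the limit exists, it is the limit of the double functional, rate uniform in the cut -/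
theorem brg_s_H2_lim {n : ℕ} {a : ℝ} (hn : 0 < n) (ha : 0 < a) {b h : ℝ → ℝ} (hbh : CkAdm a b h) {p : GhPos} (hpo : p.Ok a) :
    GhLimEx a (fun ps => obTrH2 n a (ckStp a b h ps) 0 (ghIdx ps (p : WithTop GhPos))) ∧
    ckH2 n a b h p = ghLim a (brgQ4 n a b h (fun σ => skOv (σ 0) (σ 2) * skOv (σ 1) (σ 3)) p) ∧
    ∀ F M, BrgFkP a F (p : WithTop GhPos) → BrgFine a (skPhi n) (skClk n b h) (ghPs a F) M →
      |obTrH2 n a (ckStp a b h (ghPs a F)) 0 (ghIdx (ghPs a F) (p : WithTop GhPos)) - ckH2 n a b h p| ≤ 160 * a ^ 4 * M := by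
  obtain ⟨h1, h2⟩ := brg_s_Q4_lim ha hbh hpo (fun σ : Fin 4 → SkCfg n => skOv (σ 0) (σ 2) * skOv (σ 1) (σ 3)) (K := 1)
    fun σ => brg_s_ov2_abs _ _ _ _
  obtain ⟨e1, e2⟩ := gh_nt_congr (a := a) (Q := brgQ4 n a b h (fun σ => skOv (σ 0) (σ 2) * skOv (σ 1) (σ 3)) p)
    (Q' := fun ps => obTrH2 n a (ckStp a b h ps) 0 (ghIdx ps (p : WithTop GhPos))) ∅
    fun F _ => (brg_s_rep_H2 hn ha hbh F p).symm
  have e3 : ckH2 n a b h p = ghLim a (brgQ4 n a b h (fun σ => skOv (σ 0) (σ 2) * skOv (σ 1) (σ 3)) p) := e1.symm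
  refine ⟨e2 h1, e3, fun F M hF hM => ?_⟩
  rw [brg_s_rep_H2 hn ha hbh, e3]
  simpa using h2 F M hF hM

/-- **`E tr C²`** -/
theorem brg_s_C2_lim {n : ℕ} {a : ℝ} (hn : 0 < n) (ha : 0 < a) {b h : ℝ → ℝ} (hbh : CkAdm a b h) {p : GhPos} (hpo : p.Ok a) :
    GhLimEx a (fun ps => obTrC2 n a (ckStp a b h ps) 0 (ghIdx ps (p : WithTop GhPos))) ∧
    ckC2 n a b h p = skCNu n a b h 4 (brgR4 p ⊤ ⊤) (fun σ => skOv (σ 0) (σ 2) * skOv (σ 1) (σ 3))
        - skCNu n a b h 4 (brgR4 p ⊤ (p : WithTop GhPos)) (fun σ => skOv (σ 0) (σ 2) * skOv (σ 1) (σ 3))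
        - skCNu n a b h 4 (brgR4 p (p : WithTop GhPos) ⊤) (fun σ => skOv (σ 0) (σ 2) * skOv (σ 1) (σ 3))
        + skCNu n a b h 4 (brgR4 p (p : WithTop GhPos) (p : WithTop GhPos)) (fun σ => skOv (σ 0) (σ 2) * skOv (σ 1) (σ 3)) ∧
    ∀ F M, BrgFkP a F (p : WithTop GhPos) → BrgFine a (skPhi n) (skClk n b h) (ghPs a F) M →
      |obTrC2 n a (ckStp a b h (ghPs a F)) 0 (ghIdx (ghPs a F) (p : WithTop GhPos)) - ckC2 n a b h p| ≤ 160 * a ^ 2 * M := by
  set T : (Fin 4 → SkCfg n) → ℝ := fun σ => skOv (σ 0) (σ 2) * skOv (σ 1) (σ 3) with hT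
  have hK : ∀ σ, |T σ| ≤ 1 := fun σ => brg_s_ov2_abs _ _ _ _
  have ot := brg_ss_okT_top a
  have op := brg_ss_okT_coe hpo
  obtain ⟨x1, r1⟩ := brg_s_nu_lim ha hbh (brg_ss_rt hpo ot ot) T hK
  obtain ⟨x2, r2⟩ := brg_s_nu_lim ha hbh (brg_ss_rt hpo ot op) T hK
  obtain ⟨x3, r3⟩ := brg_s_nu_lim ha hbh (brg_ss_rt hpo op ot) T hK
  obtain ⟨x4, r4⟩ := brg_s_nu_lim ha hbh (brg_ss_rt hpo op op) T hK
  have s1 := gh_nt_sub x1 x2
  have s2 := gh_nt_sub s1.1 x3
  have s3 := gh_nt_add s2.1 x4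
  obtain ⟨e1, e2⟩ := gh_nt_congr (a := a) (Q := fun ps => ckNuF n a b h 4 (brgR4 p ⊤ ⊤) T ps
      - ckNuF n a b h 4 (brgR4 p ⊤ (p : WithTop GhPos)) T ps - ckNuF n a b h 4 (brgR4 p (p : WithTop GhPos) ⊤) T ps
      + ckNuF n a b h 4 (brgR4 p (p : WithTop GhPos) (p : WithTop GhPos)) T ps)
    (Q' := fun ps => obTrC2 n a (ckStp a b h ps) 0 (ghIdx ps (p : WithTop GhPos))) ∅
    fun F _ => (brg_s_rep_C2 hn ha hbh F p).symm
  have e3 : ckC2 n a b h p = skCNu n a b h 4 (brgR4 p ⊤ ⊤) T - skCNu n a b h 4 (brgR4 p ⊤ (p : WithTop GhPos)) T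
      - skCNu n a b h 4 (brgR4 p (p : WithTop GhPos) ⊤) T
      + skCNu n a b h 4 (brgR4 p (p : WithTop GhPos) (p : WithTop GhPos)) T := by
    have : ckC2 n a b h p = _ := e1.symm
    rw [this, s3.2, s2.2, s1.2]
    rfl
  refine ⟨e2 s3.1, e3, fun F M hF hM => ?_⟩
  rw [brg_s_rep_C2 hn ha hbh, e3]
  have ft := brg_s_fkP_top a F
  have q1 := abs_le.1 (r1 F M (brg_s_R4_fk hF ft ft) hM)
  have q2 := abs_le.1 (r2 F M (brg_s_R4_fk hF ft hF) hM)
  have q3 := abs_le.1 (r3 F M (brg_s_R4_fk hF hF ft) hM)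
  have q4 := abs_le.1 (r4 F M (brg_s_R4_fk hF hF hF) hM)
  push_cast at q1 q2 q3 q4
  rw [abs_le]
  constructor <;> nlinarith [q1.1, q1.2, q2.1, q2.2, q3.1, q3.2, q4.1, q4.2]

/-- **`E|X|⁴`** -/
theorem brg_s_X4_lim {n : ℕ} {a : ℝ} (hn : 0 < n) (ha : 0 < a) {b h : ℝ → ℝ} (hbh : CkAdm a b h) {p : GhPos} (hpo : p.Ok a) :
    GhLimEx a (fun ps => ckX4F n a (ckStp a b h ps) (ghIdx ps (p : WithTop GhPos))) ∧
    ckX4 n a b h p = skCNu n a b h 4 (brgR4 p (p : WithTop GhPos) (p : WithTop GhPos))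
        (fun σ => skOv (σ 0) (σ 1) * skOv (σ 2) (σ 3)) ∧
    ∀ F M, BrgFkP a F (p : WithTop GhPos) → BrgFine a (skPhi n) (skClk n b h) (ghPs a F) M →
      |ckX4F n a (ckStp a b h (ghPs a F)) (ghIdx (ghPs a F) (p : WithTop GhPos)) - ckX4 n a b h p| ≤ 40 * a ^ 2 * M := by
  set T : (Fin 4 → SkCfg n) → ℝ := fun σ => skOv (σ 0) (σ 1) * skOv (σ 2) (σ 3) with hT
  have hK : ∀ σ, |T σ| ≤ 1 := fun σ => brg_s_ov2_abs _ _ _ _
  have op := brg_ss_okT_coe hpo
  obtain ⟨x4, r4⟩ := brg_s_nu_lim ha hbh (brg_ss_rt hpo op op) T hK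
  obtain ⟨e1, e2⟩ := gh_nt_congr (a := a) (Q := ckNuF n a b h 4 (brgR4 p (p : WithTop GhPos) (p : WithTop GhPos)) T)
    (Q' := fun ps => ckX4F n a (ckStp a b h ps) (ghIdx ps (p : WithTop GhPos))) ∅
    fun F _ => (brg_s_rep_X4 hn ha hbh F p).symm
  have e3 : ckX4 n a b h p = skCNu n a b h 4 (brgR4 p (p : WithTop GhPos) (p : WithTop GhPos)) T := e1.symm
  refine ⟨e2 x4, e3, fun F M hF hM => ?_⟩
  rw [brg_s_rep_X4 hn ha hbh, e3]
  refine (r4 F M (brg_s_R4_fk hF hF hF) hM).trans (le_of_eq ?_)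
  push_cast
  ring

/-- **`S`, `B`** -/
theorem brg_s_SB_lim {n : ℕ} {a : ℝ} (hn : 0 < n) (ha : 0 < a) {b h : ℝ → ℝ} (hbh : CkAdm a b h) {p : GhPos} (hpo : p.Ok a) :
    GhLimEx a (fun ps => obS n a (ckStp a b h ps) 0 (ghIdx ps (p : WithTop GhPos))) ∧
    GhLimEx a (fun ps => obB n a (ckStp a b h ps) 0 (ghIdx ps (p : WithTop GhPos))) ∧
    ∀ F M, BrgFkP a F (p : WithTop GhPos) → BrgFine a (skPhi n) (skClk n b h) (ghPs a F) M →
      |obS n a (ckStp a b h (ghPs a F)) 0 (ghIdx (ghPs a F) (p : WithTop GhPos)) - skCS n a b h p| ≤ 12 * a ^ 2 * M ∧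
      |obB n a (ckStp a b h (ghPs a F)) 0 (ghIdx (ghPs a F) (p : WithTop GhPos)) - skCB n a b h p| ≤ 12 * a ^ 2 * M := by
  have hps : ∀ F, GhChOk a (ghPs a F) := fun F => ⟨gh_os_ps_lt a F, fun _ hp => (gh_os_ps_mem.1 hp).2⟩
  obtain ⟨x1, r1⟩ := brg_s_nu_lim ha hbh (brg_rt_r2 hpo) (fun σ : Fin 2 → SkCfg n => skOv (σ 0) (σ 1)) (K := 1)
    fun σ => brg_s_ov_abs _ _
  obtain ⟨x2, r2⟩ := brg_s_nu_lim ha hbh (brg_rt_r2 hpo) (fun σ : Fin 2 → SkCfg n => skOv (σ 0) (σ 1) ^ 2) (K := 1)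
    fun σ => brg_s_ovsq_abs _ _
  refine ⟨(gh_nt_congr (a := a) ∅ fun F _ => (brg_ss_chain_S hn ha hbh (hps F) p).symm).2 x1,
    (gh_nt_congr (a := a) ∅ fun F _ => (brg_ss_chain_B hn ha hbh (hps F) p).symm).2 x2, fun F M hF hM => ⟨?_, ?_⟩⟩
  · rw [brg_ss_chain_S hn ha hbh (hps F)]
    refine (r1 F M (brg_s_r2_fk hF 2) hM).trans (le_of_eq ?_)
    push_cast
    ring
  · rw [brg_ss_chain_B hn ha hbh (hps F)]
    refine (r2 F M (brg_s_r2_fk hF 2) hM).trans (le_of_eq ?_)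
    push_cast
    ring

/-- **= `exit_clk_lim_stat`**, for every cut which is compatible with the chain (a position of `F`, or ANY position `(u,1)`) -/
theorem brg_s_lim_stat {n : ℕ} {a : ℝ} (hn : 0 < n) (ha : 0 < a) {b h : ℝ → ℝ} (hbh : CkAdm a b h) {δ : ℝ} (hδ : 0 < δ) :
    ∃ F0 : Finset GhPos, ∀ F : Finset GhPos, F0 ⊆ F → ∀ p : GhPos, BrgFkP a F (p : WithTop GhPos) → p.Ok a →
      |obS n a (ckStp a b h (ghPs a F)) 0 (ghIdx (ghPs a F) p) - skCS n a b h p| ≤ δ ∧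
      |obB n a (ckStp a b h (ghPs a F)) 0 (ghIdx (ghPs a F) p) - skCB n a b h p| ≤ δ ∧
      |obTrH2 n a (ckStp a b h (ghPs a F)) 0 (ghIdx (ghPs a F) p) - ckH2 n a b h p| ≤ δ ∧
      |obTrC2 n a (ckStp a b h (ghPs a F)) 0 (ghIdx (ghPs a F) p) - ckC2 n a b h p| ≤ δ ∧
      |ckX4F n a (ckStp a b h (ghPs a F)) (ghIdx (ghPs a F) p) - ckX4 n a b h p| ≤ δ := by
  set D : ℝ := 160 * a ^ 4 + 160 * a ^ 2 + 1 with hD
  have hD0 : 0 < D := by positivity
  have hε : 0 < δ / D := div_pos hδ hD0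
  obtain ⟨F0, hF0⟩ := brg_fine_eventually ha.le (skPhi n) (brg_s_clk n hbh) hε
  have hle : ∀ c : ℝ, c ≤ D → c * (δ / D) ≤ δ := fun c hc => by
    calc c * (δ / D) ≤ D * (δ / D) := mul_le_mul_of_nonneg_right hc hε.le
      _ = δ := by field_simp
  have h4 : 0 ≤ a ^ 4 := by positivity
  have h2 : 0 ≤ a ^ 2 := by positivity
  refine ⟨F0, fun F hF p hp hpo => ?_⟩
  have hM := hF0 F hF
  obtain ⟨hS, hB⟩ := (brg_s_SB_lim hn ha hbh hpo).2.2 F _ hp hM
  exact ⟨hS.trans (hle _ (by rw [hD]; nlinarith)), hB.trans (hle _ (by rw [hD]; nlinarith)),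
    ((brg_s_H2_lim hn ha hbh hpo).2.2 F _ hp hM).trans (hle _ (by rw [hD]; nlinarith)),
    ((brg_s_C2_lim hn ha hbh hpo).2.2 F _ hp hM).trans (hle _ (by rw [hD]; nlinarith)),
    ((brg_s_X4_lim hn ha hbh hpo).2.2 F _ hp hM).trans (hle _ (by rw [hD]; nlinarith))⟩

end

end Claimed.Agent.R286
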