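import Claimed.Agent.R286.Exit.ClkLim
import Claimed.Agent.R286.Exit.ClkLip
import Claimed.Agent.R286.Fd.ObsU
import Claimed.Agent.R286.Defs.SkLem

/-!
# Row 286 (S0533), Brg/Stat251 : PROOFS of the exits `exit_clk_SB`, `exit_clk_D2`, `exit_clk_H2`, `exit_clk_intble` of `Exit/ClkStat.lean`
(owner helper251; prefix `bst_`; 0 sorry)      TEX[PE:lem:found-source]

INPUT (cited as they are): `exit_clk_lim_stat` (Exit/ClkLim, helper55), `exit_clk_stat_pos` (Exit/ClkLip, helper55; only for `bst_clk_intble`).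

1. `obuIt` (iterated planted averages of `Fd/ObsU`): `bst_it_mono/_const/_nonneg/_le_const/_succ/_sq_le` (Jensen) `/_sum`;
   `bst_mart_mono`: the sum of the squares of finitely many planted martingales `ghE (drop j) Φ_k` increases with the cut.
2. linear algebra: `bst_tr_sq_le` (`0 ≼ A ≼ B` gives `tr A² ≤ tr B²`), `bst_quad_le` (Cauchy-Schwarz).
3. functions of the field: `|X|² ≤ 1`, `‖M‖² ≤ 1`, `‖M‖² = |X|⁴ + 2 XᵀCX + ‖C‖²`, `0 ≤ XᵀCX ≤ ‖C‖`, `u²‖C‖² ≤ ‖H‖² ≤ a²‖C‖²`.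
4. the same at a cut of ANY admissible step path, any root field (`bst_S_mono`, `bst_B_mono`, `bst_H2_step_lower`, ...).
5. chains: `bst_idx_coe`, `bst_drop_idx`, `bst_idx_mono`, `bst_chain_adm`, `bst_chain_mass`.
6. `bst_lim`: the five statistics are limits along `atTop : Filter (Finset GhPos)`; closed inequalities pass to the limit.
7. integrability: a function which moves at most like a monotone function is a difference of monotone functions.
-/

set_option autoImplicit false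

namespace Claimed.Agent.R286

open MeasureTheory ProbabilityTheory Filter Topology Set


/-! ## 1. iterated planted averages -/

section generic
variable {S ι : Type} [Fintype S] [Fintype ι]

theorem bst_it_bc {B : GhB S} (hB : B.Ok) {ls : List (GhLv S ι)} (hls : GhNn ls) (j : ℕ)
    {φ : (S → ℝ) → ℝ} (hφ : ObuBC φ) : ObuBC (obuIt B ls j φ) := by
  obtain ⟨M, hM⟩ := hφ
  exact ⟨M, obu_it_bc hB hls j hM⟩

theorem bst_it_mono {B : GhB S} (hB : B.Ok) {ls : List (GhLv S ι)} (hls : GhNn ls) (j : ℕ)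
    {φ ψ : (S → ℝ) → ℝ} (hφ : ObuBC φ) (hψ : ObuBC ψ) (h : ∀ y, φ y ≤ ψ y) (z : S → ℝ) :
    obuIt B ls j φ z ≤ obuIt B ls j ψ z := by
  obtain ⟨M, hM⟩ := hφ
  obtain ⟨M', hM'⟩ := hψ
  induction ls generalizing j z with
  | nil => exact h z
  | cons l ls ih =>
    cases j with
    | zero => exact h z
    | succ j =>
      exact gh_b_A_mono hB hls (obu_it_bc hB hls.tail j hM) (obu_it_bc hB hls.tail j hM')
        (fun y => ih hls.tail j y) z

theorem bst_it_const {B : GhB S} (hB : B.Ok) {ls : List (GhLv S ι)} (hls : GhNn ls) (j : ℕ) (c : ℝ)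
    (z : S → ℝ) : obuIt B ls j (fun _ => c) z = c := by
  induction ls generalizing j z with
  | nil => rfl
  | cons l ls ih =>
    cases j with
    | zero => rfl
    | succ j =>
      simp only [obuIt]
      have : obuIt B ls j (fun _ => c) = fun _ => c := funext fun y => ih hls.tail j y
      rw [this, gh_b_A_const hB hls]

theorem bst_bc_const (c : ℝ) : ObuBC (fun _ : S → ℝ => c) := ⟨_, gh_b_bc_const c⟩

theorem bst_it_nonneg {B : GhB S} (hB : B.Ok) {ls : List (GhLv S ι)} (hls : GhNn ls) (j : ℕ)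
    {φ : (S → ℝ) → ℝ} (hφ : ObuBC φ) (h : ∀ y, 0 ≤ φ y) (z : S → ℝ) : 0 ≤ obuIt B ls j φ z := by
  have := bst_it_mono hB hls j (bst_bc_const 0) hφ h z
  rwa [bst_it_const hB hls] at this

theorem bst_it_le_const {B : GhB S} (hB : B.Ok) {ls : List (GhLv S ι)} (hls : GhNn ls) (j : ℕ)
    {φ : (S → ℝ) → ℝ} (hφ : ObuBC φ) {c : ℝ} (h : ∀ y, φ y ≤ c) (z : S → ℝ) : obuIt B ls j φ z ≤ c := by
  have := bst_it_mono hB hls j hφ (bst_bc_const c) h z
  rwa [bst_it_const hB hls] at this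

/-- one more revelation -/
theorem bst_it_succ (B : GhB S) (ls : List (GhLv S ι)) (j : ℕ) (ψ : (S → ℝ) → ℝ) (z : S → ℝ) :
    obuIt B ls (j + 1) ψ z = obuIt B ls j (obuIt B (ls.drop j) 1 ψ) z := by
  induction ls generalizing j z with
  | nil => simp [obuIt]
  | cons l ls ih =>
    cases j with
    | zero => rfl
    | succ j =>
      simp only [obuIt, List.drop_succ_cons]
      have : obuIt B ls (j + 1) ψ = obuIt B ls j (obuIt B (ls.drop j) 1 ψ) := funext fun y => ih j y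
      rw [this]

/-- Jensen -/
theorem bst_it_sq_le {B : GhB S} (hB : B.Ok) {ls : List (GhLv S ι)} (hls : GhNn ls) (j : ℕ)
    {φ : (S → ℝ) → ℝ} (hφ : ObuBC φ) (z : S → ℝ) :
    obuIt B ls j φ z ^ 2 ≤ obuIt B ls j (fun y => φ y ^ 2) z := by
  set c := obuIt B ls j φ z with hc
  have h0 : 0 ≤ obuIt B ls j (fun y => (φ y ^ 2 + (-(2 * c)) * φ y) + c ^ 2) z :=
    bst_it_nonneg hB hls j ((hφ.sq.add (hφ.const_mul _)).add (bst_bc_const _))
      (fun y => by nlinarith [sq_nonneg (φ y - c)]) z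
  rw [obu_it_add' hB hls j (hφ.sq.add (hφ.const_mul _)) (bst_bc_const _),
    obu_it_add' hB hls j hφ.sq (hφ.const_mul _), obu_it_const_mul, bst_it_const hB hls, ← hc] at h0
  nlinarith

theorem bst_it_sum {B : GhB S} (hB : B.Ok) {ls : List (GhLv S ι)} (hls : GhNn ls) (j : ℕ) {κ : Type}
    (K : Finset κ) {g : κ → (S → ℝ) → ℝ} (h : ∀ k ∈ K, ObuBC (g k)) (z : S → ℝ) :
    obuIt B ls j (fun y => ∑ k ∈ K, g k y) z = ∑ k ∈ K, obuIt B ls j (g k) z := by
  classical
  induction K using Finset.induction_on with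
  | empty => simpa using bst_it_const hB hls j 0 z
  | insert a K ha ih =>
    simp only [Finset.sum_insert ha]
    rw [obu_it_add' hB hls j (h a (Finset.mem_insert_self a K))
      (ObuBC.sum K fun k hk => h k (Finset.mem_insert_of_mem hk)),
      ih fun k hk => h k (Finset.mem_insert_of_mem hk)]

theorem bst_E_bc {B : GhB S} (hB : B.Ok) {ls : List (GhLv S ι)} (hls : GhNn ls) (Φ : S → ℝ) :
    ObuBC (ghE B ls Φ) := ⟨_, gh_b_E_bc' hB Φ hls⟩

omit [Fintype S] [Fintype ι] in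
theorem bst_nn_drop {ls : List (GhLv S ι)} (hls : GhNn ls) (j : ℕ) : GhNn (ls.drop j) :=
  fun l hl => hls l (List.mem_of_mem_drop hl)

/-- the sum of the squares of finitely many planted martingales increases with the cut -/
theorem bst_mart_succ {B : GhB S} (hB : B.Ok) {ls : List (GhLv S ι)} (hls : GhNn ls) {κ : Type}
    (K : Finset κ) (Φ : κ → S → ℝ) (j : ℕ) (z : S → ℝ) :
    obuIt B ls j (fun y => ∑ k ∈ K, ghE B (ls.drop j) (Φ k) y ^ 2) z
      ≤ obuIt B ls (j + 1) (fun y => ∑ k ∈ K, ghE B (ls.drop (j + 1)) (Φ k) y ^ 2) z := by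
  rw [bst_it_succ]
  have hbc : ∀ i, ObuBC (fun y => ∑ k ∈ K, ghE B (ls.drop i) (Φ k) y ^ 2) := fun i =>
    ObuBC.sum K fun k _ => (bst_E_bc hB (bst_nn_drop hls i) (Φ k)).sq
  refine bst_it_mono hB hls j (hbc j) (bst_it_bc hB (bst_nn_drop hls j) 1 (hbc (j + 1))) (fun y => ?_) z
  have hd := bst_nn_drop hls j
  have hdd : ls.drop (j + 1) = (ls.drop j).drop 1 := by rw [List.drop_drop]
  rw [hdd]
  generalize ls.drop j = ms at hd
  cases ms with
  | nil => simp [obuIt]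
  | cons l ms =>
    simp only [List.drop_succ_cons, List.drop_zero]
    rw [bst_it_sum hB hd 1 K fun k _ => (bst_E_bc hB hd.tail (Φ k)).sq]
    refine Finset.sum_le_sum fun k _ => ?_
    have := bst_it_sq_le hB hd 1 (bst_E_bc hB hd.tail (Φ k)) y
    have e : obuIt B (l :: ms) 1 (ghE B ms (Φ k)) y = ghE B (l :: ms) (Φ k) y := by
      simp only [obuIt]
      rw [gh_b_E_cons]
      congr 1
      funext y'
      exact obu_it_zero B ms _ y'
    rwa [e] at this

theorem bst_mart_mono {B : GhB S} (hB : B.Ok) {ls : List (GhLv S ι)} (hls : GhNn ls) {κ : Type}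
    (K : Finset κ) (Φ : κ → S → ℝ) (z : S → ℝ) :
    Monotone fun j => obuIt B ls j (fun y => ∑ k ∈ K, ghE B (ls.drop j) (Φ k) y ^ 2) z :=
  monotone_nat_of_le_succ fun j => bst_mart_succ hB hls K Φ j z

end generic



/-! ## 2. linear algebra -/

section linalg
variable {n : ℕ}

open scoped MatrixOrder in
theorem bst_tr_mul_nonneg {A B : Matrix (Fin n) (Fin n) ℝ} (hA : A.PosSemidef) (hB : B.PosSemidef) :
    0 ≤ (A * B).trace := by
  obtain ⟨C, rfl⟩ := CStarAlgebra.nonneg_iff_eq_star_mul_self.mp hA.nonneg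
  rw [Matrix.mul_assoc, Matrix.trace_mul_comm, Matrix.star_eq_conjTranspose]
  exact (hB.mul_mul_conjTranspose_same C).trace_nonneg

theorem bst_psd (A : Fin n → Fin n → ℝ) (hs : ∀ i k, A i k = A k i)
    (hA : ∀ c : Fin n → ℝ, 0 ≤ ∑ i, ∑ k, c i * A i k * c k) : (Matrix.of A).PosSemidef := by
  refine Matrix.PosSemidef.of_dotProduct_mulVec_nonneg ?_ fun x => ?_
  · ext i k
    simp [Matrix.conjTranspose_apply, hs k i]
  · have := hA x
    simp only [dotProduct, Matrix.mulVec, Matrix.of_apply, star_trivial, Pi.star_apply, Finset.mul_sum]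
    refine this.trans (le_of_eq ?_)
    exact Finset.sum_congr rfl fun i _ => Finset.sum_congr rfl fun k _ => by ring

/-- `0 ≼ A ≼ B` (symmetric) gives `tr A² ≤ tr B²` -/
theorem bst_tr_sq_le (A B : Fin n → Fin n → ℝ) (hAs : ∀ i k, A i k = A k i) (hBs : ∀ i k, B i k = B k i)
    (hA : ∀ c : Fin n → ℝ, 0 ≤ ∑ i, ∑ k, c i * A i k * c k)
    (hAB : ∀ c : Fin n → ℝ, ∑ i, ∑ k, c i * A i k * c k ≤ ∑ i, ∑ k, c i * B i k * c k) :
    ∑ i, ∑ k, A i k ^ 2 ≤ ∑ i, ∑ k, B i k ^ 2 := by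
  have pD := bst_psd (fun i k => B i k - A i k) (fun i k => by rw [hAs i k, hBs i k]) (fun c => by
    have e : ∑ i, ∑ k, c i * (B i k - A i k) * c k
        = ∑ i, ∑ k, c i * B i k * c k - ∑ i, ∑ k, c i * A i k * c k := by
      rw [← Finset.sum_sub_distrib]
      refine Finset.sum_congr rfl fun i _ => ?_
      rw [← Finset.sum_sub_distrib]
      exact Finset.sum_congr rfl fun k _ => by ring
    rw [e]
    exact sub_nonneg.2 (hAB c))
  have pS := bst_psd (fun i k => B i k + A i k) (fun i k => by rw [hAs i k, hBs i k]) (fun c => by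
    have e : ∑ i, ∑ k, c i * (B i k + A i k) * c k
        = ∑ i, ∑ k, c i * B i k * c k + ∑ i, ∑ k, c i * A i k * c k := by
      rw [← Finset.sum_add_distrib]
      refine Finset.sum_congr rfl fun i _ => ?_
      rw [← Finset.sum_add_distrib]
      exact Finset.sum_congr rfl fun k _ => by ring
    rw [e]
    exact add_nonneg ((hA c).trans (hAB c)) (hA c))
  have h := bst_tr_mul_nonneg pD pS
  have e : (Matrix.of (fun i k => B i k - A i k) * Matrix.of (fun i k => B i k + A i k)).trace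
      = ∑ i, ∑ k, B i k ^ 2 - ∑ i, ∑ k, A i k ^ 2 := by
    simp only [Matrix.trace, Matrix.diag, Matrix.mul_apply, Matrix.of_apply]
    rw [← Finset.sum_sub_distrib]
    refine Finset.sum_congr rfl fun i _ => ?_
    rw [← Finset.sum_sub_distrib]
    refine Finset.sum_congr rfl fun k _ => ?_
    rw [hAs k i, hBs k i]
    ring
  rw [e] at h
  exact sub_nonneg.1 h

/-- Cauchy-Schwarz for a quadratic form -/
theorem bst_quad_le (C : Fin n → Fin n → ℝ) (x : Fin n → ℝ) :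
    ∑ i, ∑ k, x i * C i k * x k ≤ Real.sqrt (∑ i, ∑ k, C i k ^ 2) * ∑ i, x i ^ 2 := by
  have h := Real.sum_mul_le_sqrt_mul_sqrt (Finset.univ : Finset (Fin n × Fin n)) (fun p => C p.1 p.2)
    (fun p => x p.1 * x p.2)
  rw [Fintype.sum_prod_type, Fintype.sum_prod_type, Fintype.sum_prod_type] at h
  have e : ∑ i, ∑ k, (x i * x k) ^ 2 = (∑ i, x i ^ 2) ^ 2 := by
    rw [pow_two (∑ i, x i ^ 2), Finset.sum_mul_sum]
    exact Finset.sum_congr rfl fun i _ => Finset.sum_congr rfl fun k _ => by ring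
  simp only [] at h
  rw [e, Real.sqrt_sq (Finset.sum_nonneg fun i _ => sq_nonneg _)] at h
  refine le_trans (le_of_eq ?_) h
  exact Finset.sum_congr rfl fun i _ => Finset.sum_congr rfl fun k _ => by ring

end linalg

/-! ## 3. the SK observables as functions of the field -/

section skfield
variable {n : ℕ}

theorem bst_ov_self (hn : 0 < n) (σ : SkCfg n) : skOv σ σ = 1 := by
  have hn' : (n : ℝ) ≠ 0 := by exact_mod_cast hn.ne'
  simp only [skOv, sk_d_sp_mul, Finset.sum_const, Finset.card_univ, Fintype.card_fin, nsmul_eq_mul, mul_one]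
  exact div_self hn'

theorem bst_y_sq (hn : 0 < n) (σ : SkCfg n) : ∑ i : Fin n, obY i σ * obY i σ = 1 := by
  rw [obu_feat_h hn, bst_ov_self hn]

variable {a : ℝ}

theorem bst_M_eq (Q : SkStp) (y : SkCfg n → ℝ) (i k : Fin n) :
    obM n a Q y i k = obC n a Q y i k + obX n a Q y i * obX n a Q y k := by
  simp only [obM, obC, obX, ghC, obY]; ring

theorem bst_M_sq_eq (Q : SkStp) (y : SkCfg n → ℝ) :
    ∑ i, ∑ k, obM n a Q y i k ^ 2 = ((∑ i, obX n a Q y i ^ 2) ^ 2
      + 2 * ∑ i, ∑ k, obX n a Q y i * obC n a Q y i k * obX n a Q y k) + ∑ i, ∑ k, obC n a Q y i k ^ 2 := by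
  simp only [bst_M_eq]
  have e1 : (∑ i, obX n a Q y i ^ 2) ^ 2 = ∑ i, ∑ k, (obX n a Q y i * obX n a Q y k) ^ 2 := by
    rw [pow_two, Finset.sum_mul_sum]
    exact Finset.sum_congr rfl fun i _ => Finset.sum_congr rfl fun k _ => by ring
  rw [e1, Finset.mul_sum, ← Finset.sum_add_distrib, ← Finset.sum_add_distrib]
  refine Finset.sum_congr rfl fun i _ => ?_
  rw [Finset.mul_sum, ← Finset.sum_add_distrib, ← Finset.sum_add_distrib]
  exact Finset.sum_congr rfl fun k _ => by ring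

/-- conditional Jensen -/
theorem bst_E_sq_le (ha : 0 < a) {Q : SkStp} (hQ : SkAdm a Q) (v : SkCfg n → ℝ) (y : SkCfg n → ℝ) :
    ghE (skBase n a) (skLvs n Q) v y ^ 2 ≤ ghE (skBase n a) (skLvs n Q) (fun s => v s * v s) y := by
  have := gh_b_C_nonneg (obu_base_ok n ha) v (obu_lvs_nn n hQ) y
  unfold ghC at this
  nlinarith

theorem bst_X_sq_le (hn : 0 < n) (ha : 0 < a) {Q : SkStp} (hQ : SkAdm a Q) (y : SkCfg n → ℝ) :
    ∑ i, obX n a Q y i ^ 2 ≤ 1 := by
  have hB := obu_base_ok n ha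
  have hls := obu_lvs_nn n hQ
  calc ∑ i, obX n a Q y i ^ 2
      ≤ ∑ i, ghE (skBase n a) (skLvs n Q) (fun s => obY i s * obY i s) y :=
        Finset.sum_le_sum fun i _ => bst_E_sq_le ha hQ (obY i) y
    _ = ghE (skBase n a) (skLvs n Q) (fun s => ∑ i, obY i s * obY i s) y :=
        (gh_b_E_sum hB Finset.univ _ hls y).symm
    _ = 1 := by
        simp only [bst_y_sq hn]
        exact gh_b_E_const hB 1 hls y

theorem bst_M_sq_le (hn : 0 < n) (ha : 0 < a) {Q : SkStp} (hQ : SkAdm a Q) (y : SkCfg n → ℝ) :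
    ∑ i, ∑ k, obM n a Q y i k ^ 2 ≤ 1 := by
  have hB := obu_base_ok n ha
  have hls := obu_lvs_nn n hQ
  calc ∑ i, ∑ k, obM n a Q y i k ^ 2
      ≤ ∑ i, ∑ k, ghE (skBase n a) (skLvs n Q)
          (fun s => (skY s i * skY s k) * (skY s i * skY s k)) y :=
        Finset.sum_le_sum fun i _ => Finset.sum_le_sum fun k _ =>
          bst_E_sq_le ha hQ (fun s => skY s i * skY s k) y
    _ = ghE (skBase n a) (skLvs n Q)
          (fun s => ∑ i, ∑ k, (skY s i * skY s k) * (skY s i * skY s k)) y := by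
        rw [gh_b_E_sum hB Finset.univ _ hls y]
        exact Finset.sum_congr rfl fun i _ => (gh_b_E_sum hB Finset.univ _ hls y).symm
    _ = 1 := by
        have e : ∀ s : SkCfg n, ∑ i, ∑ k, (skY s i * skY s k) * (skY s i * skY s k) = 1 := fun s => by
          have h1 := bst_y_sq hn s
          simp only [obY] at h1
          calc ∑ i, ∑ k, (skY s i * skY s k) * (skY s i * skY s k)
              = (∑ i, skY s i * skY s i) * ∑ k, skY s k * skY s k := by
                rw [Finset.sum_mul_sum]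
                exact Finset.sum_congr rfl fun i _ => Finset.sum_congr rfl fun k _ => by ring
            _ = 1 := by rw [h1, one_mul]
        simp only [e]
        exact gh_b_E_const hB 1 hls y

theorem bst_C_quad_nonneg (ha : 0 < a) {Q : SkStp} (hQ : SkAdm a Q) (y : SkCfg n → ℝ) (c : Fin n → ℝ) :
    0 ≤ ∑ i, ∑ k, c i * obC n a Q y i k * c k := by
  rw [obu_quad_C ha Q hQ]
  exact gh_b_C_nonneg (obu_base_ok n ha) _ (obu_lvs_nn n hQ) y

theorem bst_C_sq_le (hn : 0 < n) (ha : 0 < a) {Q : SkStp} (hQ : SkAdm a Q) (y : SkCfg n → ℝ) :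
    ∑ i, ∑ k, obC n a Q y i k ^ 2 ≤ 1 := by
  have h1 := bst_M_sq_le hn ha hQ y
  rw [bst_M_sq_eq] at h1
  have h2 := bst_C_quad_nonneg ha hQ y (fun i => obX n a Q y i)
  have h3 := sq_nonneg (∑ i, obX n a Q y i ^ 2)
  linarith

theorem bst_XCX_le (hn : 0 < n) (ha : 0 < a) {Q : SkStp} (hQ : SkAdm a Q) (y : SkCfg n → ℝ) :
    ∑ i, ∑ k, obX n a Q y i * obC n a Q y i k * obX n a Q y k
      ≤ Real.sqrt (∑ i, ∑ k, obC n a Q y i k ^ 2) := by
  refine (bst_quad_le _ _).trans ?_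
  exact mul_le_of_le_one_right (Real.sqrt_nonneg _) (bst_X_sq_le hn ha hQ y)

theorem bst_H2_lower (ha : 0 < a) {u : ℝ} (hu : 0 ≤ u) (hua : u ≤ a) {Q : SkStp} (hQ : SkAdm a Q)
    (hQu : ∀ e ∈ Q, u ≤ e.m) (y : SkCfg n → ℝ) :
    u ^ 2 * ∑ i, ∑ k, obC n a Q y i k ^ 2 ≤ ∑ i, ∑ k, obH n a Q y i k ^ 2 := by
  have hB := obu_base_ok n ha
  have h := bst_tr_sq_le (fun i k => u * obC n a Q y i k) (fun i k => obH n a Q y i k)
    (fun i k => by simp only [obC]; rw [gh_b_C_symm]) (fun i k => by simp only [obH]; rw [gh_v_H_symm])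
    (fun c => by
      have e : ∑ i, ∑ k, c i * (u * obC n a Q y i k) * c k = u * ∑ i, ∑ k, c i * obC n a Q y i k * c k := by
        rw [Finset.mul_sum]
        refine Finset.sum_congr rfl fun i _ => ?_
        rw [Finset.mul_sum]
        exact Finset.sum_congr rfl fun k _ => by ring
      rw [e]
      exact mul_nonneg hu (bst_C_quad_nonneg ha hQ y c))
    (fun c => by
      have e : ∑ i, ∑ k, c i * (u * obC n a Q y i k) * c k = u * ∑ i, ∑ k, c i * obC n a Q y i k * c k := by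
        rw [Finset.mul_sum]
        refine Finset.sum_congr rfl fun i _ => ?_
        rw [Finset.mul_sum]
        exact Finset.sum_congr rfl fun k _ => by ring
      rw [e, obu_quad_C ha Q hQ, obu_quad_H ha Q hQ]
      refine gh_b_le_H hB _ (u := u) hua (obu_lvs_nn n hQ) ?_ y
      intro l hl
      simp only [skLvs, List.mem_map] at hl
      obtain ⟨e, he, rfl⟩ := hl
      exact hQu e he)
  refine le_trans (le_of_eq ?_) h
  rw [Finset.mul_sum]
  refine Finset.sum_congr rfl fun i _ => ?_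
  rw [Finset.mul_sum]
  exact Finset.sum_congr rfl fun k _ => by ring

theorem bst_H2_upper (ha : 0 < a) {Q : SkStp} (hQ : SkAdm a Q) (y : SkCfg n → ℝ) :
    ∑ i, ∑ k, obH n a Q y i k ^ 2 ≤ a ^ 2 * ∑ i, ∑ k, obC n a Q y i k ^ 2 := by
  have hB := obu_base_ok n ha
  have h := bst_tr_sq_le (fun i k => obH n a Q y i k) (fun i k => a * obC n a Q y i k)
    (fun i k => by simp only [obH]; rw [gh_v_H_symm]) (fun i k => by simp only [obC]; rw [gh_b_C_symm])
    (fun c => by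
      rw [obu_quad_H ha Q hQ]
      exact gh_b_H_nonneg hB _ (obu_lvs_nn n hQ) y)
    (fun c => by
      have e : ∑ i, ∑ k, c i * (a * obC n a Q y i k) * c k = a * ∑ i, ∑ k, c i * obC n a Q y i k * c k := by
        rw [Finset.mul_sum]
        refine Finset.sum_congr rfl fun i _ => ?_
        rw [Finset.mul_sum]
        exact Finset.sum_congr rfl fun k _ => by ring
      rw [e, obu_quad_C ha Q hQ, obu_quad_H ha Q hQ]
      refine gh_b_H_le hB _ (obu_lvs_nn n hQ) ?_ y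
      intro l hl
      simp only [skLvs, List.mem_map] at hl
      obtain ⟨e, he, rfl⟩ := hl
      exact (hQ.2 e he).2.1)
  refine h.trans (le_of_eq ?_)
  rw [Finset.mul_sum]
  refine Finset.sum_congr rfl fun i _ => ?_
  rw [Finset.mul_sum]
  exact Finset.sum_congr rfl fun k _ => by ring

end skfield


/-! ## 4. the five statistics at a cut of an admissible step path -/

section skpath
variable {n : ℕ} {a : ℝ}

theorem bst_X_bc (ha : 0 < a) {Q : SkStp} (hQ : SkAdm a Q) (i : Fin n) : ObuBC (fun y => obX n a Q y i) :=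
  ⟨_, gh_b_E_bc' (obu_base_ok n ha) (obY i) (obu_lvs_nn n hQ)⟩

theorem bst_M_bc (ha : 0 < a) {Q : SkStp} (hQ : SkAdm a Q) (i k : Fin n) : ObuBC (fun y => obM n a Q y i k) :=
  ⟨_, gh_b_E_bc' (obu_base_ok n ha) _ (obu_lvs_nn n hQ)⟩

theorem bst_C_bc (ha : 0 < a) {Q : SkStp} (hQ : SkAdm a Q) (i k : Fin n) : ObuBC (fun y => obC n a Q y i k) :=
  ⟨_, gh_b_C_bc (obu_base_ok n ha) _ _ (obu_lvs_nn n hQ)⟩

theorem bst_H_bc (ha : 0 < a) {Q : SkStp} (hQ : SkAdm a Q) (i k : Fin n) : ObuBC (fun y => obH n a Q y i k) :=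
  gh_b_H_bc (obu_base_ok n ha) _ _ (obu_lvs_nn n hQ)

theorem bst_X2_bc (ha : 0 < a) {Q : SkStp} (hQ : SkAdm a Q) : ObuBC (fun y => ∑ i, obX n a Q y i ^ 2) :=
  ObuBC.sum _ fun i _ => (bst_X_bc ha hQ i).sq

theorem bst_M2_bc (ha : 0 < a) {Q : SkStp} (hQ : SkAdm a Q) : ObuBC (fun y => ∑ i, ∑ k, obM n a Q y i k ^ 2) :=
  ObuBC.sum _ fun i _ => ObuBC.sum _ fun k _ => (bst_M_bc ha hQ i k).sq

theorem bst_C2_bc (ha : 0 < a) {Q : SkStp} (hQ : SkAdm a Q) : ObuBC (fun y => ∑ i, ∑ k, obC n a Q y i k ^ 2) :=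
  ObuBC.sum _ fun i _ => ObuBC.sum _ fun k _ => (bst_C_bc ha hQ i k).sq

theorem bst_H2_bc (ha : 0 < a) {Q : SkStp} (hQ : SkAdm a Q) : ObuBC (fun y => ∑ i, ∑ k, obH n a Q y i k ^ 2) :=
  ObuBC.sum _ fun i _ => ObuBC.sum _ fun k _ => (bst_H_bc ha hQ i k).sq

theorem bst_XCX_bc (ha : 0 < a) {Q : SkStp} (hQ : SkAdm a Q) :
    ObuBC (fun y => ∑ i, ∑ k, obX n a Q y i * obC n a Q y i k * obX n a Q y k) :=
  ObuBC.sum _ fun i _ => ObuBC.sum _ fun k _ => ((bst_X_bc ha hQ i).mul (bst_C_bc ha hQ i k)).mul (bst_X_bc ha hQ k)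

theorem bst_bc_sqrt {S : Type} [Fintype S] {g : (S → ℝ) → ℝ} (h : ObuBC g) : ObuBC (fun y => Real.sqrt (g y)) := by
  obtain ⟨M, hM⟩ := h
  refine ⟨Real.sqrt M, hM.cont.sqrt, fun z => ?_⟩
  rw [abs_of_nonneg (Real.sqrt_nonneg _)]
  exact Real.sqrt_le_sqrt ((le_abs_self _).trans (hM.le z))

variable (ha : 0 < a) {P : SkStp} (hP : SkAdm a P) (z₀ : SkCfg n → ℝ) (j : ℕ)
include ha hP

theorem bst_S_it : obS n a P z₀ j
    = obuIt (skBase n a) (skLvs n P) j (fun y => ∑ i, obX n a (P.drop j) y i ^ 2) z₀ :=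
  obu_path_field (obu_base_ok n ha) (obu_lvs_nn n hP) z₀ j (fun y => ∑ i, obX n a (P.drop j) y i ^ 2)

theorem bst_B_it : obB n a P z₀ j
    = obuIt (skBase n a) (skLvs n P) j (fun y => ∑ i, ∑ k, obM n a (P.drop j) y i k ^ 2) z₀ :=
  obu_path_field (obu_base_ok n ha) (obu_lvs_nn n hP) z₀ j (fun y => ∑ i, ∑ k, obM n a (P.drop j) y i k ^ 2)

theorem bst_C2_it : obTrC2 n a P z₀ j
    = obuIt (skBase n a) (skLvs n P) j (fun y => ∑ i, ∑ k, obC n a (P.drop j) y i k ^ 2) z₀ :=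
  obu_path_field (obu_base_ok n ha) (obu_lvs_nn n hP) z₀ j (fun y => ∑ i, ∑ k, obC n a (P.drop j) y i k ^ 2)

theorem bst_H2_it : obTrH2 n a P z₀ j
    = obuIt (skBase n a) (skLvs n P) j (fun y => ∑ i, ∑ k, obH n a (P.drop j) y i k ^ 2) z₀ :=
  obu_path_field (obu_base_ok n ha) (obu_lvs_nn n hP) z₀ j (fun y => ∑ i, ∑ k, obH n a (P.drop j) y i k ^ 2)

theorem bst_X4_it : obE n a P z₀ (fun ξ _ => (∑ i, obXp n a P z₀ j ξ i ^ 2) ^ 2)
    = obuIt (skBase n a) (skLvs n P) j (fun y => (∑ i, obX n a (P.drop j) y i ^ 2) ^ 2) z₀ :=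
  obu_path_field (obu_base_ok n ha) (obu_lvs_nn n hP) z₀ j (fun y => (∑ i, obX n a (P.drop j) y i ^ 2) ^ 2)

theorem bst_XCX_it :
    obE n a P z₀ (fun ξ _ => ∑ i, ∑ k, obXp n a P z₀ j ξ i * obCp n a P z₀ j ξ i k * obXp n a P z₀ j ξ k)
    = obuIt (skBase n a) (skLvs n P) j
        (fun y => ∑ i, ∑ k, obX n a (P.drop j) y i * obC n a (P.drop j) y i k * obX n a (P.drop j) y k) z₀ :=
  obu_path_field (obu_base_ok n ha) (obu_lvs_nn n hP) z₀ j
    (fun y => ∑ i, ∑ k, obX n a (P.drop j) y i * obC n a (P.drop j) y i k * obX n a (P.drop j) y k)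

theorem bst_S_nonneg : 0 ≤ obS n a P z₀ j := by
  rw [bst_S_it ha hP]
  exact bst_it_nonneg (obu_base_ok n ha) (obu_lvs_nn n hP) j (bst_X2_bc ha (obu_adm_drop hP j))
    (fun y => Finset.sum_nonneg fun i _ => sq_nonneg _) z₀

theorem bst_C2_nonneg : 0 ≤ obTrC2 n a P z₀ j := by
  rw [bst_C2_it ha hP]
  exact bst_it_nonneg (obu_base_ok n ha) (obu_lvs_nn n hP) j (bst_C2_bc ha (obu_adm_drop hP j))
    (fun y => Finset.sum_nonneg fun i _ => Finset.sum_nonneg fun k _ => sq_nonneg _) z₀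

theorem bst_C2_le_one (hn : 0 < n) : obTrC2 n a P z₀ j ≤ 1 := by
  rw [bst_C2_it ha hP]
  exact bst_it_le_const (obu_base_ok n ha) (obu_lvs_nn n hP) j (bst_C2_bc ha (obu_adm_drop hP j))
    (fun y => bst_C_sq_le hn ha (obu_adm_drop hP j) y) z₀

theorem bst_B_le_one (hn : 0 < n) : obB n a P z₀ j ≤ 1 := by
  rw [bst_B_it ha hP]
  exact bst_it_le_const (obu_base_ok n ha) (obu_lvs_nn n hP) j (bst_M2_bc ha (obu_adm_drop hP j))
    (fun y => bst_M_sq_le hn ha (obu_adm_drop hP j) y) z₀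

theorem bst_Vx_nonneg :
    obS n a P z₀ j ^ 2 ≤ obE n a P z₀ (fun ξ _ => (∑ i, obXp n a P z₀ j ξ i ^ 2) ^ 2) := by
  rw [bst_S_it ha hP, bst_X4_it ha hP]
  exact bst_it_sq_le (obu_base_ok n ha) (obu_lvs_nn n hP) j (bst_X2_bc ha (obu_adm_drop hP j)) z₀

theorem bst_XCX_nonneg :
    0 ≤ obE n a P z₀ (fun ξ _ => ∑ i, ∑ k, obXp n a P z₀ j ξ i * obCp n a P z₀ j ξ i k * obXp n a P z₀ j ξ k) := by
  rw [bst_XCX_it ha hP]
  exact bst_it_nonneg (obu_base_ok n ha) (obu_lvs_nn n hP) j (bst_XCX_bc ha (obu_adm_drop hP j))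
    (fun y => bst_C_quad_nonneg ha (obu_adm_drop hP j) y _) z₀

theorem bst_XCX_le_sqrt (hn : 0 < n) :
    obE n a P z₀ (fun ξ _ => ∑ i, ∑ k, obXp n a P z₀ j ξ i * obCp n a P z₀ j ξ i k * obXp n a P z₀ j ξ k)
      ≤ Real.sqrt (obTrC2 n a P z₀ j) := by
  have hB := obu_base_ok n ha
  have hls := obu_lvs_nn n hP
  have hQ := obu_adm_drop hP j
  rw [bst_XCX_it ha hP, bst_C2_it ha hP]
  refine (bst_it_mono hB hls j (bst_XCX_bc ha hQ) (bst_bc_sqrt (bst_C2_bc ha hQ))
    (fun y => bst_XCX_le hn ha hQ y) z₀).trans ?_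
  refine Real.le_sqrt_of_sq_le ?_
  refine (bst_it_sq_le hB hls j (bst_bc_sqrt (bst_C2_bc ha hQ)) z₀).trans (le_of_eq ?_)
  congr 1
  funext y
  exact Real.sq_sqrt (Finset.sum_nonneg fun i _ => Finset.sum_nonneg fun k _ => sq_nonneg _)

theorem bst_H2_step_lower {u : ℝ} (hu : 0 ≤ u) (hua : u ≤ a) (hPu : ∀ e ∈ P.drop j, u ≤ e.m) :
    u ^ 2 * obTrC2 n a P z₀ j ≤ obTrH2 n a P z₀ j := by
  have hB := obu_base_ok n ha
  have hls := obu_lvs_nn n hP
  have hQ := obu_adm_drop hP j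
  rw [bst_H2_it ha hP, bst_C2_it ha hP, ← obu_it_const_mul]
  exact bst_it_mono hB hls j ((bst_C2_bc ha hQ).const_mul _) (bst_H2_bc ha hQ)
    (fun y => bst_H2_lower ha hu hua hQ hPu y) z₀

theorem bst_H2_step_upper : obTrH2 n a P z₀ j ≤ a ^ 2 * obTrC2 n a P z₀ j := by
  have hB := obu_base_ok n ha
  have hls := obu_lvs_nn n hP
  have hQ := obu_adm_drop hP j
  rw [bst_H2_it ha hP, bst_C2_it ha hP, ← obu_it_const_mul]
  exact bst_it_mono hB hls j (bst_H2_bc ha hQ) ((bst_C2_bc ha hQ).const_mul _)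
    (fun y => bst_H2_upper ha hQ y) z₀

theorem bst_S_mono : Monotone fun j => obS n a P z₀ j := by
  have h := bst_mart_mono (obu_base_ok n ha) (obu_lvs_nn n hP) (Finset.univ : Finset (Fin n)) (fun i => obY i) z₀
  have e : (fun j => obS n a P z₀ j) = fun j => obuIt (skBase n a) (skLvs n P) j
      (fun y => ∑ k, ghE (skBase n a) ((skLvs n P).drop j) (obY k) y ^ 2) z₀ := by
    funext j
    rw [bst_S_it ha hP, ← obu_lvs_drop]
    rfl
  rw [e]
  exact h

theorem bst_B_mono : Monotone fun j => obB n a P z₀ j := by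
  have h := bst_mart_mono (obu_base_ok n ha) (obu_lvs_nn n hP) (Finset.univ : Finset (Fin n × Fin n))
    (fun p σ => skY σ p.1 * skY σ p.2) z₀
  have e : (fun j => obB n a P z₀ j) = fun j => obuIt (skBase n a) (skLvs n P) j
      (fun y => ∑ p : Fin n × Fin n, ghE (skBase n a) ((skLvs n P).drop j) (fun σ => skY σ p.1 * skY σ p.2) y ^ 2) z₀ := by
    funext j
    rw [bst_B_it ha hP, ← obu_lvs_drop]
    congr 1
    funext y
    rw [Fintype.sum_prod_type]
    rfl
  rw [e]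
  exact h

end skpath

/-! ## 5. chains of positions -/

section chains

theorem bst_stp_drop_mem (a : ℝ) (b h : ℝ → ℝ) : ∀ (ps : List GhPos) (b0 h0 : ℝ) (j : ℕ) (e : SkInc),
    e ∈ (skCStp a b h b0 h0 ps).drop j → ∃ p ∈ ps.drop j, e.m = p.u
  | [], _, _, j, e, he => by simp [skCStp] at he
  | p :: ps, b0, h0, 0, e, he => by
      rw [List.drop_zero] at he ⊢
      exact sk_stp_chain_mem a b h (p :: ps) b0 h0 e he
  | p :: ps, b0, h0, j + 1, e, he => by
      rw [skCStp, List.drop_succ_cons] at he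
      rw [List.drop_succ_cons]
      exact bst_stp_drop_mem a b h ps _ _ j e he

theorem bst_idx_coe (ps : List GhPos) (p : GhPos) :
    ghIdx ps (p : WithTop GhPos) = (ps.filter fun x => decide (x ≤ p)).length := by
  unfold ghIdx
  rw [if_neg WithTop.coe_ne_top, add_zero]
  have : (do let a ← ps; pure (a : WithTop GhPos)) = ps.map fun x : GhPos => (x : WithTop GhPos) := by
    simp only [List.bind_eq_flatMap, List.pure_def]
    induction ps with
    | nil => rfl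
    | cons x xs ih => simp only [List.flatMap_cons, List.map_cons, ih, List.singleton_append]
  rw [this, List.filter_map, List.length_map]
  congr 2
  funext x
  simp only [Function.comp, WithTop.coe_le_coe]

/-- on a sorted chain the positions after the cut `ghIdx ps p` are beyond `p` -/
theorem bst_drop_idx : ∀ (ps : List GhPos), ps.Pairwise (· ≤ ·) → ∀ (p x : GhPos),
    x ∈ ps.drop (ghIdx ps (p : WithTop GhPos)) → p < x
  | [], _, p, x, hx => by simp at hx
  | y :: ps, hs, p, x, hx => by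
      have hs' := List.pairwise_cons.1 hs
      rw [bst_idx_coe] at hx
      by_cases hy : y ≤ p
      · rw [List.filter_cons_of_pos (by simpa using hy), List.length_cons, List.drop_succ_cons,
          ← bst_idx_coe] at hx
        exact bst_drop_idx ps hs'.2 p x hx
      · have hall : ∀ w ∈ y :: ps, p < w := by
          intro w hw
          rcases List.mem_cons.1 hw with rfl | hw
          · exact not_le.1 hy
          · exact lt_of_lt_of_le (not_le.1 hy) (hs'.1 w hw)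
        exact hall x (List.mem_of_mem_drop hx)

theorem bst_idx_mono (ps : List GhPos) {p p' : GhPos} (h : p ≤ p') :
    ghIdx ps (p : WithTop GhPos) ≤ ghIdx ps (p' : WithTop GhPos) := by
  rw [bst_idx_coe, bst_idx_coe]
  refine List.Sublist.length_le ?_
  refine List.monotone_filter_right ps fun x hx => ?_
  simp only [decide_eq_true_eq] at hx ⊢
  exact hx.trans h

variable {a : ℝ} {b h : ℝ → ℝ}

theorem bst_chain_adm (ha : 0 < a) (hbh : CkAdm a b h) (F : Finset GhPos) : SkAdm a (ckStp a b h (ghPs a F)) := by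
  have hok : ∀ p ∈ ghPs a F, p.Ok a := fun p hp => (gh_os_ps_mem.1 hp).2
  exact sk_stp_chain_adm ha.le hbh.1 hbh.2 _ 0 0 (gh_os_ps_pairwise a F) hok
    (fun p hp => gh_os_at_nonneg ha.le hbh.1 (hok p hp).2.2.1) (fun p hp => gh_os_at_nonneg ha.le hbh.2 (hok p hp).2.2.1)

theorem bst_chain_mass (F : Finset GhPos) (p : GhPos) :
    ∀ e ∈ (ckStp a b h (ghPs a F)).drop (ghIdx (ghPs a F) (p : WithTop GhPos)), p.u ≤ e.m := by
  intro e he
  obtain ⟨x, hx, hm⟩ := bst_stp_drop_mem a b h _ _ _ _ e he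
  rw [hm]
  exact sk_stp_pos_u_le (bst_drop_idx _ (gh_os_ps_pairwise a F) p x hx).le

end chains

/-! ## 6. the limits along the net of the finite chains -/

section limits
variable {n : ℕ} {a : ℝ} {b h : ℝ → ℝ}

theorem bst_tendsto_of_close {f : Finset GhPos → ℝ} {c : ℝ} {p : GhPos}
    (H : ∀ δ : ℝ, 0 < δ → ∃ F0 : Finset GhPos, ∀ F : Finset GhPos, F0 ⊆ F → p ∈ F → |f F - c| ≤ δ) :
    Tendsto f atTop (𝓝 c) := by
  classical
  rw [Metric.tendsto_atTop]
  intro ε hε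
  obtain ⟨F0, hF0⟩ := H (ε / 2) (half_pos hε)
  refine ⟨F0 ∪ {p}, fun F hF => ?_⟩
  rw [Real.dist_eq]
  have h1 : F0 ⊆ F := Finset.subset_union_left.trans hF
  have h2 : p ∈ F := hF (Finset.mem_union_right _ (Finset.mem_singleton_self p))
  exact lt_of_le_of_lt (hF0 F h1 h2) (half_lt_self hε)

theorem bst_lim (hn : 0 < n) (ha : 0 < a) (hbh : CkAdm a b h) {p : GhPos} (hp : p.Ok a) :
    Tendsto (fun F => obS n a (ckStp a b h (ghPs a F)) 0 (ghIdx (ghPs a F) p)) atTop (𝓝 (skCS n a b h p)) ∧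
    Tendsto (fun F => obB n a (ckStp a b h (ghPs a F)) 0 (ghIdx (ghPs a F) p)) atTop (𝓝 (skCB n a b h p)) ∧
    Tendsto (fun F => obTrH2 n a (ckStp a b h (ghPs a F)) 0 (ghIdx (ghPs a F) p)) atTop (𝓝 (ckH2 n a b h p)) ∧
    Tendsto (fun F => obTrC2 n a (ckStp a b h (ghPs a F)) 0 (ghIdx (ghPs a F) p)) atTop (𝓝 (ckC2 n a b h p)) ∧
    Tendsto (fun F => ckX4F n a (ckStp a b h (ghPs a F)) (ghIdx (ghPs a F) p)) atTop (𝓝 (ckX4 n a b h p)) := by
  refine ⟨bst_tendsto_of_close (p := p) fun δ hδ => ?_, bst_tendsto_of_close (p := p) fun δ hδ => ?_,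
    bst_tendsto_of_close (p := p) fun δ hδ => ?_, bst_tendsto_of_close (p := p) fun δ hδ => ?_,
    bst_tendsto_of_close (p := p) fun δ hδ => ?_⟩ <;>
  obtain ⟨F0, hF0⟩ := exit_clk_lim_stat hn ha hbh hδ
  · exact ⟨F0, fun F h1 h2 => (hF0 F h1 p h2 hp).1⟩
  · exact ⟨F0, fun F h1 h2 => (hF0 F h1 p h2 hp).2.1⟩
  · exact ⟨F0, fun F h1 h2 => (hF0 F h1 p h2 hp).2.2.1⟩
  · exact ⟨F0, fun F h1 h2 => (hF0 F h1 p h2 hp).2.2.2.1⟩
  · exact ⟨F0, fun F h1 h2 => (hF0 F h1 p h2 hp).2.2.2.2⟩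

/-- (G3.c) -/
theorem bst_clk_H2 (hn : 0 < n) (ha : 0 < a) (hbh : CkAdm a b h) {p : GhPos} (hp : p.Ok a) :
    p.u ^ 2 * ckC2 n a b h p ≤ ckH2 n a b h p ∧ ckH2 n a b h p ≤ a ^ 2 * ckC2 n a b h p := by
  obtain ⟨-, -, lH, lC, -⟩ := bst_lim hn ha hbh hp
  constructor
  · exact le_of_tendsto_of_tendsto' (lC.const_mul (p.u ^ 2)) lH fun F =>
      bst_H2_step_lower ha (bst_chain_adm ha hbh F) 0 _ hp.1 hp.2.1 (bst_chain_mass F p)
  · exact le_of_tendsto_of_tendsto' lH (lC.const_mul (a ^ 2)) fun F =>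
      bst_H2_step_upper ha (bst_chain_adm ha hbh F) 0 _

/-- (G3.b) -/
theorem bst_clk_D2 (hn : 0 < n) (ha : 0 < a) (hbh : CkAdm a b h) {p : GhPos} (hp : p.Ok a) :
    0 ≤ ckVx n a b h p ∧ 0 ≤ ckC2 n a b h p ∧ ckC2 n a b h p ≤ 1 ∧
      skCB n a b h p - skCS n a b h p ^ 2 ≤ ckVx n a b h p + 2 * Real.sqrt (ckC2 n a b h p) + ckC2 n a b h p ∧
      ckVx n a b h p + ckC2 n a b h p ≤ skCB n a b h p - skCS n a b h p ^ 2 := by
  obtain ⟨lS, lB, -, lC, lX⟩ := bst_lim hn ha hbh hp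
  have lV := lX.sub (lS.pow 2)
  have lD := lB.sub (lS.pow 2)
  have dec := fun F : Finset GhPos => obu_D2_decomp hn ha _ (bst_chain_adm ha hbh F) (0 : SkCfg n → ℝ)
    (ghIdx (ghPs a F) p)
  unfold ckVx
  refine ⟨?_, ?_, ?_, ?_, ?_⟩
  · exact ge_of_tendsto' lV fun F => sub_nonneg.2 (bst_Vx_nonneg ha (bst_chain_adm ha hbh F) 0 _)
  · exact ge_of_tendsto' lC fun F => bst_C2_nonneg ha (bst_chain_adm ha hbh F) 0 _
  · exact le_of_tendsto' lC fun F => bst_C2_le_one ha (bst_chain_adm ha hbh F) 0 _ hn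
  · refine le_of_tendsto_of_tendsto' lD ((lV.add (lC.sqrt.const_mul 2)).add lC) fun F => ?_
    have h1 := dec F
    have h2 := bst_XCX_le_sqrt ha (bst_chain_adm ha hbh F) 0 (ghIdx (ghPs a F) p) hn
    unfold obD2 at h1
    simp only [ckX4F]
    linarith
  · refine le_of_tendsto_of_tendsto' (lV.add lC) lD fun F => ?_
    have h1 := dec F
    have h2 := bst_XCX_nonneg (n := n) ha (bst_chain_adm ha hbh F) 0 (ghIdx (ghPs a F) p)
    unfold obD2 at h1
    simp only [ckX4F]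
    linarith

/-- (G3.a) -/
theorem bst_clk_SB (hn : 0 < n) (ha : 0 < a) (hbh : CkAdm a b h) {p p' : GhPos} (hp : p.Ok a) (hp' : p'.Ok a)
    (hpp : p ≤ p') :
    0 ≤ skCS n a b h p ∧ skCS n a b h p ≤ skCS n a b h p' ∧ skCB n a b h p ≤ skCB n a b h p' ∧
      skCS n a b h p ^ 2 ≤ skCB n a b h p ∧ skCB n a b h p ≤ 1 := by
  obtain ⟨lS, lB, -, -, -⟩ := bst_lim hn ha hbh hp
  obtain ⟨lS', lB', -, -, -⟩ := bst_lim hn ha hbh hp'
  obtain ⟨h1, h2, -, -, h5⟩ := bst_clk_D2 hn ha hbh hp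
  refine ⟨?_, ?_, ?_, ?_, ?_⟩
  · exact ge_of_tendsto' lS fun F => bst_S_nonneg ha (bst_chain_adm ha hbh F) 0 _
  · exact le_of_tendsto_of_tendsto' lS lS' fun F =>
      bst_S_mono ha (bst_chain_adm ha hbh F) 0 (bst_idx_mono _ hpp)
  · exact le_of_tendsto_of_tendsto' lB lB' fun F =>
      bst_B_mono ha (bst_chain_adm ha hbh F) 0 (bst_idx_mono _ hpp)
  · linarith
  · exact le_of_tendsto' lB fun F => bst_B_le_one ha (bst_chain_adm ha hbh F) 0 _ hn

end limits

/-! ## 7. integrability in the mass -/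

section intble
variable {n : ℕ} {a : ℝ} {b h : ℝ → ℝ}

theorem bst_posA_le {u u' : ℝ} (h : u ≤ u') : ghPosA u ≤ ghPosA u' := by
  rw [gh_os_pos_le_iff]
  rcases h.lt_or_eq with h | h
  · exact Or.inl h
  · exact Or.inr ⟨h, le_rfl⟩

/-- a function which moves at most like a monotone function is a difference of monotone functions -/
theorem bst_intble_of_mod {f φ : ℝ → ℝ} {C : ℝ} (hφ : MonotoneOn φ (Icc 0 a)) (ha : 0 ≤ a)
    (hf : ∀ u ∈ Icc 0 a, ∀ u' ∈ Icc 0 a, u ≤ u' → |f u - f u'| ≤ C * (φ u' - φ u)) :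
    IntervalIntegrable f volume 0 a := by
  have hm : MonotoneOn (fun u => C * φ u + f u) (Icc 0 a) := by
    intro u hu u' hu' huu
    have := (abs_le.1 (hf u hu u' hu' huu)).2
    show C * φ u + f u ≤ C * φ u' + f u'
    linarith
  have i1 : IntervalIntegrable (fun u => C * φ u + f u) volume 0 a :=
    MonotoneOn.intervalIntegrable (by rwa [uIcc_of_le ha])
  have i2 : IntervalIntegrable φ volume 0 a := MonotoneOn.intervalIntegrable (by rwa [uIcc_of_le ha])
  have := i1.sub (i2.const_mul C)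
  refine this.congr fun u _ => ?_
  simp

/-- (G3.d) -/
theorem bst_clk_intble (hn : 0 < n) (ha : 0 < a) (hbh : CkAdm a b h) :
    IntervalIntegrable (fun u => skCS n a b h (ghPosA u)) volume 0 a ∧
    IntervalIntegrable (fun u => skCB n a b h (ghPosA u)) volume 0 a ∧
    IntervalIntegrable (fun u => ckH2 n a b h (ghPosA u)) volume 0 a ∧
    IntervalIntegrable (fun u => ckC2 n a b h (ghPosA u)) volume 0 a ∧
    IntervalIntegrable (fun u => ckVx n a b h (ghPosA u)) volume 0 a := by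
  obtain ⟨C, hC⟩ := exit_clk_stat_pos (n := n) hn ha
  have hok : ∀ u ∈ Icc 0 a, (ghPosA u).Ok a := fun u hu => gh_os_posA_ok hu.1 hu.2
  have mb : ∀ {c : ℝ → ℝ}, GhClk1 a c → ∀ u u' : ℝ, u ≤ u' → ghAt a c (ghPosA u) ≤ ghAt a c (ghPosA u') :=
    fun hc u u' huu => gh_os_at_mono ha.le hc (by simp [ghPosA, GhPos.lam]) (by simp [ghPosA, GhPos.lam])
      (bst_posA_le huu)
  set φ : ℝ → ℝ := fun u => ghAt a b (ghPosA u) + ghAt a h (ghPosA u) with hφd
  have hφ : MonotoneOn φ (Icc 0 a) := fun u _ u' _ huu => add_le_add (mb hbh.1 u u' huu) (mb hbh.2 u u' huu)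
  have key := fun (u : ℝ) (hu : u ∈ Icc 0 a) (u' : ℝ) (hu' : u' ∈ Icc 0 a) (huu : u ≤ u') =>
    hC b h hbh (ghPosA u) (ghPosA u') (hok u hu) (hok u' hu') (φ u' - φ u) (by
      rw [abs_of_nonpos (sub_nonpos.2 (mb hbh.1 u u' huu)), abs_of_nonpos (sub_nonpos.2 (mb hbh.2 u u' huu))]
      simp only [hφd]
      linarith)
  have iS : IntervalIntegrable (fun u => skCS n a b h (ghPosA u)) volume 0 a :=
    bst_intble_of_mod hφ ha.le fun u hu u' hu' huu => (key u hu u' hu' huu).1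
  have iX : IntervalIntegrable (fun u => ckX4 n a b h (ghPosA u)) volume 0 a :=
    bst_intble_of_mod hφ ha.le fun u hu u' hu' huu => (key u hu u' hu' huu).2.2.2.2
  have iS2 : IntervalIntegrable (fun u => skCS n a b h (ghPosA u) ^ 2) volume 0 a := by
    refine MonotoneOn.intervalIntegrable ?_
    rw [uIcc_of_le ha.le]
    intro u hu u' hu' huu
    obtain ⟨h0, h1, -⟩ := bst_clk_SB hn ha hbh (hok u hu) (hok u' hu') (bst_posA_le huu)
    exact pow_le_pow_left₀ h0 h1 2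
  refine ⟨iS, bst_intble_of_mod hφ ha.le fun u hu u' hu' huu => (key u hu u' hu' huu).2.1,
    bst_intble_of_mod hφ ha.le fun u hu u' hu' huu => (key u hu u' hu' huu).2.2.1,
    bst_intble_of_mod hφ ha.le fun u hu u' hu' huu => (key u hu u' hu' huu).2.2.2.1, ?_⟩
  exact iX.sub iS2

end intble

end Claimed.Agent.R286
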