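import Claimed.Agent.R286.Brg.Thin
import Claimed.Agent.R286.Brg.Step
import Claimed.Agent.R286.Fd.ClkDefs

/-!
# Row 286 (S0533), unit BRIDGE, file StepNu : A STEP CLOCK IS REACHED EXACTLY, TREE NUMBERS      (helper55; prefix `sk_sn_`)      0 sorry

PE Prop 2.14 (G0.e).      Proves `exit_clk_step_nu` of `Exit/ClkLim.lean`.
A chain which contains the positions after all the jumps of a step clock with strictly increasing masses is THINNED (`Brg/Thin.lean`) to these positions:
a position at a mass which is not a jump is empty, a position inside a jump merges with the position after the jump (the forks of `ckRT P sh` are positions after jumps, or `(0,0)`, which is empty).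
-/

set_option autoImplicit false

namespace Claimed.Agent.R286

open MeasureTheory ProbabilityTheory Filter Topology Set Function

noncomputable section

/-- the positions after the jumps -/
def skSnL (P : SkStp) : List GhPos := P.map fun e => ghPosA e.m

theorem sk_sn_eqns_cite : True := by
  have := @skSnL.eq_1
  trivial

theorem sk_sn_posA_u (u : ℝ) : (ghPosA u).u = u := rfl
theorem sk_sn_posA_lam (u : ℝ) : (ghPosA u).lam = 1 := rfl
theorem sk_sn_posB_u (u : ℝ) : (ghPosB u).u = u := rfl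
theorem sk_sn_posB_lam (u : ℝ) : (ghPosB u).lam = 0 := rfl

theorem sk_sn_posA_lt {u v : ℝ} : ghPosA u < ghPosA v ↔ u < v := by
  rw [gh_os_pos_lt_iff]
  simp only [sk_sn_posA_u, sk_sn_posA_lam, lt_irrefl, and_false, or_false]

theorem sk_sn_posA_le {u v : ℝ} : ghPosA u ≤ ghPosA v ↔ u ≤ v := by
  rw [gh_os_pos_le_iff]
  simp only [sk_sn_posA_u, sk_sn_posA_lam, le_refl, and_true]
  exact le_iff_lt_or_eq.symm

theorem sk_sn_L_sorted {P : SkStp} (hs : P.Pairwise fun e e' => e.m < e'.m) : (skSnL P).Pairwise (· < ·) := by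
  unfold skSnL
  rw [List.pairwise_map]
  exact hs.imp fun h => sk_sn_posA_lt.2 h

/-! ### the clocks of a step path with strictly increasing masses -/

theorem sk_sn_clk_append (R Q : SkStp) (u : ℝ) :
    skClkB (R ++ Q) u = skClkB R u + skClkB Q u ∧ skClkH (R ++ Q) u = skClkH R u + skClkH Q u := by
  simp [skClkB, skClkH]

theorem sk_sn_clk_at {R Q : SkStp} {e : SkInc} (hs : (R ++ e :: Q).Pairwise fun e e' => e.m < e'.m) :
    skClkB (R ++ e :: Q) e.m = skTotB R + e.db ∧ skClkH (R ++ e :: Q) e.m = skTotH R + e.dh := by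
  have h := List.pairwise_append.1 hs
  have h1 := sk_stp_clk_above R e.m fun x hx => (h.2.2 x hx e List.mem_cons_self).le
  have h2 := sk_stp_clk_below Q e.m (List.pairwise_cons.1 h.2.1).1
  rw [(sk_sn_clk_append R (e :: Q) e.m).1, (sk_sn_clk_append R (e :: Q) e.m).2, sk_stp_clkB_cons, sk_stp_clkH_cons,
    if_pos le_rfl, if_pos le_rfl, h1.1, h1.2, h2.1, h2.2]
  simp

/-- the chain through the positions after the jumps is the step path -/
theorem sk_sn_stp {a : ℝ} {P : SkStp} (hP : SkAdm a P) (hs : P.Pairwise fun e e' => e.m < e'.m) :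
    ∀ (Q R : SkStp), P = R ++ Q → skCStp a (skClkB P) (skClkH P) (skTotB R) (skTotH R) (skSnL Q) = Q
  | [], _, _ => rfl
  | e :: Q, R, h => by
      have he : e ∈ P := by rw [h]; exact List.mem_append_right _ List.mem_cons_self
      have hem := hP.2 e he
      have h1 := sk_sn_clk_at (h ▸ hs)
      rw [← h] at h1
      have hB : ghAt a (skClkB P) (ghPosA e.m) = skTotB R + e.db := by
        rw [sk_stp_at_posA (sk_stp_clk_right P e.m).1 hem.1 hem.2.1, h1.1]
      have hH : ghAt a (skClkH P) (ghPosA e.m) = skTotH R + e.dh := by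
        rw [sk_stp_at_posA (sk_stp_clk_right P e.m).2 hem.1 hem.2.1, h1.2]
      have ih := sk_sn_stp hP hs Q (R ++ [e]) (by rw [h]; simp)
      have e1 : skTotB (R ++ [e]) = skTotB R + e.db := by simp [skTotB]
      have e2 : skTotH (R ++ [e]) = skTotH R + e.dh := by simp [skTotH]
      rw [e1, e2] at ih
      simp only [skSnL, List.map_cons, skCStp]
      rw [hB, hH]
      have ih' : skCStp a (skClkB P) (skClkH P) (skTotB R + e.db) (skTotH R + e.dh) (List.map (fun e => ghPosA e.m) Q) = Q := ih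
      rw [ih', sk_sn_posA_u]
      congr 1
      cases e
      simp

/-! ### the table of `ckRT P sh` on the positions after the jumps -/

theorem sk_sn_idx_top (P : SkStp) : ghIdx (skSnL P) ⊤ = P.length + 1 := by
  rw [gh_rm_idx_eq]
  simp [skSnL]

theorem sk_sn_idx_zero {a : ℝ} {P : SkStp} (hP : SkAdm a P) :
    ghIdx (skSnL P) ((ghPosB 0 : GhPos) : WithTop GhPos) = 0 := by
  rw [gh_rm_idx_eq]
  have : (skSnL P).filter (fun x : GhPos => decide ((x : WithTop GhPos) ≤ ((ghPosB 0 : GhPos) : WithTop GhPos))) = [] := by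
    rw [List.filter_eq_nil_iff]
    intro x hx hxx
    obtain ⟨e, he, rfl⟩ := List.mem_map.1 hx
    have := WithTop.coe_le_coe.1 (of_decide_eq_true hxx)
    rw [gh_os_pos_le_iff] at this
    simp only [sk_sn_posA_u, sk_sn_posA_lam, sk_sn_posB_u, sk_sn_posB_lam] at this
    rcases this with h | ⟨_, h⟩
    · linarith [(hP.2 e he).1]
    · linarith
  rw [this]
  simp

theorem sk_sn_idx_at {R Q : SkStp} {e : SkInc} (hs : (R ++ e :: Q).Pairwise fun e e' => e.m < e'.m) :
    ghIdx (skSnL (R ++ e :: Q)) ((ghPosA e.m : GhPos) : WithTop GhPos) = R.length + 1 := by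
  have h := List.pairwise_append.1 hs
  rw [gh_rm_idx_eq]
  have h1 : (R.map fun e => ghPosA e.m).filter
      (fun x : GhPos => decide ((x : WithTop GhPos) ≤ ((ghPosA e.m : GhPos) : WithTop GhPos))) = R.map fun e => ghPosA e.m := by
    rw [List.filter_eq_self]
    intro x hx
    obtain ⟨f, hf, rfl⟩ := List.mem_map.1 hx
    exact decide_eq_true (WithTop.coe_le_coe.2 (sk_sn_posA_le.2 (h.2.2 f hf e List.mem_cons_self).le))
  have h2 : (Q.map fun e => ghPosA e.m).filter
      (fun x : GhPos => decide ((x : WithTop GhPos) ≤ ((ghPosA e.m : GhPos) : WithTop GhPos))) = [] := by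
    rw [List.filter_eq_nil_iff]
    intro x hx hxx
    obtain ⟨f, hf, rfl⟩ := List.mem_map.1 hx
    have := sk_sn_posA_le.1 (WithTop.coe_le_coe.1 (of_decide_eq_true hxx))
    linarith [(List.pairwise_cons.1 h.2.1).1 f hf]
  simp only [skSnL, List.map_append, List.map_cons, List.filter_append, h1]
  rw [List.filter_cons_of_pos (by simp), h2]
  simp

theorem sk_sn_idx_pos {P : SkStp} (hs : P.Pairwise fun e e' => e.m < e'.m) {s : ℕ} (h1 : 1 ≤ s) (h2 : s ≤ P.length) :
    ghIdx (skSnL P) ((ghPosA ((P.map SkInc.m).getD (s - 1) 0) : GhPos) : WithTop GhPos) = s := by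
  have hi : s - 1 < P.length := by omega
  have hdec : P.take (s - 1) ++ P[s - 1] :: P.drop (s - 1 + 1) = P := by
    rw [← List.drop_eq_getElem_cons hi, List.take_append_drop]
  have hget : (P.map SkInc.m).getD (s - 1) 0 = P[s - 1].m := by
    simp [List.getD_eq_getElem?_getD, hi]
  have := sk_sn_idx_at (R := P.take (s - 1)) (e := P[s - 1]) (Q := P.drop (s - 1 + 1)) (by rw [hdec]; exact hs)
  rw [hdec, List.length_take, min_eq_left hi.le] at this
  rw [hget, this]
  omega

theorem sk_sn_rep {a : ℝ} {P : SkStp} (hP : SkAdm a P) (hs : P.Pairwise fun e e' => e.m < e'.m) (q : ℕ) (T : GhTree q)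
    (sh : ℕ → ℕ → ℕ) (hsh : ∀ x y : Fin q, sh x y = T.sh x y) {t : ℕ} (ht : t ≤ P.length) :
    ghRepN q (ghDisc (skSnL P) (ckRT P sh)) t = T.rep t := by
  funext x
  unfold ghRepN GhTree.rep
  congr 1
  ext y
  simp only [Finset.mem_filter, Finset.mem_univ, true_and]
  by_cases hxy : y = x
  · simp [hxy]
  · simp only [hxy, false_or]
    unfold ghDisc ckRT
    rw [hsh x y]
    have hne : ¬ x.1 = y.1 := fun h => hxy (Fin.ext h.symm)
    by_cases h1 : P.length < T.sh x y
    · rw [if_pos (Or.inr h1), sk_sn_idx_top]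
      omega
    · rw [if_neg (by tauto)]
      by_cases h0 : T.sh x y = 0
      · rw [if_pos h0, sk_sn_idx_zero hP, h0]
      · rw [if_neg h0, sk_sn_idx_pos hs (by omega) (by omega)]

/-! ### thinning -/

theorem sk_sn_at_le {a : ℝ} (ha : 0 < a) {P : SkStp} (hP : SkAdm a P) {r : GhPos} (hr : r.Ok a) :
    ghAt a (skClkB P) r ≤ skClkB P r.u ∧ ghAt a (skClkH P) r ≤ skClkH P r.u := by
  have hc := sk_stp_clk1 hP
  constructor
  · calc ghAt a (skClkB P) r ≤ rightLim (ghClamp a (skClkB P)) r.u := gh_os_at_le_right ha.le hc.1 hr.2.2.2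
      _ = skClkB P r.u := by rw [← gh_os_at_posA, sk_stp_at_posA (sk_stp_clk_right P r.u).1 hr.1 hr.2.1]
  · calc ghAt a (skClkH P) r ≤ rightLim (ghClamp a (skClkH P)) r.u := gh_os_at_le_right ha.le hc.2 hr.2.2.2
      _ = skClkH P r.u := by rw [← gh_os_at_posA, sk_stp_at_posA (sk_stp_clk_right P r.u).2 hr.1 hr.2.1]

theorem sk_sn_clkAt_ext (n : ℕ) (a : ℝ) (b h : ℝ → ℝ) {p p' : GhPos} (hb : ghAt a b p = ghAt a b p')
    (hh : ghAt a h p = ghAt a h p') : ghClkAt a (skClk n b h) p = ghClkAt a (skClk n b h) p' := by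
  funext i
  cases i
  · exact hb
  · exact hh

theorem sk_sn_clkAt_zero (n : ℕ) (a : ℝ) (b h : ℝ → ℝ) {p : GhPos} (hb : ghAt a b p = 0)
    (hh : ghAt a h p = 0) : ghClkAt a (skClk n b h) p = 0 := by
  funext i
  cases i
  · exact hb
  · exact hh

theorem sk_sn_thin (n : ℕ) {a : ℝ} (ha : 0 < a) {P : SkStp} (hP : SkAdm a P) (hs : P.Pairwise fun e e' => e.m < e'.m)
    (q : ℕ) (sh : ℕ → ℕ → ℕ) (Q : (Fin q → SkCfg n) → ℝ) {ps : List GhPos} (hps : ps.Pairwise (· < ·))
    (hok : ∀ p ∈ ps, p.Ok a) (hL : ∀ k ∈ skSnL P, k ∈ ps) :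
    ghNuV (skBase n a) (skPhi n) (ghClkAt a (skClk n (skClkB P) (skClkH P))) 0 q (ckRT P sh) Q ps
      = ghNuV (skBase n a) (skPhi n) (ghClkAt a (skClk n (skClkB P) (skClkH P))) 0 q (ckRT P sh) Q (skSnL P) := by
  classical
  have hc := sk_stp_clk1 hP
  have hA : ∀ e ∈ P, ghAt a (skClkB P) (ghPosA e.m) = skClkB P e.m ∧ ghAt a (skClkH P) (ghPosA e.m) = skClkH P e.m :=
    fun e he => ⟨sk_stp_at_posA (sk_stp_clk_right P e.m).1 (hP.2 e he).1 (hP.2 e he).2.1,
      sk_stp_at_posA (sk_stp_clk_right P e.m).2 (hP.2 e he).1 (hP.2 e he).2.1⟩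
  have hmem : ∀ e ∈ P, ghPosA e.m ∈ skSnL P := fun e he => List.mem_map.2 ⟨e, he, rfl⟩
  have key := gh_th_nu (sk_stp_base_ok n ha) (skPhi n) (ghClkAt a (skClk n (skClkB P) (skClkH P))) 0 q (ckRT P sh) Q
    (fun k => k ∈ skSnL P) hps (fun x hx => (hok x hx).1) hL ?_ ?_ ?_
  · rw [key]
    congr 1
    refine List.Pairwise.eq_of_mem_iff (hps.filter _) (sk_sn_L_sorted hs) fun x => ?_
    simp only [List.mem_filter, decide_eq_true_eq]
    exact ⟨fun h => h.2, fun h => ⟨hL x h, h⟩⟩
  · intro x hx i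
    cases i
    · exact gh_os_at_nonneg ha.le hc.1 (hok x hx).2.2.1
    · exact gh_os_at_nonneg ha.le hc.2 (hok x hx).2.2.1
  · intro x hx y hy hxy i
    cases i
    · exact gh_os_at_mono ha.le hc.1 (hok x hx).2.2.2 (hok y hy).2.2.1 hxy
    · exact gh_os_at_mono ha.le hc.2 (hok x hx).2.2.2 (hok y hy).2.2.1 hxy
  · intro r hr hrK
    have hro := hok r hr
    by_cases hex : ∃ e ∈ P, e.m = r.u
    · obtain ⟨e, he, hem⟩ := hex
      by_cases hz : r.u = 0 ∧ r.lam = 0
      · left; left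
        refine sk_sn_clkAt_zero n a _ _ ?_ ?_
        · unfold ghAt
          rw [hz.1, hz.2, gh_os_left_zero a _ le_rfl]; ring
        · unfold ghAt
          rw [hz.1, hz.2, gh_os_left_zero a _ le_rfl]; ring
      · right
        have hlam : r.lam < 1 := by
          refine lt_of_le_of_ne hro.2.2.2 fun h1 => hrK ?_
          have : r = ghPosA e.m :=
            le_antisymm ((gh_os_pos_le_iff _ _).2 (Or.inr ⟨hem.symm, h1.le⟩))
              ((gh_os_pos_le_iff _ _).2 (Or.inr ⟨hem, h1.ge⟩))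
          rw [this]
          exact hmem e he
        refine ⟨ghPosA e.m, hmem e he, (gh_os_pos_lt_iff _ _).2 (Or.inr ⟨hem.symm, hlam⟩), hem, ?_⟩
        intro x y _ _ hcon
        obtain ⟨h1, h2⟩ := hcon
        unfold ckRT at h1 h2
        split_ifs at h1 h2
        · exact not_top_lt h2
        · have h3 := (gh_os_pos_le_iff _ _).1 (WithTop.coe_le_coe.1 h1)
          simp only [sk_sn_posB_u, sk_sn_posB_lam] at h3
          rcases h3 with h3 | ⟨h3, h4⟩
          · linarith [hro.1]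
          · exact hz ⟨h3, le_antisymm h4 hro.2.2.1⟩
        · have h3 := (gh_os_pos_le_iff _ _).1 (WithTop.coe_le_coe.1 h1)
          have h4 := sk_sn_posA_lt.1 (WithTop.coe_lt_coe.1 h2)
          simp only [sk_sn_posA_u, sk_sn_posA_lam] at h3
          rcases h3 with h3 | ⟨h3, _⟩ <;> linarith
    · left
      have hle := sk_sn_at_le ha hP hro
      by_cases hex2 : ∃ e ∈ P, e.m ≤ r.u
      · obtain ⟨e, he, heu, hB, hH⟩ := sk_stp_last P r.u hex2
        right
        have hlt : e.m < r.u := lt_of_le_of_ne heu fun h => hex ⟨e, he, h⟩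
        have hpr : ghPosA e.m < r := (gh_os_pos_lt_iff _ _).2 (Or.inl hlt)
        refine ⟨ghPosA e.m, hmem e he, hpr, sk_sn_clkAt_ext n a _ _ ?_ ?_⟩
        · refine le_antisymm (gh_os_at_mono ha.le hc.1 (by rw [sk_sn_posA_lam]) hro.2.2.1 hpr.le) ?_
          rw [(hA e he).1, hB]; exact hle.1
        · refine le_antisymm (gh_os_at_mono ha.le hc.2 (by rw [sk_sn_posA_lam]) hro.2.2.1 hpr.le) ?_
          rw [(hA e he).2, hH]; exact hle.2
      · left
        push Not at hex2
        have h0 := sk_stp_clk_below P r.u hex2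
        refine sk_sn_clkAt_zero n a _ _ ?_ ?_
        · exact le_antisymm (h0.1 ▸ hle.1) (gh_os_at_nonneg ha.le hc.1 hro.2.2.1)
        · exact le_antisymm (h0.2 ▸ hle.2) (gh_os_at_nonneg ha.le hc.2 hro.2.2.1)

/-! ### the theorem -/

theorem sk_sn_conv (n : ℕ) (a : ℝ) (b h : ℝ → ℝ) (q : ℕ) (τ : ℕ → ℕ → WithTop GhPos) (Q : (Fin q → SkCfg n) → ℝ)
    (ps : List GhPos) :
    ckNuF n a b h q τ Q ps = ghNuV (skBase n a) (skPhi n) (ghClkAt a (skClk n b h)) 0 q τ Q ps := by
  have h0 : (Sum.elim (fun _ => (0:ℝ)) fun _ => (0:ℝ) : SkDr n → ℝ) = 0 := by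
    funext i; cases i <;> rfl
  unfold ckNuF ghNuV ckStp
  rw [sk_c_chain, h0, gh_rm_chain_eq]

/-- **(G0.e)** step clocks with strictly increasing masses: the tree numbers are those of the step path, and the limit exists -/
theorem sk_sn_nu (n : ℕ) {a : ℝ} (ha : 0 < a) {P : SkStp} (hP : SkAdm a P) (hs : P.Pairwise fun e e' => e.m < e'.m)
    (q : ℕ) (T : GhTree q) (sh : ℕ → ℕ → ℕ) (hsh : ∀ x y : Fin q, sh x y = T.sh x y) (Q : (Fin q → SkCfg n) → ℝ) :
    skCNu n a (skClkB P) (skClkH P) q (ckRT P sh) Q = T.nu (skBase n a) (skLvs n P) 0 (fun _ σ => Q σ) ∧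
      GhLimEx a (ckNuF n a (skClkB P) (skClkH P) q (ckRT P sh) Q) := by
  classical
  rw [ck_nu_eq]
  refine gh_stp_lim_const a _ (skSnL P).toFinset _ fun F hF => ?_
  have hL : ∀ k ∈ skSnL P, k ∈ ghPs a F := by
    intro k hk
    obtain ⟨e, he, rfl⟩ := List.mem_map.1 hk
    exact gh_os_ps_mem.2 ⟨hF (List.mem_toFinset.2 hk), gh_os_posA_ok (hP.2 e he).1 (hP.2 e he).2.1⟩
  rw [sk_sn_conv, sk_sn_thin n ha hP hs q sh Q (gh_os_ps_lt a F) (fun p hp => (gh_os_ps_mem.1 hp).2) hL, ← sk_sn_conv]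
  unfold ckNuF ckStp GhTree.nu
  have h1 : skCStp a (skClkB P) (skClkH P) 0 0 (skSnL P) = P := sk_sn_stp hP hs P [] rfl
  rw [h1]
  exact gh_rm_nu_rep_congr _ Q _ _ _ _ fun t ht => sk_sn_rep hP hs q T sh hsh (by simpa [skLvs] using ht)

end

end Claimed.Agent.R286
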