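import Claimed.Agent.R286.Cmp.ProjG
import Claimed.Agent.R286.Fd.ObsTw
import Claimed.Agent.R286.Brg.Osc
import Claimed.Agent.R286.Defs.SkLem
import Claimed.Agent.R286.Defs.GhDeriv

/-!
# Row 286 (S0533), unit BRIDGE, file SUSFIN : THE CLOCK INEQUALITY AT THE CUTS OF A STEP PATH      (helper26; prefix `sf_`, exits `brg_susfin_*`)      sorry free

One level Cramer-Rao, no filling, no K7.      Level `l = (m, A)`, planted transition `D = ghD B l ls z`, innovation `N_c = c.xi - m E[inc c]`: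
* `sf_mgf`, `sf_sq`     `E_D exp(t N_c) <= exp(t^2 s2 / 2)`, hence `E_D N_c^2 <= s2 = |c|^2 + m a sup|inc c|^2`      (Cameron-Martin `cmj_cm` + Taylor `cmj_taylor`)
* `sf_N_cov`            `E_D [N_c (E' phi - E phi)] = ghH phi (inc c)`      (`cmj_ibp`)
* `sf_cs`, `sf_level`   `SUM_{i in I} ghH phi (col i)^2 <= (1 + m a K) E_D (E' phi - E phi)^2`, `K >= |A_s|^2`
* `sfAv`, `sf_path`     path expectation of a function of the field at the cut `j` = iterated planted averages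
* **`brg_susfin_step`** (F1)  `n dh trH2_j <= (1 + a^2 n (db/2 + dh)) (S_{j+1} - S_j)`
* `sf_hit`              the filled clock takes every value of `[0, c a]`
* **`brg_susfin_fine`** (F2)  all the increments of a clock along `ghPs a F` are `<= eps`, eventually along the net
Consumer: `Brg/Sus.lean` (helper28), exits `exit_clk_sus_inf`, `exit_clk_sus_int`.
-/

set_option autoImplicit false
set_option linter.unusedSectionVars false

namespace Claimed.Agent.R286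

open MeasureTheory ProbabilityTheory Filter Topology Function

section one
variable {S ι : Type} [Fintype S] [Fintype ι]

/-- the innovation of the driver in the direction `η` -/
noncomputable def sfN (B : GhB S) (l : GhLv S ι) (ls : List (GhLv S ι)) (η : ι → ℝ) (z : S → ℝ) (ξ : ι → ℝ) : ℝ :=
  (∑ i, η i * ξ i) - l.m * ghE B (l :: ls) (l.inc η) z

theorem sf_N_cont (B : GhB S) (l : GhLv S ι) (ls : List (GhLv S ι)) (η : ι → ℝ) (z : S → ℝ) :
    Continuous (sfN B l ls η z) := by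
  unfold sfN
  fun_prop

/-- sharp quadratic lower bound of `cosh` -/
theorem sf_sq_le_exp (x : ℝ) : x ^ 2 / 2 ≤ (Real.exp x + Real.exp (-x)) / 2 - 1 := by
  have h1 : (Real.exp x + Real.exp (-x)) / 2 = Real.cosh (2 * (x / 2)) := by
    rw [Real.cosh_eq]; congr 3 <;> ring
  rw [h1, Real.cosh_two_mul, Real.cosh_sq']
  have h2 : (x / 2) ^ 2 ≤ Real.sinh (x / 2) ^ 2 := by
    rcases le_total 0 x with h | h
    · have := Real.self_le_sinh_iff.2 (by linarith : 0 ≤ x / 2)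
      exact pow_le_pow_left₀ (by linarith) this 2
    · have := Real.self_le_sinh_iff.2 (by linarith : 0 ≤ -(x / 2))
      rw [Real.sinh_neg] at this
      nlinarith
  nlinarith

/-- mgf of the innovation under the planted transition -/
theorem sf_mgf {B : GhB S} (hB : B.Ok) {l : GhLv S ι} {ls : List (GhLv S ι)} (h : GhNn (l :: ls))
    (ha : ∀ l' ∈ l :: ls, l'.m ≤ B.a) (η : ι → ℝ) {b : ℝ} (hb : ∀ s, |l.inc η s| ≤ b) (z : S → ℝ) (t : ℝ) :
    Integrable (fun ξ => ghD B l ls z ξ * Real.exp (t * sfN B l ls η z ξ)) (ghStd ι) ∧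
    ∫ ξ, ghD B l ls z ξ * Real.exp (t * sfN B l ls η z ξ) ∂ghStd ι
      ≤ Real.exp (t ^ 2 * ((∑ i, η i ^ 2) + l.m * B.a * b ^ 2) / 2) := by
  have e : ∀ ξ, ghD B l ls z ξ * Real.exp (t * sfN B l ls η z ξ)
      = Real.exp (-(t * (l.m * ghE B (l :: ls) (l.inc η) z)))
        * (ghD B l ls z ξ * (Real.exp (t * ∑ i, η i * ξ i) * (fun _ : S → ℝ => (1 : ℝ)) (z + l.inc ξ))) := by
    intro ξ
    simp only [mul_one, sfN]
    rw [mul_left_comm, ← Real.exp_add]
    congr 2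
    ring
  simp_rw [e]
  refine ⟨(cmj_int_exp hB h η t (gh_b_bc_const 1) z).const_mul _, ?_⟩
  rw [integral_const_mul, cmj_cm hB h η t (fun _ => 1) z, gh_b_A_const hB h, mul_one, ← Real.exp_add]
  apply Real.exp_le_exp.2
  have hT := mul_le_mul_of_nonneg_left (cmj_taylor hB h ha hb z t) h.head
  nlinarith

/-- a number `V` with `u V / 2 ≤ exp (u σ² / 2) - 1` for all `u ≥ 0` is `≤ σ²` -/
theorem sf_num {V s2 : ℝ} (hs : 0 ≤ s2) (key : ∀ t : ℝ, t ^ 2 * V / 2 ≤ Real.exp (t ^ 2 * s2 / 2) - 1) : V ≤ s2 := by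
  by_contra hV
  push Not at hV
  set δ := V - s2 with hδ
  have hδ0 : 0 < δ := by linarith
  set D0 := s2 ^ 2 + s2 + 1 with hD0
  have hD1 : 0 < D0 := by positivity
  set u := min 1 δ / D0 with hu
  have hm0 : 0 < min 1 δ := lt_min one_pos hδ0
  have hu0 : 0 < u := div_pos hm0 hD1
  have huD : u * D0 = min 1 δ := by rw [hu]; field_simp
  have h1 : u * s2 ≤ 1 := by
    have : u * s2 ≤ u * D0 := mul_le_mul_of_nonneg_left (by rw [hD0]; nlinarith [sq_nonneg s2]) hu0.le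
    linarith [min_le_left 1 δ]
  have h2 : u * s2 ^ 2 ≤ δ := by
    have : u * s2 ^ 2 ≤ u * D0 := mul_le_mul_of_nonneg_left (by rw [hD0]; linarith) hu0.le
    linarith [min_le_right 1 δ]
  have k := key (Real.sqrt u)
  rw [Real.sq_sqrt hu0.le] at k
  have hy : |u * s2 / 2| ≤ 1 := by
    rw [abs_of_nonneg (by positivity)]; linarith
  have h3 := (abs_le.1 (Real.abs_exp_sub_one_sub_id_le hy)).2
  have h4 : u * V / 2 ≤ u * s2 / 2 + (u * s2 / 2) ^ 2 := by linarith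
  have h5 : u * δ / 2 ≤ u * (u * s2 ^ 2) / 4 := by
    have : u * V / 2 - u * s2 / 2 = u * δ / 2 := by rw [hδ]; ring
    nlinarith
  have h6 : u * (u * s2 ^ 2) / 4 ≤ u * δ / 4 := by
    have := mul_le_mul_of_nonneg_left h2 hu0.le
    linarith
  nlinarith [mul_pos hu0 hδ0]

/-- second moment of the innovation -/
theorem sf_sq {B : GhB S} (hB : B.Ok) {l : GhLv S ι} {ls : List (GhLv S ι)} (h : GhNn (l :: ls))
    (ha : ∀ l' ∈ l :: ls, l'.m ≤ B.a) (η : ι → ℝ) {b : ℝ} (hb : ∀ s, |l.inc η s| ≤ b) (z : S → ℝ) :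
    Integrable (fun ξ => ghD B l ls z ξ * sfN B l ls η z ξ ^ 2) (ghStd ι) ∧
    ∫ ξ, ghD B l ls z ξ * sfN B l ls η z ξ ^ 2 ∂ghStd ι ≤ (∑ i, η i ^ 2) + l.m * B.a * b ^ 2 := by
  have hD0 : ∀ ξ, 0 ≤ ghD B l ls z ξ := fun ξ => (gh_b_D_pos B l ls z ξ).le
  have hint : Integrable (fun ξ => ghD B l ls z ξ * sfN B l ls η z ξ ^ 2) (ghStd ι) := by
    refine ((sf_mgf hB h ha η hb z 1).1.add (sf_mgf hB h ha η hb z (-1)).1).mono'
      ((gh_b_D_continuous hB h.tail l z).mul ((sf_N_cont B l ls η z).pow 2)).aestronglyMeasurable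
      (Eventually.of_forall fun ξ => ?_)
    rw [Real.norm_eq_abs, abs_of_nonneg (mul_nonneg (hD0 ξ) (sq_nonneg _))]
    simp only [Pi.add_apply, one_mul, neg_mul]
    rw [← mul_add]
    refine mul_le_mul_of_nonneg_left ?_ (hD0 ξ)
    linarith [sf_sq_le_exp (sfN B l ls η z ξ)]
  refine ⟨hint, ?_⟩
  have hs : 0 ≤ (∑ i, η i ^ 2) + l.m * B.a * b ^ 2 :=
    add_nonneg (Finset.sum_nonneg fun i _ => sq_nonneg _) (mul_nonneg (mul_nonneg h.head hB.pos.le) (sq_nonneg _))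
  refine sf_num hs fun t => ?_
  obtain ⟨i1, j1⟩ := sf_mgf hB h ha η hb z t
  obtain ⟨i2, j2⟩ := sf_mgf hB h ha η hb z (-t)
  have iD := gh_b_D_integrable hB h.tail l z
  have i12 : Integrable (fun ξ => ghD B l ls z ξ * Real.exp (t * sfN B l ls η z ξ)
      + ghD B l ls z ξ * Real.exp (-t * sfN B l ls η z ξ)) (ghStd ι) := i1.add i2
  have e1 : t ^ 2 * (∫ ξ, ghD B l ls z ξ * sfN B l ls η z ξ ^ 2 ∂ghStd ι) / 2
      = ∫ ξ, (t ^ 2 / 2) * (ghD B l ls z ξ * sfN B l ls η z ξ ^ 2) ∂ghStd ι := by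
    rw [integral_const_mul]; ring
  have e2 : ∫ ξ, (t ^ 2 / 2) * (ghD B l ls z ξ * sfN B l ls η z ξ ^ 2) ∂ghStd ι
      ≤ ∫ ξ, ((2 : ℝ)⁻¹ * (ghD B l ls z ξ * Real.exp (t * sfN B l ls η z ξ) + ghD B l ls z ξ * Real.exp (-t * sfN B l ls η z ξ))
          - ghD B l ls z ξ) ∂ghStd ι := by
    refine integral_mono (hint.const_mul _) ((i12.const_mul _).sub iD) fun ξ => ?_
    have := mul_le_mul_of_nonneg_left (sf_sq_le_exp (t * sfN B l ls η z ξ)) (hD0 ξ)
    simp only [neg_mul]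
    nlinarith
  have e3 : ∫ ξ, ((2 : ℝ)⁻¹ * (ghD B l ls z ξ * Real.exp (t * sfN B l ls η z ξ) + ghD B l ls z ξ * Real.exp (-t * sfN B l ls η z ξ))
          - ghD B l ls z ξ) ∂ghStd ι
      = (2 : ℝ)⁻¹ * ((∫ ξ, ghD B l ls z ξ * Real.exp (t * sfN B l ls η z ξ) ∂ghStd ι)
          + ∫ ξ, ghD B l ls z ξ * Real.exp (-t * sfN B l ls η z ξ) ∂ghStd ι) - 1 := by
    rw [integral_sub (i12.const_mul _) iD, integral_const_mul, integral_add i1 i2, gh_b_D_integral hB h.tail]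
  rw [e1]
  refine e2.trans ?_
  rw [e3]
  rw [neg_sq] at j2
  linarith

/-- the Hessian kills the constants -/
theorem sf_H_const {B : GhB S} (hB : B.Ok) {ls : List (GhLv S ι)} (h : GhNn ls) (c : ℝ) (w z : S → ℝ) :
    ghH B ls (fun _ => c) w z = 0 := by
  rw [← ghE_fderiv hB]
  have : ghE B ls (fun _ => c) = fun _ => c := funext fun y => gh_b_E_const hB c h y
  rw [this]
  simp

/-- the Hessian is linear in the direction -/
theorem sf_H_inc {B : GhB S} (hB : B.Ok) (ls : List (GhLv S ι)) (l : GhLv S ι) (φ : S → ℝ) (η : ι → ℝ) (z : S → ℝ) :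
    ghH B ls φ (l.inc η) z = ∑ i, η i * ghH B ls φ (fun s => l.A s i) z := by
  have e : l.inc η = ∑ i, η i • (fun s => l.A s i) := by
    funext s
    simp only [GhLv.inc, Finset.sum_apply, Pi.smul_apply, smul_eq_mul]
    exact Finset.sum_congr rfl fun i _ => by ring
  rw [← ghE_fderiv hB, e, map_sum]
  refine Finset.sum_congr rfl fun i _ => ?_
  rw [map_smul, smul_eq_mul, ghE_fderiv hB]

/-- integrability of the innovation times a bounded continuous function of the next field -/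
theorem sf_N_int {B : GhB S} (hB : B.Ok) {l : GhLv S ι} {ls : List (GhLv S ι)} (h : GhNn (l :: ls)) (η : ι → ℝ)
    {f : (S → ℝ) → ℝ} {M : ℝ} (hf : GhBC f M) (z : S → ℝ) :
    Integrable (fun ξ => ghD B l ls z ξ * (sfN B l ls η z ξ * f (z + l.inc ξ))) (ghStd ι) := by
  have e : ∀ ξ, ghD B l ls z ξ * (sfN B l ls η z ξ * f (z + l.inc ξ))
      = ghD B l ls z ξ * ((∑ i, η i * ξ i) * f (z + l.inc ξ))
        - (l.m * ghE B (l :: ls) (l.inc η) z) * (ghD B l ls z ξ * f (z + l.inc ξ)) := fun ξ => by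
    simp only [sfN]; ring
  simp_rw [e]
  exact (cmj_int_lin hB h η hf z).sub ((gh_b_A_integrable hB h hf z).const_mul _)

/-- the innovation is centred -/
theorem sf_N_mean {B : GhB S} (hB : B.Ok) {l : GhLv S ι} {ls : List (GhLv S ι)} (h : GhNn (l :: ls)) (η : ι → ℝ)
    (z : S → ℝ) : ∫ ξ, ghD B l ls z ξ * sfN B l ls η z ξ ∂ghStd ι = 0 := by
  have h1 := cmj_ibp hB h η (fun _ => 1) z
  rw [sf_H_const hB h] at h1
  rw [← h1]
  refine integral_congr_ae (Eventually.of_forall fun ξ => ?_)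
  simp only [sfN, gh_b_E_const hB 1 h.tail, mul_one]

/-- covariance of the innovation with the martingale increment -/
theorem sf_N_cov {B : GhB S} (hB : B.Ok) {l : GhLv S ι} {ls : List (GhLv S ι)} (h : GhNn (l :: ls)) (η : ι → ℝ)
    (φ : S → ℝ) (z : S → ℝ) :
    ∫ ξ, ghD B l ls z ξ * (sfN B l ls η z ξ * (ghE B ls φ (z + l.inc ξ) - ghE B (l :: ls) φ z)) ∂ghStd ι
      = ghH B (l :: ls) φ (l.inc η) z := by
  have h1 := cmj_ibp hB h η φ z
  have h2 := sf_N_mean hB h η z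
  have i1 := sf_N_int hB h η (gh_b_E_bc' hB φ h.tail) z
  have i2 := sf_N_int hB h η (gh_b_bc_const 1) z
  simp only [mul_one] at i2
  have e : ∀ ξ, ghD B l ls z ξ * (sfN B l ls η z ξ * (ghE B ls φ (z + l.inc ξ) - ghE B (l :: ls) φ z))
      = ghD B l ls z ξ * (sfN B l ls η z ξ * ghE B ls φ (z + l.inc ξ))
        - ghE B (l :: ls) φ z * (ghD B l ls z ξ * sfN B l ls η z ξ) := fun ξ => by ring
  simp_rw [e]
  rw [integral_sub i1 (i2.const_mul _), integral_const_mul, h2, mul_zero, sub_zero, ← h1]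
  rfl

/-- **Cramér-Rao at one level** -/
theorem sf_cs {B : GhB S} (hB : B.Ok) {l : GhLv S ι} {ls : List (GhLv S ι)} (h : GhNn (l :: ls))
    (ha : ∀ l' ∈ l :: ls, l'.m ≤ B.a) (η : ι → ℝ) {b : ℝ} (hb : ∀ s, |l.inc η s| ≤ b) (φ : S → ℝ) (z : S → ℝ) :
    ghH B (l :: ls) φ (l.inc η) z ^ 2
      ≤ ((∑ i, η i ^ 2) + l.m * B.a * b ^ 2) * ghA B l ls (ghQ B l ls φ φ z) z := by
  obtain ⟨iN, hV⟩ := sf_sq hB h ha η hb z
  have hg : GhBC (fun y => ghE B ls φ y - ghE B (l :: ls) φ z) (‖φ‖ + |ghE B (l :: ls) φ z|) :=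
    (gh_b_E_bc' hB φ h.tail).sub (gh_b_bc_const _)
  have iX := sf_N_int hB h η hg z
  have iQ := gh_b_A_integrable hB h (gh_b_Q_bc hB φ φ h z) z
  have hX := sf_N_cov hB h η φ z
  have key : ∀ t : ℝ, 0 ≤ ((∑ i, η i ^ 2) + l.m * B.a * b ^ 2) * (t * t)
      + (-2 * ghH B (l :: ls) φ (l.inc η) z) * t + ghA B l ls (ghQ B l ls φ φ z) z := by
    intro t
    have h0 : 0 ≤ ∫ ξ, ghD B l ls z ξ * ((ghE B ls φ (z + l.inc ξ) - ghE B (l :: ls) φ z) - t * sfN B l ls η z ξ) ^ 2 ∂ghStd ι :=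
      integral_nonneg fun ξ => mul_nonneg (gh_b_D_pos B l ls z ξ).le (sq_nonneg _)
    have e : ∀ ξ, ghD B l ls z ξ * ((ghE B ls φ (z + l.inc ξ) - ghE B (l :: ls) φ z) - t * sfN B l ls η z ξ) ^ 2
        = ghD B l ls z ξ * ghQ B l ls φ φ z (z + l.inc ξ)
          - (2 * t) * (ghD B l ls z ξ * (sfN B l ls η z ξ * (ghE B ls φ (z + l.inc ξ) - ghE B (l :: ls) φ z)))
          + (t * t) * (ghD B l ls z ξ * sfN B l ls η z ξ ^ 2) := fun ξ => by
      simp only [ghQ]; ring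
    simp_rw [e] at h0
    have iQX : Integrable (fun ξ => ghD B l ls z ξ * ghQ B l ls φ φ z (z + l.inc ξ)
          - (2 * t) * (ghD B l ls z ξ * (sfN B l ls η z ξ * (ghE B ls φ (z + l.inc ξ) - ghE B (l :: ls) φ z)))) (ghStd ι) :=
      iQ.sub (iX.const_mul _)
    rw [integral_add iQX (iN.const_mul _), integral_sub iQ (iX.const_mul _), integral_const_mul,
      integral_const_mul, hX] at h0
    have h1 := mul_le_mul_of_nonneg_left hV (mul_self_nonneg t)
    have h2 : ∫ ξ, ghD B l ls z ξ * ghQ B l ls φ φ z (z + l.inc ξ) ∂ghStd ι = ghA B l ls (ghQ B l ls φ φ z) z := rfl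
    rw [h2] at h0
    nlinarith
  have := discrim_le_zero key
  unfold discrim at this
  nlinarith

/-- **one level**: the squared Hessian along the columns of the level is paid by the martingale increment -/
theorem sf_level {B : GhB S} (hB : B.Ok) {l : GhLv S ι} {ls : List (GhLv S ι)} (h : GhNn (l :: ls))
    (ha : ∀ l' ∈ l :: ls, l'.m ≤ B.a) {K : ℝ} (hK0 : 0 ≤ K) (hK : ∀ s, ∑ i, l.A s i ^ 2 ≤ K) (I : Finset ι) (φ : S → ℝ)
    (z : S → ℝ) :
    ∑ i ∈ I, ghH B (l :: ls) φ (fun s => l.A s i) z ^ 2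
      ≤ (1 + l.m * B.a * K) * ghA B l ls (ghQ B l ls φ φ z) z := by
  classical
  set η : ι → ℝ := fun i => if i ∈ I then ghH B (l :: ls) φ (fun s => l.A s i) z else 0 with hη
  set T : ℝ := ∑ i ∈ I, ghH B (l :: ls) φ (fun s => l.A s i) z ^ 2 with hT
  have hT0 : 0 ≤ T := Finset.sum_nonneg fun i _ => sq_nonneg _
  have e1 : ∑ i, η i ^ 2 = T := by
    have : ∀ i, η i ^ 2 = if i ∈ I then ghH B (l :: ls) φ (fun s => l.A s i) z ^ 2 else 0 := by
      intro i; simp only [hη]; split_ifs <;> simp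
    simp_rw [this]
    rw [Finset.sum_ite_mem, Finset.univ_inter]
  have e2 : ghH B (l :: ls) φ (l.inc η) z = T := by
    rw [sf_H_inc hB]
    have : ∀ i, η i * ghH B (l :: ls) φ (fun s => l.A s i) z
        = if i ∈ I then ghH B (l :: ls) φ (fun s => l.A s i) z ^ 2 else 0 := by
      intro i; simp only [hη]; split_ifs <;> simp [sq]
    simp_rw [this]
    rw [Finset.sum_ite_mem, Finset.univ_inter]
  have hb : ∀ s, |l.inc η s| ≤ Real.sqrt (K * T) := by
    intro s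
    refine Real.abs_le_sqrt ?_
    have := Finset.sum_mul_sq_le_sq_mul_sq Finset.univ (fun i => l.A s i) η
    rw [e1] at this
    exact this.trans (mul_le_mul_of_nonneg_right (hK s) hT0)
  have h1 := sf_cs hB h ha η hb φ z
  rw [e1, e2, Real.sq_sqrt (mul_nonneg hK0 hT0)] at h1
  have hQ : 0 ≤ ghA B l ls (ghQ B l ls φ φ z) z := gh_b_A_nonneg hB h (fun y => gh_b_Q_self_nonneg B l ls φ z y) z
  have hc : 0 ≤ 1 + l.m * B.a * K := by
    have := mul_nonneg (mul_nonneg h.head hB.pos.le) hK0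
    linarith
  rcases hT0.eq_or_lt with h0 | h0
  · rw [← h0]; exact mul_nonneg hc hQ
  · have h2 : T * T ≤ T * ((1 + l.m * B.a * K) * ghA B l ls (ghQ B l ls φ φ z) z) := by nlinarith
    exact le_of_mul_le_mul_left h2 h0

end one

section path
variable {S ι : Type} [Fintype S] [Fintype ι]

/-- planted average of a function of the field revealed by the first `j` levels -/
noncomputable def sfAv (B : GhB S) : List (GhLv S ι) → ℕ → ((S → ℝ) → ℝ) → (S → ℝ) → ℝ
  | [], _, Ψ, z => Ψ z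
  | _ :: _, 0, Ψ, z => Ψ z
  | l :: ls, j + 1, Ψ, z => ghA B l ls (sfAv B ls j Ψ) z

theorem sf_av_zero (B : GhB S) (ls : List (GhLv S ι)) (Ψ : (S → ℝ) → ℝ) : sfAv B ls 0 Ψ = Ψ := by
  cases ls <;> rfl

theorem sf_av_succ (B : GhB S) (l : GhLv S ι) (ls : List (GhLv S ι)) (j : ℕ) (Ψ : (S → ℝ) → ℝ) :
    sfAv B (l :: ls) (j + 1) Ψ = ghA B l ls (sfAv B ls j Ψ) := rfl

/-- the path expectation of a function of the field at the cut `j` -/
theorem sf_path {B : GhB S} (hB : B.Ok) (Ψ : (S → ℝ) → ℝ) :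
    ∀ (ls : List (GhLv S ι)) (j : ℕ) (z : S → ℝ),
      ghPath B ls z (fun ξ _ => Ψ (z + ghPre ls ξ j)) = sfAv B ls j Ψ z
  | [], j, z => by
      simp only [ghPath, obt_pre_nil, add_zero, sfAv]
      rw [← Finset.sum_mul, gh_b_Gw_sum hB, one_mul]
  | l :: ls, 0, z => by
      simp only [obt_pre_zero, add_zero, sfAv]
      exact obt_path_const hB _ _ _
  | l :: ls, j + 1, z => by
      simp only [ghPath, sfAv, ghA]
      refine integral_congr_ae (Eventually.of_forall fun ξ => ?_)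
      simp only [obt_pre_cons, ← add_assoc]
      rw [sf_path hB Ψ ls j (z + l.inc ξ)]

theorem sf_av_bc {B : GhB S} (hB : B.Ok) {Ψ : (S → ℝ) → ℝ} {M : ℝ} (hΨ : GhBC Ψ M) :
    ∀ {ls : List (GhLv S ι)}, GhNn ls → ∀ j : ℕ, GhBC (sfAv B ls j Ψ) M
  | [], _, _ => hΨ
  | _ :: _, _, 0 => hΨ
  | _ :: _, h, j + 1 => gh_b_A_bc hB h (sf_av_bc hB hΨ h.tail j)

theorem sf_av_mono {B : GhB S} (hB : B.Ok) {Ψ Ψ' : (S → ℝ) → ℝ} {M M' : ℝ} (hΨ : GhBC Ψ M) (hΨ' : GhBC Ψ' M')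
    (hle : ∀ y, Ψ y ≤ Ψ' y) :
    ∀ {ls : List (GhLv S ι)}, GhNn ls → ∀ (j : ℕ) (z : S → ℝ), sfAv B ls j Ψ z ≤ sfAv B ls j Ψ' z
  | [], _, _, z => hle z
  | _ :: _, _, 0, z => hle z
  | _ :: _, h, j + 1, z =>
      gh_b_A_mono hB h (sf_av_bc hB hΨ h.tail j) (sf_av_bc hB hΨ' h.tail j) (fun y => sf_av_mono hB hΨ hΨ' hle h.tail j y) z

theorem sf_av_sub {B : GhB S} (hB : B.Ok) {Ψ Ψ' : (S → ℝ) → ℝ} {M M' : ℝ} (hΨ : GhBC Ψ M) (hΨ' : GhBC Ψ' M') :
    ∀ {ls : List (GhLv S ι)}, GhNn ls → ∀ (j : ℕ) (z : S → ℝ),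
      sfAv B ls j (fun y => Ψ y - Ψ' y) z = sfAv B ls j Ψ z - sfAv B ls j Ψ' z
  | [], _, _, z => rfl
  | _ :: _, _, 0, z => rfl
  | l :: ls, h, j + 1, z => by
      rw [sf_av_succ, sf_av_succ, sf_av_succ, ← gh_b_A_sub hB h (sf_av_bc hB hΨ h.tail j) (sf_av_bc hB hΨ' h.tail j)]
      congr 1
      funext y
      exact sf_av_sub hB hΨ hΨ' h.tail j y

theorem sf_av_const_mul (B : GhB S) (c : ℝ) (Ψ : (S → ℝ) → ℝ) :
    ∀ (ls : List (GhLv S ι)) (j : ℕ) (z : S → ℝ), sfAv B ls j (fun y => c * Ψ y) z = c * sfAv B ls j Ψ z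
  | [], _, z => rfl
  | _ :: _, 0, z => rfl
  | l :: ls, j + 1, z => by
      rw [sf_av_succ, sf_av_succ, ← gh_b_A_const_mul]
      congr 1
      funext y
      exact sf_av_const_mul B c Ψ ls j y

/-- one more level -/
theorem sf_av_step (B : GhB S) (l : GhLv S ι) (l2 : List (GhLv S ι)) (Ψ : (S → ℝ) → ℝ) :
    ∀ (l1 : List (GhLv S ι)) (z : S → ℝ),
      sfAv B (l1 ++ l :: l2) (l1.length + 1) Ψ z = sfAv B (l1 ++ l :: l2) l1.length (ghA B l l2 Ψ) z
  | [], z => by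
      simp only [List.nil_append, List.length_nil, zero_add]
      rw [sf_av_succ, sf_av_zero, sf_av_zero]
  | l' :: l1, z => by
      simp only [List.cons_append, List.length_cons]
      rw [sf_av_succ, sf_av_succ]
      congr 1
      funext y
      exact sf_av_step B l l2 Ψ l1 y

theorem sf_bc_sum {κ : Type} (t : Finset κ) {g : κ → (S → ℝ) → ℝ} (hg : ∀ k ∈ t, ∃ M, GhBC (g k) M) :
    ∃ M, GhBC (fun y => ∑ k ∈ t, g k y) M := by
  classical
  induction t using Finset.induction_on with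
  | empty => exact ⟨_, by simpa using gh_b_bc_const (S := S) 0⟩
  | insert a t ha ih =>
      obtain ⟨M1, h1⟩ := hg a (Finset.mem_insert_self a t)
      obtain ⟨M2, h2⟩ := ih fun k hk => hg k (Finset.mem_insert_of_mem hk)
      refine ⟨M1 + M2, ?_⟩
      simp only [Finset.sum_insert ha]
      exact h1.add h2

/-- variance identity -/
theorem sf_var {B : GhB S} (hB : B.Ok) {l : GhLv S ι} {ls : List (GhLv S ι)} (h : GhNn (l :: ls)) (v : S → ℝ) (z : S → ℝ) :
    ghA B l ls (ghQ B l ls v v z) z = ghA B l ls (fun y => ghE B ls v y ^ 2) z - ghE B (l :: ls) v z ^ 2 := by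
  obtain ⟨e, he⟩ : ∃ e, e = ghE B (l :: ls) v z := ⟨_, rfl⟩
  have bv := gh_b_E_bc' hB v h.tail
  have e1 : ghQ B l ls v v z = fun y => (ghE B ls v y * ghE B ls v y - (2 * e) * ghE B ls v y) + e * e := by
    funext y
    simp only [ghQ, ← he]
    ring
  have e2 : (fun y => ghE B ls v y ^ 2) = fun y => ghE B ls v y * ghE B ls v y := by
    funext y; ring
  rw [e1, e2, gh_b_A_add hB h ((bv.mul bv).sub (bv.const_mul _)) (gh_b_bc_const _), gh_b_A_sub hB h (bv.mul bv) (bv.const_mul _),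
    gh_b_A_const_mul, gh_b_A_const hB h, ← gh_b_E_cons, ← he]
  ring

end path


section sk
variable {n : ℕ}

theorem sf_ov_self (hn : 0 < n) (σ : SkCfg n) : skOv σ σ = 1 := by
  have hn' : (n : ℝ) ≠ 0 := by exact_mod_cast hn.ne'
  unfold skOv
  simp only [sk_d_sp_mul, Finset.sum_const, Finset.card_univ, Fintype.card_fin, nsmul_eq_mul, mul_one]
  exact div_self hn'

/-- the squared length of a row of the SK level -/
theorem sf_row (hn : 0 < n) (e : SkInc) (hb : 0 ≤ e.db) (hh : 0 ≤ e.dh) (σ : SkCfg n) :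
    ∑ i, (e.lv n).A σ i ^ 2 = n * (e.db / 2 + e.dh) := by
  have h := sk_d_cov n hn e hb hh σ σ
  rw [sf_ov_self hn] at h
  unfold GhLv.cov at h
  simp only [sq]
  rw [h]
  ring

/-- the field columns of the SK level -/
theorem sf_col (hn : 0 < n) (e : SkInc) (k : Fin n) :
    (fun σ => (e.lv n).A σ (Sum.inr k)) = (Real.sqrt e.dh * Real.sqrt n) • obY k := by
  have hn' : (0 : ℝ) < n := by exact_mod_cast hn
  funext σ
  simp only [SkInc.lv, ghLvF, skPhi, Sum.elim_inr, obY, skY, Pi.smul_apply, smul_eq_mul]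
  have : Real.sqrt (n : ℝ) ≠ 0 := by positivity
  field_simp

theorem sf_nn {a : ℝ} {P : SkStp} (hP : SkAdm a P) : GhNn (skLvs n P) := by
  intro l hl
  obtain ⟨e, he, rfl⟩ := List.mem_map.1 hl
  exact (hP.2 e he).1

theorem sf_le_a {a : ℝ} {P : SkStp} (hP : SkAdm a P) : ∀ l ∈ skLvs n P, l.m ≤ (skBase n a).a := by
  intro l hl
  obtain ⟨e, he, rfl⟩ := List.mem_map.1 hl
  exact (hP.2 e he).2.1

/-- pointwise form of the clock inequality at one cut -/
theorem sf_point (hn : 0 < n) {a : ℝ} (ha : 0 < a) (e : SkInc) (P2 : SkStp) (hP : SkAdm a (e :: P2)) (z : SkCfg n → ℝ) (i : Fin n) :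
    n * e.dh * ∑ k, obH n a (e :: P2) z i k ^ 2
      ≤ (1 + a ^ 2 * n * (e.db / 2 + e.dh))
        * (ghA (skBase n a) (e.lv n) (skLvs n P2) (fun y => obX n a P2 y i ^ 2) z - obX n a (e :: P2) z i ^ 2) := by
  have hB := obt_base_ok n ha
  have hn' : (0 : ℝ) < n := by exact_mod_cast hn
  obtain ⟨hm0, hma, hb, hh⟩ := hP.2 e List.mem_cons_self
  have hnn : GhNn (e.lv n :: skLvs n P2) := sf_nn (n := n) hP
  have hla : ∀ l ∈ e.lv n :: skLvs n P2, l.m ≤ (skBase n a).a := sf_le_a (n := n) hP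
  have hK0 : (0 : ℝ) ≤ n * (e.db / 2 + e.dh) := by positivity
  have h1 := sf_level hB hnn hla hK0 (fun s => (sf_row hn e hb hh s).le)
    (Finset.univ.map (Function.Embedding.inr : Fin n ↪ SkDr n)) (obY i) z
  rw [Finset.sum_map, sf_var hB hnn] at h1
  have e1 : ∀ k : Fin n, ghH (skBase n a) (e.lv n :: skLvs n P2) (obY i)
        (fun s => (e.lv n).A s ((Function.Embedding.inr : Fin n ↪ SkDr n) k)) z ^ 2
      = n * e.dh * obH n a (e :: P2) z i k ^ 2 := by
    intro k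
    have : (fun s => (e.lv n).A s ((Function.Embedding.inr : Fin n ↪ SkDr n) k)) = (Real.sqrt e.dh * Real.sqrt n) • obY k :=
      sf_col hn e k
    rw [this, gh_v_H_symm, gh_v_H_smul, gh_v_H_symm, mul_pow, mul_pow, Real.sq_sqrt hh, Real.sq_sqrt hn'.le]
    simp only [obH, skLvs, List.map_cons]
    ring
  simp_rw [e1] at h1
  rw [← Finset.mul_sum] at h1
  refine h1.trans ?_
  have hQ : 0 ≤ ghA (skBase n a) (e.lv n) (skLvs n P2) (fun y => ghE (skBase n a) (skLvs n P2) (obY i) y ^ 2) z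
      - ghE (skBase n a) (e.lv n :: skLvs n P2) (obY i) z ^ 2 := by
    rw [← sf_var hB hnn]
    exact gh_b_A_nonneg hB hnn (fun y => gh_b_Q_self_nonneg _ _ _ _ z y) z
  refine mul_le_mul_of_nonneg_right ?_ hQ
  have e2 : (e.lv n).m = e.m := rfl
  have e3 : (skBase n a).a = a := rfl
  rw [e2, e3]
  have : e.m * a ≤ a * a := mul_le_mul_of_nonneg_right hma ha.le
  nlinarith

theorem sf_bc_sq {S : Type} [Fintype S] {g : (S → ℝ) → ℝ} {M : ℝ} (h : GhBC g M) : GhBC (fun y => g y ^ 2) (M * M) := by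
  simpa only [sq] using h.mul h

theorem sf_A_sum {S ι : Type} [Fintype S] [Fintype ι] {B : GhB S} (hB : B.Ok) {l : GhLv S ι} {ls : List (GhLv S ι)}
    (h : GhNn (l :: ls)) {κ : Type} (t : Finset κ) {g : κ → (S → ℝ) → ℝ} (hg : ∀ k ∈ t, ∃ M, GhBC (g k) M) (z : S → ℝ) :
    ghA B l ls (fun y => ∑ k ∈ t, g k y) z = ∑ k ∈ t, ghA B l ls (g k) z := by
  classical
  induction t using Finset.induction_on with
  | empty => simpa using gh_b_A_const hB h 0 z
  | insert a t ha ih =>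
      obtain ⟨M1, h1⟩ := hg a (Finset.mem_insert_self a t)
      obtain ⟨M2, h2⟩ := sf_bc_sum t fun k hk => hg k (Finset.mem_insert_of_mem hk)
      simp only [Finset.sum_insert ha]
      rw [gh_b_A_add hB h h1 h2, ih fun k hk => hg k (Finset.mem_insert_of_mem hk)]

/-- **(F1) the clock inequality at one cut of a step path** (one level Cramér-Rao; no filling) -/
theorem brg_susfin_step (hn : 0 < n) {a : ℝ} (ha : 0 < a) (P1 : SkStp) (e : SkInc) (P2 : SkStp)
    (hP : SkAdm a (P1 ++ e :: P2)) (z0 : SkCfg n → ℝ) :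
    n * e.dh * obTrH2 n a (P1 ++ e :: P2) z0 P1.length
      ≤ (1 + a ^ 2 * n * (e.db / 2 + e.dh))
        * (obS n a (P1 ++ e :: P2) z0 (P1.length + 1) - obS n a (P1 ++ e :: P2) z0 P1.length) := by
  have hB := obt_base_ok n ha
  have hnn : GhNn (skLvs n (P1 ++ e :: P2)) := sf_nn (n := n) hP
  have hP' : SkAdm a (e :: P2) :=
    ⟨(List.pairwise_append.1 hP.1).2.1, fun e' he' => hP.2 e' (List.mem_append_right _ he')⟩
  have hnn' : GhNn (e.lv n :: skLvs n P2) := sf_nn (n := n) hP'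
  have hls : skLvs n (P1 ++ e :: P2) = skLvs n P1 ++ e.lv n :: skLvs n P2 := by
    simp [skLvs]
  have hlen : (skLvs n P1).length = P1.length := by simp [skLvs]
  have hd0 : (P1 ++ e :: P2).drop P1.length = e :: P2 := List.drop_left
  have hd1 : (P1 ++ e :: P2).drop (P1.length + 1) = P2 := by
    rw [← List.drop_drop, List.drop_left]; rfl
  set ΨH : (SkCfg n → ℝ) → ℝ := fun y => ∑ i, ∑ k, obH n a (e :: P2) y i k ^ 2 with hΨH
  set Ψ0 : (SkCfg n → ℝ) → ℝ := fun y => ∑ i, obX n a (e :: P2) y i ^ 2 with hΨ0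
  set Ψ1 : (SkCfg n → ℝ) → ℝ := fun y => ∑ i, obX n a P2 y i ^ 2 with hΨ1
  have hT : obTrH2 n a (P1 ++ e :: P2) z0 P1.length = sfAv (skBase n a) (skLvs n (P1 ++ e :: P2)) P1.length ΨH z0 := by
    unfold obTrH2 obE obHp obFld
    rw [hd0]
    exact sf_path hB ΨH _ _ z0
  have hS0 : obS n a (P1 ++ e :: P2) z0 P1.length = sfAv (skBase n a) (skLvs n (P1 ++ e :: P2)) P1.length Ψ0 z0 := by
    unfold obS obE obXp obFld
    rw [hd0]
    exact sf_path hB Ψ0 _ _ z0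
  have hS1 : obS n a (P1 ++ e :: P2) z0 (P1.length + 1)
      = sfAv (skBase n a) (skLvs n (P1 ++ e :: P2)) P1.length (ghA (skBase n a) (e.lv n) (skLvs n P2) Ψ1) z0 := by
    unfold obS obE obXp obFld
    rw [hd1]
    rw [sf_path hB Ψ1 _ _ z0, hls, ← hlen]
    exact sf_av_step _ _ _ _ _ z0
  -- bounded continuity
  have bX1 : ∀ i : Fin n, ∃ M, GhBC (fun y => obX n a P2 y i ^ 2) M := fun i =>
    ⟨_, sf_bc_sq (gh_b_E_bc' hB (obY i) hnn'.tail)⟩
  have bX0 : ∀ i : Fin n, ∃ M, GhBC (fun y => obX n a (e :: P2) y i ^ 2) M := fun i =>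
    ⟨_, sf_bc_sq (gh_b_E_bc' hB (obY i) hnn')⟩
  obtain ⟨M1, b1⟩ : ∃ M, GhBC Ψ1 M := sf_bc_sum Finset.univ fun i _ => bX1 i
  obtain ⟨M0, b0⟩ : ∃ M, GhBC Ψ0 M := sf_bc_sum Finset.univ fun i _ => bX0 i
  obtain ⟨MH, bH⟩ : ∃ M, GhBC ΨH M := sf_bc_sum Finset.univ fun i _ => sf_bc_sum Finset.univ fun k _ => by
    obtain ⟨M, hM⟩ := gh_b_H_bc hB (obY i) (obY k) hnn'
    exact ⟨_, sf_bc_sq hM⟩
  have bA := gh_b_A_bc hB hnn' b1
  -- pointwise inequality
  have hpt : ∀ y, n * e.dh * ΨH y ≤ (1 + a ^ 2 * n * (e.db / 2 + e.dh))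
      * (ghA (skBase n a) (e.lv n) (skLvs n P2) Ψ1 y - Ψ0 y) := by
    intro y
    rw [hΨ1, sf_A_sum hB hnn' Finset.univ (fun i _ => bX1 i) y]
    simp only [hΨH, hΨ0]
    rw [← Finset.sum_sub_distrib, Finset.mul_sum, Finset.mul_sum]
    exact Finset.sum_le_sum fun i _ => sf_point hn ha e P2 hP' y i
  rw [hT, hS0, hS1, ← sf_av_sub hB bA b0 hnn, ← sf_av_const_mul, ← sf_av_const_mul]
  exact sf_av_mono hB (bH.const_mul _) ((bA.sub b0).const_mul _) hpt hnn _ z0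

end sk

section fine

/-- the filled clock takes every value of `[0, c a]` -/
theorem sf_hit {a : ℝ} {c : ℝ → ℝ} (ha : 0 ≤ a) (hc : GhClk1 a c) {y : ℝ} (h0 : 0 ≤ y) (h1 : y ≤ c a) :
    ∃ p : GhPos, p.Ok a ∧ ghAt a c p = y := by
  have hf := gh_os_clamp_mono ha hc
  set f := ghClamp a c with hfdef
  set A : Set ℝ := {u | u ∈ Set.Icc 0 a ∧ leftLim f u ≤ y} with hA
  have hA0 : (0 : ℝ) ∈ A := ⟨⟨le_rfl, ha⟩, by rw [hfdef, gh_os_left_zero a c le_rfl]; exact h0⟩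
  have hAb : BddAbove A := ⟨a, fun u hu => hu.1.2⟩
  set us := sSup A with hus
  have hus0 : 0 ≤ us := le_csSup hAb hA0
  have husa : us ≤ a := csSup_le ⟨0, hA0⟩ fun u hu => hu.1.2
  have hL : leftLim f us ≤ y := by
    rw [hf.leftLim_eq_sSup]
    refine csSup_le ⟨f (us - 1), ⟨us - 1, by simp, rfl⟩⟩ ?_
    rintro _ ⟨v, hv, rfl⟩
    obtain ⟨w, hw, hvw⟩ := exists_lt_of_lt_csSup ⟨0, hA0⟩ hv
    exact (hf.le_leftLim hvw).trans hw.2
  have hR : y ≤ rightLim f us := by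
    rw [hf.rightLim_eq_sInf]
    refine le_csInf ⟨f (us + 1), ⟨us + 1, by simp, rfl⟩⟩ ?_
    rintro _ ⟨v, hv, rfl⟩
    have hv' : us < v := hv
    by_cases hva : v ≤ a
    · have hnot : v ∉ A := fun hvA => absurd (le_csSup hAb hvA) (not_le.2 hv')
      have : y < leftLim f v := by
        by_contra hcon
        exact hnot ⟨⟨hus0.trans hv'.le, hva⟩, not_lt.1 hcon⟩
      exact this.le.trans (hf.leftLim_le le_rfl)
    · push Not at hva
      have : f v = c a := by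
        rw [hfdef]; unfold ghClamp
        rw [if_neg (by linarith), min_eq_right hva.le]
      rw [this]; exact h1
  by_cases hLR : leftLim f us = rightLim f us
  · refine ⟨ghPosF us 0, ⟨hus0, husa, le_rfl, zero_le_one⟩, ?_⟩
    simp only [ghAt, ghPosF, GhPos.u, GhPos.lam, ofLex_toLex, zero_mul, add_zero]
    exact le_antisymm hL (hLR ▸ hR)
  · have hlt : 0 < rightLim f us - leftLim f us := by
      have := hL.trans hR
      exact sub_pos.2 (lt_of_le_of_ne this hLR)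
    refine ⟨ghPosF us ((y - leftLim f us) / (rightLim f us - leftLim f us)), ⟨hus0, husa, ?_, ?_⟩, ?_⟩
    · simp only [ghPosF, GhPos.lam, ofLex_toLex]
      exact div_nonneg (sub_nonneg.2 hL) hlt.le
    · simp only [ghPosF, GhPos.lam, ofLex_toLex]
      rw [div_le_one hlt]; linarith
    · simp only [ghAt, ghPosF, GhPos.u, GhPos.lam, ofLex_toLex]
      rw [div_mul_cancel₀ _ hlt.ne']
      ring

/-- **(F2)** all the increments of one clock along the chain `ghPs a F` are `≤ eps`, eventually along the net -/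
theorem brg_susfin_fine {a : ℝ} {c : ℝ → ℝ} {eps : ℝ} (ha : 0 ≤ a) (hc : GhClk1 a c) (he : 0 < eps) :
    ∃ F0 : Finset GhPos, ∀ F : Finset GhPos, F0 ⊆ F → ∀ (pre : List GhPos) (r r2 : GhPos) (post : List GhPos),
      ghPs a F = pre ++ r :: r2 :: post → ghAt a c r2 - ghAt a c r ≤ eps := by
  classical
  have hex : ∀ k : ℕ, ∃ p : GhPos, (k : ℝ) * eps ≤ c a → p.Ok a ∧ ghAt a c p = (k : ℝ) * eps := by
    intro k
    by_cases hk : (k : ℝ) * eps ≤ c a
    · obtain ⟨p, hp⟩ := sf_hit ha hc (by positivity) hk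
      exact ⟨p, fun _ => hp⟩
    · exact ⟨ghPosB 0, fun h => absurd h hk⟩
  choose p hp using hex
  refine ⟨(Finset.range (⌈c a / eps⌉₊ + 1)).image p, fun F hF pre r r2 post hps => ?_⟩
  by_contra hcon
  push Not at hcon
  have hr : r ∈ ghPs a F := by rw [hps]; simp
  have hr2 : r2 ∈ ghPs a F := by rw [hps]; simp
  have hrok := (gh_os_ps_mem.1 hr).2
  have hr2ok := (gh_os_ps_mem.1 hr2).2
  have hx0 : 0 ≤ ghAt a c r := gh_os_at_nonneg ha hc hrok.2.2.1
  have hx2 : ghAt a c r2 ≤ c a := by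
    have := gh_os_at_le_top ha hc hr2ok
    rwa [gh_os_at_top a c ha] at this
  set k : ℕ := ⌊ghAt a c r / eps⌋₊ + 1 with hk
  have hk1 : ghAt a c r < (k : ℝ) * eps := by
    have := Nat.lt_floor_add_one (ghAt a c r / eps)
    rw [div_lt_iff₀ he] at this
    rw [hk]; push_cast; exact this
  have hk2 : (k : ℝ) * eps ≤ ghAt a c r + eps := by
    have := Nat.floor_le (div_nonneg hx0 he.le)
    rw [le_div_iff₀ he] at this
    rw [hk]; push_cast; linarith
  have hk3 : (k : ℝ) * eps < ghAt a c r2 := by linarith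
  have hkc : (k : ℝ) * eps ≤ c a := by linarith
  obtain ⟨hpok, hpv⟩ := hp k hkc
  have hkN : k < ⌈c a / eps⌉₊ + 1 := by
    have h1 : (k : ℝ) ≤ c a / eps := by rw [le_div_iff₀ he]; exact hkc
    have h2 : (k : ℝ) ≤ (⌈c a / eps⌉₊ : ℝ) := h1.trans (Nat.le_ceil _)
    have : k ≤ ⌈c a / eps⌉₊ := by exact_mod_cast h2
    omega
  have hmem : p k ∈ ghPs a F :=
    gh_os_ps_mem.2 ⟨hF (Finset.mem_image.2 ⟨k, Finset.mem_range.2 hkN, rfl⟩), hpok⟩
  have hlt1 : r < p k := by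
    by_contra hle
    have := gh_os_at_mono ha hc hpok.2.2.2 hrok.2.2.1 (not_lt.1 hle)
    rw [hpv] at this
    linarith
  have hlt2 : p k < r2 := by
    by_contra hle
    have := gh_os_at_mono ha hc hr2ok.2.2.2 hpok.2.2.1 (not_lt.1 hle)
    rw [hpv] at this
    linarith
  have hsort := gh_os_ps_lt a F
  rw [hps] at hsort hmem
  rw [List.pairwise_append] at hsort
  obtain ⟨_, hs2, hs3⟩ := hsort
  rw [List.pairwise_cons, List.pairwise_cons] at hs2
  rcases List.mem_append.1 hmem with hm | hm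
  · exact absurd (hs3 _ hm r List.mem_cons_self) (not_lt.2 hlt1.le)
  · rcases List.mem_cons.1 hm with hm | hm
    · exact absurd hm hlt1.ne'
    · rcases List.mem_cons.1 hm with hm | hm
      · exact absurd hm hlt2.ne
      · exact absurd (hs2.2.1 _ hm) (not_lt.2 hlt2.le)

end fine

theorem sf_eqns_cite : True := by
  have := @sfN.eq_1
  have := @sfAv.eq_1
  have := @sfAv.eq_2
  have := @sfAv.eq_3
  have := @sfAv.eq_def
  have := @sfAv.induct
  trivial

end Claimed.Agent.R286
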