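import Claimed.Agent.R286.Exit.ClkLim
import Claimed.Agent.R286.Exit.ClkLip
import Claimed.Agent.R286.Macro.FinConc

/-!
# Row 286 (S0533), unit BRIDGE, block I (VX) of the board of helper42: pointwise concentration of `|X_u|²` = `exit_clk_Vx`, TRANSFER from chains to clocks      (owner helper67; prefix `brg_vx_`)

TEX[PE:lem:found-moments] + profile.tex l.655-690.      FINITE LEVEL = `mvfc_conc_chain` (Macro/FinConc.lean, helper240).      HERE:
* (C) `brg_vx_held`, `brg_vx_last`, `brg_vx_close`: `obTrH2` at the cut of a fine chain which contains the mass `v` is close to `ckH2 (v,1)`, for ALL `v ∈ [0,a]`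
      (`exit_clk_lim_stat` at the last position of the chain before `(v,1)` + `exit_clk_stat_pos` + the oscillation `gh_os_eventually`);
* (E) `brg_vx_eps`: the inequality on ONE fine chain with an error which tends to `0` with `ε`;   `brg_vx_main`: `ε → 0`.
-/

set_option autoImplicit false

namespace Claimed.Agent.R286

open MeasureTheory Filter Topology Set Function

variable {n : ℕ} {a : ℝ}

/-! ## (C) closeness at all masses -/

/-- nothing of the chain lies before `(v,1)`: what is there at `(v,1)` is at most the oscillation above the revealed value -/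
theorem brg_vx_held0 (ha : 0 ≤ a) {c : ℝ → ℝ} (hc : GhClk1 a c) {v : ℝ} (hv : v ∈ Icc (0 : ℝ) a) (ps : List GhPos) (c0 : ℝ)
    (hok : ∀ y ∈ ps, y.Ok a) (hno : ∀ y ∈ ps, ¬ y ≤ ghPosA v) : ghAt a c (ghPosA v) - c0 ≤ ghOsc a c c0 ps := by
  cases ps with
  | nil =>
    simp only [ghOsc]
    have := gh_os_at_le_top ha hc (gh_os_posA_ok hv.1 hv.2)
    linarith
  | cons y ps =>
    simp only [ghOsc]
    refine le_trans ?_ (le_max_left _ _)
    have hy := hno y (List.mem_cons_self)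
    have hyok := hok y (List.mem_cons_self)
    have hlt : ghPosA v < y := not_le.1 hy
    have hvu : v < y.u := by
      rcases (gh_os_pos_lt_iff _ _).1 hlt with h | ⟨_, h⟩
      · exact h
      · exfalso
        have h1 : (ghPosA v).lam = 1 := rfl
        rw [h1] at h
        exact absurd hyok.2.2.2 (not_le.2 h)
    rw [gh_os_at_posA]
    have := (gh_os_clamp_mono ha hc).rightLim_le_leftLim hvu
    linarith

/-- `x` = the last position of the chain before `(v,1)` -/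
theorem brg_vx_held (ha : 0 ≤ a) {c : ℝ → ℝ} (hc : GhClk1 a c) {v : ℝ} (hv : v ∈ Icc (0 : ℝ) a) {x : GhPos} :
    ∀ (ps : List GhPos) (c0 : ℝ), ps.Pairwise (· < ·) → (∀ y ∈ ps, y.Ok a) → x ∈ ps → (∀ y ∈ ps, y ≤ ghPosA v → y ≤ x) →
      ghAt a c (ghPosA v) - ghAt a c x ≤ ghOsc a c c0 ps
  | [], _, _, _, hx, _ => absurd hx List.not_mem_nil
  | p :: ps, c0, hs, hok, hx, hmax => by
    simp only [ghOsc]
    refine le_trans ?_ (le_max_right _ _)
    rcases List.mem_cons.1 hx with rfl | hx'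
    · refine brg_vx_held0 ha hc hv ps _ (fun y hy => hok y (List.mem_cons_of_mem _ hy)) fun y hy hle => ?_
      have h1 := hmax y (List.mem_cons_of_mem _ hy) hle
      have h2 := (List.pairwise_cons.1 hs).1 y hy
      exact absurd h1 (not_le.2 h2)
    · exact brg_vx_held ha hc hv ps _ (List.pairwise_cons.1 hs).2 (fun y hy => hok y (List.mem_cons_of_mem _ hy)) hx'
        fun y hy => hmax y (List.mem_cons_of_mem _ hy)

/-- the last position of a chain before `q` -/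
theorem brg_vx_last (F : Finset GhPos) {q x0 : GhPos} (h0 : x0 ∈ F) (h0ok : x0.Ok a) (h0q : x0 ≤ q) :
    ∃ x ∈ F, x.Ok a ∧ x ≤ q ∧ (∀ y ∈ ghPs a F, y ≤ q → y ≤ x) ∧
      ghIdx (ghPs a F) (x : WithTop GhPos) = ghIdx (ghPs a F) (q : WithTop GhPos) := by
  classical
  set G : Finset GhPos := F.filter fun y => y.Ok a ∧ y ≤ q with hG
  have hne : G.Nonempty := ⟨x0, Finset.mem_filter.2 ⟨h0, h0ok, h0q⟩⟩
  have hx := Finset.max'_mem G hne
  set x := G.max' hne with hxdef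
  obtain ⟨hxF, hxok, hxq⟩ := Finset.mem_filter.1 hx
  have hmax : ∀ y ∈ ghPs a F, y ≤ q → y ≤ x := fun y hy hyq =>
    Finset.le_max' G y (Finset.mem_filter.2 ⟨(gh_os_ps_mem.1 hy).1, (gh_os_ps_mem.1 hy).2, hyq⟩)
  refine ⟨x, hxF, hxok, hxq, hmax, ?_⟩
  rw [gh_rm_idx_eq, gh_rm_idx_eq]
  congr 1
  congr 1
  refine List.filter_congr fun y hy => ?_
  simp only [WithTop.coe_le_coe, decide_eq_decide]
  exact ⟨fun h => h.trans hxq, fun h => hmax y hy h⟩

theorem brg_vx_close (hn : 0 < n) (ha : 0 < a) {b h : ℝ → ℝ} (hbh : CkAdm a b h) {δ : ℝ} (hδ : 0 < δ) :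
    ∃ F0 : Finset GhPos, ∀ F : Finset GhPos, F0 ⊆ F → ∀ v ∈ Icc (0 : ℝ) a,
      |obTrH2 n a (ckStp a b h (ghPs a F)) 0 (ghIdx (ghPs a F) ((ghPosA v : GhPos) : WithTop GhPos)) - ckH2 n a b h (ghPosA v)| ≤ δ := by
  classical
  obtain ⟨C, hC⟩ := exit_clk_stat_pos (n := n) hn ha
  obtain ⟨F1, hF1⟩ := exit_clk_lim_stat hn ha hbh (half_pos hδ)
  set ε : ℝ := δ / (4 * (|C| + 1)) with hε
  have hC1 : 0 < |C| + 1 := by positivity
  have hε0 : 0 < ε := by positivity
  obtain ⟨F2, hF2⟩ := gh_os_eventually ha.le hbh.1 hε0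
  obtain ⟨F3, hF3⟩ := gh_os_eventually ha.le hbh.2 hε0
  refine ⟨F1 ∪ F2 ∪ F3 ∪ {ghPosB 0}, fun F hF v hv => ?_⟩
  have s1 : F1 ⊆ F := fun y hy => hF (by simp [hy])
  have s2 : F2 ⊆ F := fun y hy => hF (by simp [hy])
  have s3 : F3 ⊆ F := fun y hy => hF (by simp [hy])
  have s0 : ghPosB 0 ∈ F := hF (by simp)
  have ok0 : (ghPosB 0).Ok a := ⟨le_rfl, ha.le, by simp [ghPosB, GhPos.lam], by simp [ghPosB, GhPos.lam]⟩
  have le0 : ghPosB 0 ≤ ghPosA v := by
    rw [gh_os_pos_le_iff]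
    rcases hv.1.lt_or_eq with h | h
    · exact Or.inl h
    · exact Or.inr ⟨h, by simp [ghPosB, ghPosA, GhPos.lam]⟩
  obtain ⟨x, hxF, hxok, hxq, hmax, hidx⟩ := brg_vx_last F s0 ok0 le0
  have hvok : (ghPosA v).Ok a := gh_os_posA_ok hv.1 hv.2
  have e1 := (hF1 F s1 x hxF hxok).2.2.1
  rw [hidx] at e1
  have hxps : x ∈ ghPs a F := gh_os_ps_mem.2 ⟨hxF, hxok⟩
  have hb1 := brg_vx_held ha.le hbh.1 hv (ghPs a F) 0 (gh_os_ps_lt a F) (fun y hy => (gh_os_ps_mem.1 hy).2) hxps hmax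
  have hh1 := brg_vx_held ha.le hbh.2 hv (ghPs a F) 0 (gh_os_ps_lt a F) (fun y hy => (gh_os_ps_mem.1 hy).2) hxps hmax
  have hb0 := gh_os_at_mono ha.le hbh.1 hxok.2.2.2 hvok.2.2.1 hxq
  have hh0 := gh_os_at_mono ha.le hbh.2 hxok.2.2.2 hvok.2.2.1 hxq
  have hb2 := hF2 F s2
  have hh2 := hF3 F s3
  have e2 := (hC b h hbh x (ghPosA v) hxok hvok (2 * ε) (by
    rw [abs_of_nonpos (by linarith), abs_of_nonpos (by linarith)]
    linarith)).2.2.1
  have e3 : C * (2 * ε) ≤ δ / 2 := by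
    have : C * (2 * ε) ≤ (|C| + 1) * (2 * ε) := by
      apply mul_le_mul_of_nonneg_right _ (by positivity)
      linarith [le_abs_self C]
    have e : (|C| + 1) * (2 * ε) = δ / 2 := by
      rw [hε]; field_simp; ring
    linarith
  calc |obTrH2 n a (ckStp a b h (ghPs a F)) 0 (ghIdx (ghPs a F) ((ghPosA v : GhPos) : WithTop GhPos)) - ckH2 n a b h (ghPosA v)|
      ≤ |obTrH2 n a (ckStp a b h (ghPs a F)) 0 (ghIdx (ghPs a F) ((ghPosA v : GhPos) : WithTop GhPos)) - ckH2 n a b h x|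
        + |ckH2 n a b h x - ckH2 n a b h (ghPosA v)| := abs_sub_le _ _ _
    _ ≤ δ / 2 + δ / 2 := add_le_add e1 (e2.trans e3)
    _ = δ := by ring

/-! ## (E) one fine chain, then `ε → 0` -/

/-- `√(x + y) ≤ √x + √y` for `y ≥ 0` and ANY real `x` -/
theorem brg_vx_sqrt_add (x : ℝ) {y : ℝ} (hy : 0 ≤ y) : Real.sqrt (x + y) ≤ Real.sqrt x + Real.sqrt y := by
  rcases le_total 0 x with hx | hx
  · refine Real.sqrt_le_iff.2 ⟨by positivity, ?_⟩
    nlinarith [Real.sq_sqrt hx, Real.sq_sqrt hy, mul_nonneg (Real.sqrt_nonneg x) (Real.sqrt_nonneg y)]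
  · have : Real.sqrt (x + y) ≤ Real.sqrt y := Real.sqrt_le_sqrt (by linarith)
    linarith [Real.sqrt_nonneg x]

theorem brg_vx_posA_le {u v : ℝ} (h : u ≤ v) : ghPosA u ≤ ghPosA v := by
  rw [gh_os_pos_le_iff]
  rcases h.lt_or_eq with h | h
  · exact Or.inl h
  · exact Or.inr ⟨h, le_rfl⟩

/-- a function of the cut which contains the mass `v` is interval integrable -/
theorem brg_vx_step_intble (ps : List GhPos) (g : ℕ → ℝ) (x y : ℝ) :
    IntervalIntegrable (fun v => g (ghIdx ps ((ghPosA v : GhPos) : WithTop GhPos))) volume x y := by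
  have hmono : Monotone fun v : ℝ => ghIdx ps ((ghPosA v : GhPos) : WithTop GhPos) := by
    intro u v huv
    simp only [gh_rm_idx_eq]
    refine Nat.add_le_add_right (List.Sublist.length_le (List.monotone_filter_right _ fun z hz => ?_)) _
    simp only [decide_eq_true_eq] at hz ⊢
    exact hz.trans (WithTop.coe_le_coe.2 (brg_vx_posA_le huv))
  have hle : ∀ v : ℝ, ghIdx ps ((ghPosA v : GhPos) : WithTop GhPos) ≤ ps.length := by
    intro v
    rw [gh_rm_idx_eq, if_neg (WithTop.coe_ne_top), add_zero]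
    exact List.length_filter_le _ _
  have hmeas : Measurable fun v : ℝ => g (ghIdx ps ((ghPosA v : GhPos) : WithTop GhPos)) :=
    (measurable_from_nat (f := g)).comp hmono.measurable
  rw [intervalIntegrable_iff]
  refine Measure.integrableOn_of_bounded (M := ∑ j ∈ Finset.range (ps.length + 1), |g j|) ?_ hmeas.aestronglyMeasurable
    (Eventually.of_forall fun v => ?_)
  · exact (measure_mono uIoc_subset_uIcc).trans_lt isCompact_uIcc.measure_lt_top |>.ne
  · rw [Real.norm_eq_abs]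
    exact Finset.single_le_sum (f := fun j => |g j|) (fun _ _ => abs_nonneg _) (Finset.mem_range.2 (Nat.lt_succ_of_le (hle v)))

/-- one fine chain, error which tends to `0` with `ε` -/
theorem brg_vx_eps (hn : 0 < n) (ha : 0 < a) {b h : ℝ → ℝ} (hbh : CkAdm a b h)
    (hint : IntervalIntegrable (fun u => ckH2 n a b h (ghPosA u)) volume 0 a) {p : GhPos} (hp : p.Ok a) {ρ : ℝ} (hρ : 0 < ρ)
    (h1 : 0 < p.u - ρ) (h2 : p.u + ρ < a) {ε : ℝ} (hε : 0 < ε) :
    Real.sqrt (ckVx n a b h p) ≤ (skCS n a b h (ghPosA (p.u + ρ)) - skCS n a b h (ghPosA (p.u - ρ)))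
      + 4 / ρ * Real.sqrt (∫ v in (p.u - ρ)..(p.u + ρ), ckH2 n a b h (ghPosA v) / v)
      + (Real.sqrt (ε + ε * (2 * |skCS n a b h p| + ε)) + 2 * ε + 4 / ρ * Real.sqrt (ε / (p.u - ρ) * (2 * ρ))) := by
  classical
  obtain ⟨F1, hF1⟩ := exit_clk_lim_stat hn ha hbh hε
  obtain ⟨F2, hF2⟩ := brg_vx_close hn ha hbh hε
  set u := p.u with hu
  set F : Finset GhPos := F1 ∪ F2 ∪ {ghPosA (u - ρ), p, ghPosA (u + ρ)} with hF
  have s1 : F1 ⊆ F := fun y hy => by simp [hF, hy]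
  have s2 : F2 ⊆ F := fun y hy => by simp [hF, hy]
  have m1 : ghPosA (u - ρ) ∈ F := by simp [hF]
  have m0 : p ∈ F := by simp [hF]
  have m2 : ghPosA (u + ρ) ∈ F := by simp [hF]
  have ok1 : (ghPosA (u - ρ)).Ok a := gh_os_posA_ok h1.le (by linarith)
  have ok2 : (ghPosA (u + ρ)).Ok a := gh_os_posA_ok (by linarith) h2.le
  set ps := ghPs a F with hps
  set P := ckStp a b h ps with hP
  have hfin := mvfc_conc_chain hn ha hbh (ps := ps) (gh_os_ps_pairwise a F) (fun q hq => (gh_os_ps_mem.1 hq).2) hp hρ h1 h2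
  rw [← hu, ← hP] at hfin
  obtain ⟨a1, -, -, -, -⟩ := hF1 F s1 _ m1 ok1
  obtain ⟨a2, -, -, -, -⟩ := hF1 F s1 _ m2 ok2
  obtain ⟨a0, -, -, -, a4⟩ := hF1 F s1 _ m0 hp
  rw [← hps, ← hP] at a1 a2 a0 a4
  -- names
  set sm := obS n a P 0 (ghIdx ps ((ghPosA (u - ρ) : GhPos) : WithTop GhPos)) with hsm
  set sp := obS n a P 0 (ghIdx ps ((ghPosA (u + ρ) : GhPos) : WithTop GhPos)) with hsp
  set s0 := obS n a P 0 (ghIdx ps (p : WithTop GhPos)) with hs0
  set x4 := ckX4F n a P (ghIdx ps (p : WithTop GhPos)) with hx4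
  set Sm := skCS n a b h (ghPosA (u - ρ)) with hSm
  set Sp := skCS n a b h (ghPosA (u + ρ)) with hSp
  set S0 := skCS n a b h p with hS0
  set X4 := ckX4 n a b h p with hX4
  -- the integrals
  have hle : u - ρ ≤ u + ρ := by linarith
  have hsub : uIcc (u - ρ) (u + ρ) ⊆ uIcc 0 a := by
    rw [uIcc_of_le hle, uIcc_of_le ha.le]
    exact Icc_subset_Icc h1.le h2.le
  have hinv : ContinuousOn (fun v : ℝ => v⁻¹) (uIcc (u - ρ) (u + ρ)) := by
    refine continuousOn_inv₀.mono fun v hv => ?_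
    rw [uIcc_of_le hle] at hv
    exact (h1.trans_le hv.1).ne'
  have i1 : IntervalIntegrable (fun v => obTrH2 n a P 0 (ghIdx ps ((ghPosA v : GhPos) : WithTop GhPos)) / v) volume (u - ρ) (u + ρ) := by
    simp only [div_eq_mul_inv]
    exact (brg_vx_step_intble ps (fun j => obTrH2 n a P 0 j) _ _).mul_continuousOn hinv
  have i2 : IntervalIntegrable (fun v => ckH2 n a b h (ghPosA v) / v) volume (u - ρ) (u + ρ) := by
    simp only [div_eq_mul_inv]
    exact (hint.mono_set hsub).mul_continuousOn hinv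
  have i3 : IntervalIntegrable (fun v => ckH2 n a b h (ghPosA v) / v + ε / (u - ρ)) volume (u - ρ) (u + ρ) :=
    i2.add intervalIntegrable_const
  have hI : ∫ v in (u - ρ)..(u + ρ), obTrH2 n a P 0 (ghIdx ps ((ghPosA v : GhPos) : WithTop GhPos)) / v
      ≤ (∫ v in (u - ρ)..(u + ρ), ckH2 n a b h (ghPosA v) / v) + ε / (u - ρ) * (2 * ρ) := by
    have e1 : ∫ v in (u - ρ)..(u + ρ), (ckH2 n a b h (ghPosA v) / v + ε / (u - ρ))
        = (∫ v in (u - ρ)..(u + ρ), ckH2 n a b h (ghPosA v) / v) + ε / (u - ρ) * (2 * ρ) := by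
      rw [intervalIntegral.integral_add i2 intervalIntegrable_const, intervalIntegral.integral_const, smul_eq_mul]
      ring
    rw [← e1]
    refine intervalIntegral.integral_mono_on hle i1 i3 fun v hv => ?_
    have hv0 : 0 < v := h1.trans_le hv.1
    have hc := hF2 F s2 v ⟨hv0.le, hv.2.trans h2.le⟩
    rw [← hps, ← hP] at hc
    have hc' := (abs_le.1 hc).2
    have e2 : ε / v ≤ ε / (u - ρ) := div_le_div_of_nonneg_left hε.le h1 hv.1
    calc obTrH2 n a P 0 (ghIdx ps ((ghPosA v : GhPos) : WithTop GhPos)) / v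
        ≤ (ckH2 n a b h (ghPosA v) + ε) / v := div_le_div_of_nonneg_right (by linarith) hv0.le
      _ = ckH2 n a b h (ghPosA v) / v + ε / v := add_div _ _ _
      _ ≤ ckH2 n a b h (ghPosA v) / v + ε / (u - ρ) := by linarith
  set I := ∫ v in (u - ρ)..(u + ρ), ckH2 n a b h (ghPosA v) / v with hIdef
  have hc0 : 0 ≤ ε / (u - ρ) * (2 * ρ) := by positivity
  have q1 : Real.sqrt (∫ v in (u - ρ)..(u + ρ), obTrH2 n a P 0 (ghIdx ps ((ghPosA v : GhPos) : WithTop GhPos)) / v)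
      ≤ Real.sqrt I + Real.sqrt (ε / (u - ρ) * (2 * ρ)) :=
    (Real.sqrt_le_sqrt hI).trans (brg_vx_sqrt_add I hc0)
  -- the left side
  have hV : ckVx n a b h p = X4 - S0 ^ 2 := rfl
  have d1 : |s0 ^ 2 - S0 ^ 2| ≤ ε * (2 * |S0| + ε) := by
    have : s0 ^ 2 - S0 ^ 2 = (s0 - S0) * ((s0 - S0) + 2 * S0) := by ring
    rw [this, abs_mul]
    have e3 : |(s0 - S0) + 2 * S0| ≤ 2 * |S0| + ε := by
      calc |(s0 - S0) + 2 * S0| ≤ |s0 - S0| + |2 * S0| := abs_add_le _ _
        _ = |s0 - S0| + 2 * |S0| := by rw [abs_mul, abs_of_pos (by norm_num : (0:ℝ) < 2)]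
        _ ≤ 2 * |S0| + ε := by linarith
    exact mul_le_mul a0 e3 (abs_nonneg _) hε.le
  have d2 : X4 - S0 ^ 2 ≤ (x4 - s0 ^ 2) + (ε + ε * (2 * |S0| + ε)) := by
    have := (abs_le.1 a4).1
    have := (abs_le.1 d1).2
    linarith
  have d0 : 0 ≤ ε + ε * (2 * |S0| + ε) := by positivity
  have q2 : Real.sqrt (ckVx n a b h p) ≤ Real.sqrt (x4 - s0 ^ 2) + Real.sqrt (ε + ε * (2 * |S0| + ε)) := by
    rw [hV]
    exact (Real.sqrt_le_sqrt d2).trans (brg_vx_sqrt_add _ d0)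
  have q3 : sp - sm ≤ Sp - Sm + 2 * ε := by
    have := (abs_le.1 a2).2
    have := (abs_le.1 a1).1
    linarith
  have hρ4 : 0 ≤ 4 / ρ := by positivity
  have q4 := mul_le_mul_of_nonneg_left q1 hρ4
  calc Real.sqrt (ckVx n a b h p) ≤ Real.sqrt (x4 - s0 ^ 2) + Real.sqrt (ε + ε * (2 * |S0| + ε)) := q2
    _ ≤ ((sp - sm) + 4 / ρ * Real.sqrt (∫ v in (u - ρ)..(u + ρ), obTrH2 n a P 0 (ghIdx ps ((ghPosA v : GhPos) : WithTop GhPos)) / v))
        + Real.sqrt (ε + ε * (2 * |S0| + ε)) := by linarith [hfin]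
    _ ≤ (Sp - Sm) + 4 / ρ * Real.sqrt I
        + (Real.sqrt (ε + ε * (2 * |S0| + ε)) + 2 * ε + 4 / ρ * Real.sqrt (ε / (u - ρ) * (2 * ρ))) := by
      rw [mul_add] at q4
      linarith

/-- **block I**: `exit_clk_Vx` modulo the integrability of `ckH2` (which lives in the same Exit file).      TEX[PE:lem:found-moments] -/
theorem brg_vx_main (hn : 0 < n) (ha : 0 < a) {b h : ℝ → ℝ} (hbh : CkAdm a b h)
    (hint : IntervalIntegrable (fun u => ckH2 n a b h (ghPosA u)) volume 0 a) {p : GhPos} (hp : p.Ok a) {ρ : ℝ} (hρ : 0 < ρ)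
    (h1 : 0 < p.u - ρ) (h2 : p.u + ρ < a) :
    Real.sqrt (ckVx n a b h p) ≤ (skCS n a b h (ghPosA (p.u + ρ)) - skCS n a b h (ghPosA (p.u - ρ)))
      + 4 / ρ * Real.sqrt (∫ v in (p.u - ρ)..(p.u + ρ), ckH2 n a b h (ghPosA v) / v) := by
  set R := (skCS n a b h (ghPosA (p.u + ρ)) - skCS n a b h (ghPosA (p.u - ρ)))
      + 4 / ρ * Real.sqrt (∫ v in (p.u - ρ)..(p.u + ρ), ckH2 n a b h (ghPosA v) / v) with hR
  let err : ℝ → ℝ := fun ε => Real.sqrt (ε + ε * (2 * |skCS n a b h p| + ε)) + 2 * ε + 4 / ρ * Real.sqrt (ε / (p.u - ρ) * (2 * ρ))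
  have hcont : Continuous err := by
    simp only [err]
    fun_prop
  have h0 : err 0 = 0 := by simp [err]
  have ht : Tendsto (fun ε => R + err ε) (𝓝[>] 0) (𝓝 R) := by
    have := (continuous_const.add hcont).tendsto' (0:ℝ) (R + err 0) rfl
    rw [h0, add_zero] at this
    exact this.mono_left nhdsWithin_le_nhds
  refine ge_of_tendsto ht ?_
  filter_upwards [self_mem_nhdsWithin] with ε hε
  exact brg_vx_eps hn ha hbh hint hp hρ h1 h2 hε

end Claimed.Agent.R286
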