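import Claimed.Agent.R286.Exit.ClkLim
import Claimed.Agent.R286.Exit.ClkStat
import Claimed.Agent.R286.Exit.ClkLip
import Claimed.Agent.R286.Fd.ObsC
import Claimed.Agent.R286.Brg.Rem
import Claimed.Agent.R286.Brg.SusFin

/-!
# Row 286 (S0533), unit BRIDGE, block G (SUS): the clock inequality for bounded monotone clocks      (owner helper28; prefix `brg_sus_`)
TEX[PE:prop:found-limits]   closes `Exit/ClkSus.lean` (`exit_clk_sus_inf`, `exit_clk_sus_int`).

ROUTE (shortcut of helper26, no filling of the levels, no K7):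
* (F1) `brg_sus_fin`   ONE level of a step path, at the cuts:  `n dh E tr H²(cut j) ≤ (1 + a² n (db/2 + dh)) (S(cut j+1) - S(cut j))`      [PROVED by helper26, `Brg/SusFin.lean`; a second proof: `spu_tr` of helper257, `L08/SpiSus.lean`]
* (F2) `brg_sus_fine`  beyond a finite set of positions ALL the increments of a clock along the chain are `≤ ε` (the jumps are cut by positions `(u,lam)`)      [proved]
* `brg_sus_tele`       telescoping along a sorted chain
* `brg_sus_inf`        sum over the cuts between `p` and `p'` + `exit_clk_lim_stat`, then `δ → 0`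
* `brg_sus_int`        `w ↦ S(w+)` is monotone, hence a.e. differentiable with `∫ S' ≤ ΔS`; at a.e. `w` (Lebesgue point of `g`, continuity point of `b`, `h`):
                       `S'(w) ≥ n g(w) E tr H²(w+)` by `brg_sus_inf` on `[w, y]`, `y ↓ w`, and the modulus `exit_clk_stat_pos`.
-/

set_option autoImplicit false

namespace Claimed.Agent.R286

open MeasureTheory Filter Topology Set Function

variable {n : ℕ} {a : ℝ}

/-! ## 0. finite level -/

/-- positivity of the planted law of one path -/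
theorem brg_sus_path_nonneg {S ι : Type} [Fintype S] [Fintype ι] {B : GhB S} (hB : B.Ok) :
    ∀ (ls : List (GhLv S ι)) (z : S → ℝ) (T : (ℕ → ι → ℝ) → S → ℝ), (∀ ξ s, 0 ≤ T ξ s) → 0 ≤ ghPath B ls z T
  | [], z, T, hT => Finset.sum_nonneg fun s _ => mul_nonneg (gh_b_Gw_nonneg hB z s) (hT _ s)
  | l :: ls, z, T, hT => by
      rw [ghPath]
      exact integral_nonneg fun ξ => mul_nonneg (Real.exp_pos _).le (brg_sus_path_nonneg hB ls _ _ fun η s => hT _ s)

theorem brg_sus_H2_nonneg (ha : 0 < a) (P : SkStp) (z₀ : SkCfg n → ℝ) (j : ℕ) : 0 ≤ obTrH2 n a P z₀ j :=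
  brg_sus_path_nonneg (obu_base_ok n ha) _ _ _ fun _ _ => Finset.sum_nonneg fun _ _ => Finset.sum_nonneg fun _ _ => sq_nonneg _

/-- (F1) [helper26] ONE level, at the cuts.   PROOF: `D` = planted density of the level `l = e.lv n`, `N_c = c·ξ - m ghE (l :: ls) (l.inc c)`; Gaussian integration by parts:
`E_D N_c = 0`, `E_D [N_c ghE ls φ] = ghH (l :: ls) φ (l.inc c)`, `Var_D N_c = |c|² + m ghH (l :: ls) (l.inc c) (l.inc c) ≤ (1 + a m sup_s |A_s|²) |c|²`;
Cauchy-Schwarz with `c_i = ghH φ A_i`; sum over `φ = y_k`; average over the path up to the cut. -/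
theorem brg_sus_fin (hn : 0 < n) (ha : 0 < a) (P₁ : SkStp) (e : SkInc) (P₂ : SkStp) (hP : SkAdm a (P₁ ++ e :: P₂)) (z₀ : SkCfg n → ℝ) :
    n * e.dh * obTrH2 n a (P₁ ++ e :: P₂) z₀ P₁.length
      ≤ (1 + a ^ 2 * n * (e.db / 2 + e.dh)) * (obS n a (P₁ ++ e :: P₂) z₀ (P₁.length + 1) - obS n a (P₁ ++ e :: P₂) z₀ P₁.length) :=
  brg_susfin_step hn ha P₁ e P₂ hP z₀

/-- nothing of a sorted chain lies strictly between two consecutive positions -/
theorem brg_sus_fine_consec {pre post : List GhPos} {r r' q : GhPos} (hs : (pre ++ r :: r' :: post).Pairwise (· < ·))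
    (hq : q ∈ pre ++ r :: r' :: post) : q ≤ r ∨ r' ≤ q := by
  rw [List.pairwise_append, List.pairwise_cons, List.pairwise_cons] at hs
  obtain ⟨-, ⟨-, h2, -⟩, h3⟩ := hs
  rcases List.mem_append.1 hq with h | h
  · exact Or.inl (h3 q h r List.mem_cons_self).le
  · rcases List.mem_cons.1 h with rfl | h
    · exact Or.inl le_rfl
    · rcases List.mem_cons.1 h with rfl | h
      · exact Or.inr le_rfl
      · exact Or.inr (h2 q h).le

/-- off the marks the jumps are small -/
theorem brg_sus_fine_jump {f : ℝ → ℝ} (hf : Monotone f) {ε : ℝ} (M : Finset ℝ)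
    (hM : ∀ u, 0 < u → u ≤ a → ∃ w ∈ M, w < u ∧ leftLim f u - rightLim f w ≤ ε) {u : ℝ} (h0 : 0 < u) (h1 : u < a) (hu : u ∉ M) :
    rightLim f u - leftLim f u ≤ ε := by
  have ev : ∀ᶠ x in 𝓝[>] u, ∀ m ∈ M, ¬ (u ≤ m ∧ m < x) := by
    rw [Finset.eventually_all]
    intro m hm
    rcases lt_trichotomy m u with h | h | h
    · exact Eventually.of_forall fun x hx => absurd hx.1 (not_le.2 h)
    · exact absurd (h ▸ hm) hu
    · filter_upwards [Ioo_mem_nhdsGT h] with x hx hx'
      exact absurd hx'.2 (not_lt.2 hx.2.le)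
  obtain ⟨x, hx1, hx2⟩ := (ev.and (Ioo_mem_nhdsGT h1)).exists
  obtain ⟨w, hw, hwx, hwε⟩ := hM x (h0.trans hx2.1) hx2.2.le
  have hwu : w < u := by
    by_contra hc
    exact hx1 w hw ⟨not_lt.1 hc, hwx⟩
  have e1 := hf.rightLim_le_leftLim hx2.1
  have e2 := hf.rightLim_le_leftLim hwu
  linarith

/-- (F2) beyond a finite set of positions all the increments along the chain are small.   PROOF: marks `gh_os_marks` (both sides) + a grid `(w, i/N)` inside the jumps at the marks. -/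
theorem brg_sus_fine (ha : 0 ≤ a) {c : ℝ → ℝ} (hc : GhClk1 a c) {ε : ℝ} (hε : 0 < ε) :
    ∃ F0 : Finset GhPos, ∀ F : Finset GhPos, F0 ⊆ F → ∀ (pre : List GhPos) (r r' : GhPos) (post : List GhPos),
      ghPs a F = pre ++ r :: r' :: post → ghAt a c r' - ghAt a c r ≤ ε := by
  classical
  have hf := gh_os_clamp_mono ha hc
  obtain ⟨M, hM1, hM2⟩ := gh_os_marks hf (a := a) (half_pos hε)
  obtain ⟨N, hN⟩ := exists_nat_gt (c a / ε)
  have hca : 0 ≤ c a := by rw [← gh_os_at_top a c ha]; exact gh_os_at_nonneg ha hc (by simp [ghPosA, GhPos.lam])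
  have hN0 : (0 : ℝ) < N := lt_of_le_of_lt (div_nonneg hca hε.le) hN
  have hcN : c a / N ≤ ε := by
    rw [div_le_iff₀ hN0]
    rw [div_lt_iff₀ hε] at hN
    linarith
  refine ⟨((insert 0 (insert a M)) ×ˢ Finset.range (N + 1)).image fun x => ghPosF x.1 ((x.2 : ℝ) / N), fun F hF pre r r' post e => ?_⟩
  have hs := gh_os_ps_lt a F
  rw [e] at hs
  have hM' : ∀ w ∈ insert 0 (insert a M), 0 ≤ w ∧ w ≤ a := by
    intro w hw
    rcases Finset.mem_insert.1 hw with rfl | hw
    · exact ⟨le_rfl, ha⟩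
    · rcases Finset.mem_insert.1 hw with rfl | hw
      · exact ⟨ha, le_rfl⟩
      · exact hM1 w hw
  -- the grid positions are in the chain
  have grid : ∀ w ∈ insert 0 (insert a M), ∀ i : ℕ, i ≤ N → ghPosF w ((i : ℝ) / N) ≤ r ∨ r' ≤ ghPosF w ((i : ℝ) / N) := by
    intro w hw i hi
    refine brg_sus_fine_consec hs ?_
    rw [← e, gh_os_ps_mem]
    refine ⟨hF (Finset.mem_image.2 ⟨(w, i), Finset.mem_product.2 ⟨hw, Finset.mem_range.2 (by omega)⟩, rfl⟩), (hM' w hw).1, (hM' w hw).2, ?_, ?_⟩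
    · show (0 : ℝ) ≤ (i : ℝ) / N
      positivity
    · show (i : ℝ) / N ≤ 1
      rw [div_le_one hN0]
      exact_mod_cast hi
  have mr : r ∈ ghPs a F := by rw [e]; simp
  have mr' : r' ∈ ghPs a F := by rw [e]; simp
  have rok := (gh_os_ps_mem.1 mr).2
  have rok' := (gh_os_ps_mem.1 mr').2
  have hrr : r < r' := by
    rw [List.pairwise_append, List.pairwise_cons] at hs
    exact hs.2.1.1 r' List.mem_cons_self
  have hJ : ∀ u, 0 ≤ rightLim (ghClamp a c) u - leftLim (ghClamp a c) u := fun u => sub_nonneg.2 (hf.leftLim_le_rightLim le_rfl)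
  rcases (gh_os_pos_lt_iff r r').1 hrr with hlt | ⟨heq, hlam⟩
  · -- different masses
    have hu0 : 0 < r'.u := lt_of_le_of_lt rok.1 hlt
    obtain ⟨w, hw, hwu, hwε⟩ := hM2 r'.u hu0 rok'.2.1
    have g1 : rightLim (ghClamp a c) w ≤ ghAt a c r := by
      have hq := grid w (Finset.mem_insert_of_mem (Finset.mem_insert_of_mem hw)) N le_rfl
      rw [div_self hN0.ne'] at hq
      rcases hq with hq | hq
      · rw [← gh_os_at_posA]
        exact gh_os_at_mono ha hc (by simp [ghPosA, GhPos.lam]) rok.2.2.1 hq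
      · exfalso
        rcases (gh_os_pos_le_iff _ _).1 hq with h | h
        · exact absurd h (not_lt.2 hwu.le)
        · exact absurd h.1 (ne_of_gt hwu)
    by_cases hu' : r'.u ∈ insert 0 (insert a M)
    · have hq := grid r'.u hu' 0 (Nat.zero_le _)
      rw [Nat.cast_zero, zero_div] at hq
      have hl : r'.lam = 0 := by
        rcases hq with hq | hq
        · exfalso
          rcases (gh_os_pos_le_iff _ _).1 hq with h | h
          · exact absurd h (not_lt.2 hlt.le)
          · exact absurd h.1 (ne_of_gt hlt)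
        · rcases (gh_os_pos_le_iff _ _).1 hq with h | h
          · exact absurd h (lt_irrefl _)
          · exact le_antisymm h.2 rok'.2.2.1
      have : ghAt a c r' = leftLim (ghClamp a c) r'.u := by rw [ghAt, hl]; ring
      linarith
    · have h1 : r'.u ≠ 0 := fun h => hu' (h ▸ Finset.mem_insert_self _ _)
      have h2 : r'.u ≠ a := fun h => hu' (h ▸ Finset.mem_insert_of_mem (Finset.mem_insert_self _ _))
      have h3 : r'.u ∉ M := fun h => hu' (Finset.mem_insert_of_mem (Finset.mem_insert_of_mem h))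
      have := brg_sus_fine_jump hf M hM2 hu0 (lt_of_le_of_ne rok'.2.1 h2) h3
      have := gh_os_at_le_right ha hc rok'.2.2.2
      linarith
  · -- the same mass
    have e1 : ghAt a c r' - ghAt a c r = (r'.lam - r.lam) * (rightLim (ghClamp a c) r.u - leftLim (ghClamp a c) r.u) := by
      rw [ghAt, ghAt, heq]; ring
    rw [e1]
    have hl0 : 0 ≤ r'.lam - r.lam := by linarith
    by_cases hu : r.u ∈ insert 0 (insert a M)
    · have hl1 : r'.lam - r.lam ≤ 1 / N := by
        by_contra hcon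
        rw [not_le] at hcon
        have hx0 : 0 ≤ r.lam * N := mul_nonneg rok.2.2.1 hN0.le
        have f1 := Nat.floor_le hx0
        have f2 := Nat.lt_floor_add_one (r.lam * N)
        have i1 : r.lam < ((⌊r.lam * N⌋₊ + 1 : ℕ) : ℝ) / N := by
          rw [lt_div_iff₀ hN0]; push_cast; exact f2
        have i2 : ((⌊r.lam * N⌋₊ + 1 : ℕ) : ℝ) / N < r'.lam := by
          have : ((⌊r.lam * N⌋₊ + 1 : ℕ) : ℝ) / N ≤ r.lam + 1 / N := by
            rw [div_le_iff₀ hN0]; push_cast
            have : (r.lam + 1 / N) * N = r.lam * N + 1 := by field_simp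
            linarith
          linarith
        have i3 : ⌊r.lam * N⌋₊ + 1 ≤ N := by
          have : ((⌊r.lam * N⌋₊ + 1 : ℕ) : ℝ) / N < 1 := lt_of_lt_of_le i2 rok'.2.2.2
          rw [div_lt_one hN0] at this
          exact_mod_cast this.le
        rcases grid r.u hu _ i3 with hq | hq
        · rcases (gh_os_pos_le_iff _ _).1 hq with h | h
          · exact absurd h (lt_irrefl _)
          · exact absurd h.2 (not_le.2 i1)
        · rcases (gh_os_pos_le_iff _ _).1 hq with h | h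
          · exact absurd h (not_lt.2 heq.le)
          · exact absurd h.2 (not_le.2 i2)
      have hJ1 : rightLim (ghClamp a c) r.u - leftLim (ghClamp a c) r.u ≤ c a := by
        have h1 : rightLim (ghClamp a c) r.u ≤ c a := by
          rw [← gh_os_right_top a c ha le_rfl]
          exact hf.rightLim rok.2.1
        have := gh_os_left_nonneg ha hc r.u
        linarith
      calc (r'.lam - r.lam) * (rightLim (ghClamp a c) r.u - leftLim (ghClamp a c) r.u) ≤ 1 / N * c a :=
            mul_le_mul hl1 hJ1 (hJ _) (by positivity)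
        _ = c a / N := by ring
        _ ≤ ε := hcN
    · have h1 : r.u ≠ 0 := fun h => hu (h ▸ Finset.mem_insert_self _ _)
      have h2 : r.u ≠ a := fun h => hu (h ▸ Finset.mem_insert_of_mem (Finset.mem_insert_self _ _))
      have h3 : r.u ∉ M := fun h => hu (Finset.mem_insert_of_mem (Finset.mem_insert_of_mem h))
      have hj := brg_sus_fine_jump hf M hM2 (lt_of_le_of_ne rok.1 (Ne.symm h1)) (lt_of_le_of_ne rok.2.1 h2) h3
      have hl1 : r'.lam - r.lam ≤ 1 := by linarith [rok'.2.2.2, rok.2.2.1]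
      calc (r'.lam - r.lam) * (rightLim (ghClamp a c) r.u - leftLim (ghClamp a c) r.u) ≤ 1 * (ε / 2) :=
            mul_le_mul hl1 hj (hJ _) zero_le_one
        _ ≤ ε := by linarith

/-! ## 1. chains -/

theorem brg_sus_stp_append (a : ℝ) (b h : ℝ → ℝ) (r : GhPos) (qs : List GhPos) : ∀ (pre : List GhPos) (b0 h0 : ℝ),
    skCStp a b h b0 h0 (pre ++ r :: qs) = skCStp a b h b0 h0 (pre ++ [r]) ++ skCStp a b h (ghAt a b r) (ghAt a h r) qs
  | [], b0, h0 => by simp [skCStp]
  | p :: pre, b0, h0 => by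
      simp only [List.cons_append, skCStp]
      rw [brg_sus_stp_append a b h r qs pre]

theorem brg_sus_stp_length (a : ℝ) (b h : ℝ → ℝ) : ∀ (ps : List GhPos) (b0 h0 : ℝ), (skCStp a b h b0 h0 ps).length = ps.length
  | [], _, _ => rfl
  | p :: ps, b0, h0 => by simp [skCStp, brg_sus_stp_length a b h ps]

/-- the number of revelations up to a position of a sorted chain -/
theorem brg_sus_idx {l₁ l₂ : List GhPos} {x : GhPos} (hs : (l₁ ++ x :: l₂).Pairwise (· < ·)) :
    ghIdx (l₁ ++ x :: l₂) (x : WithTop GhPos) = l₁.length + 1 := by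
  rw [List.pairwise_append, List.pairwise_cons] at hs
  obtain ⟨-, ⟨h2, -⟩, h3⟩ := hs
  have e1 : l₁.filter (fun y : GhPos => decide ((y : WithTop GhPos) ≤ (x : WithTop GhPos))) = l₁ :=
    List.filter_eq_self.2 fun y hy => by simpa using (h3 y hy x List.mem_cons_self).le
  have e2 : l₂.filter (fun y : GhPos => decide ((y : WithTop GhPos) ≤ (x : WithTop GhPos))) = [] :=
    List.filter_eq_nil_iff.2 fun y hy => by simpa using h2 y hy
  rw [gh_rm_idx_eq, if_neg WithTop.coe_ne_top, List.filter_append, e1, List.filter_cons_of_pos (by simp), e2]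
  simp

/-- telescoping along a sorted chain -/
theorem brg_sus_tele {ps : List GhPos} (hs : ps.Pairwise (· < ·)) (f : GhPos → ℝ) {p p' : GhPos} (hp : p ∈ ps) (hp' : p' ∈ ps) (hpp : p ≤ p')
    (hgap : ∀ (pre : List GhPos) (r r' : GhPos) (post : List GhPos), ps = pre ++ r :: r' :: post → p ≤ r → r' ≤ p' → f r ≤ f r') :
    f p ≤ f p' := by
  let R : GhPos → GhPos → Prop := fun x y => x < y ∧ (p ≤ x → y ≤ p' → f x ≤ f y)
  have : Trans R R R := ⟨fun {x y z} h1 h2 => ⟨h1.1.trans h2.1, fun hx hz =>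
    (h1.2 hx (h2.1.le.trans hz)).trans (h2.2 (hx.trans h1.1.le) hz)⟩⟩
  have hch : ps.IsChain R := by
    rw [List.isChain_iff_forall_rel_of_append_cons_cons]
    intro x y l₁ l₂ e
    refine ⟨?_, hgap l₁ x y l₂ e⟩
    rw [e, List.pairwise_append, List.pairwise_cons] at hs
    exact hs.2.1.1 y List.mem_cons_self
  have hpw : ps.Pairwise R := hch.pairwise
  rcases hpp.eq_or_lt with rfl | hlt
  · exact le_rfl
  have key : ∀ x ∈ ps, ∀ y ∈ ps, x < y → R x y := by
    refine List.Pairwise.forall_of_forall_of_flip (R := fun x y => x < y → R x y) (fun x _ h => absurd h (lt_irrefl x)) (hpw.imp fun {x y} h (_ : x < y) => h) ?_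
    exact hs.imp fun {x y} h h' => absurd h' (not_lt.2 h.le)
  exact (key p hp p' hp' hlt).2 le_rfl le_rfl

/-! ## 2. the increment form -/

/-- (F1) on one gap of a chain -/
theorem brg_sus_gap (hn : 0 < n) (ha : 0 < a) {b h : ℝ → ℝ} (hbh : CkAdm a b h) (F : Finset GhPos) {pre post : List GhPos} {r r' : GhPos}
    (e : ghPs a F = pre ++ r :: r' :: post) :
    n * (ghAt a h r' - ghAt a h r) * obTrH2 n a (ckStp a b h (ghPs a F)) 0 (ghIdx (ghPs a F) r)
      ≤ (1 + a ^ 2 * n * ((ghAt a b r' - ghAt a b r) / 2 + (ghAt a h r' - ghAt a h r))) *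
        (obS n a (ckStp a b h (ghPs a F)) 0 (ghIdx (ghPs a F) r') - obS n a (ckStp a b h (ghPs a F)) 0 (ghIdx (ghPs a F) r)) := by
  have hs := gh_os_ps_lt a F
  have hok : ∀ q ∈ ghPs a F, q.Ok a := fun q hq => (gh_os_ps_mem.1 hq).2
  have hadm : SkAdm a (ckStp a b h (ghPs a F)) :=
    sk_stp_chain_adm ha.le hbh.1 hbh.2 _ 0 0 (gh_os_ps_pairwise a F) hok
      (fun q hq => gh_os_at_nonneg ha.le hbh.1 (hok q hq).2.2.1) (fun q hq => gh_os_at_nonneg ha.le hbh.2 (hok q hq).2.2.1)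
  rw [e] at hs hadm ⊢
  have i1 : ghIdx (pre ++ r :: r' :: post) (r : WithTop GhPos) = pre.length + 1 := brg_sus_idx hs
  have e2 : pre ++ r :: r' :: post = (pre ++ [r]) ++ r' :: post := by simp
  have i2 : ghIdx (pre ++ r :: r' :: post) (r' : WithTop GhPos) = pre.length + 1 + 1 := by
    rw [e2] at hs ⊢
    rw [brg_sus_idx hs]
    simp
  have e3 : ckStp a b h (pre ++ r :: r' :: post)
      = skCStp a b h 0 0 (pre ++ [r]) ++ ⟨r'.u, ghAt a b r' - ghAt a b r, ghAt a h r' - ghAt a h r⟩ :: skCStp a b h (ghAt a b r') (ghAt a h r') post := by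
    rw [ckStp, brg_sus_stp_append, skCStp]
  have l1 : (skCStp a b h 0 0 (pre ++ [r])).length = pre.length + 1 := by rw [brg_sus_stp_length]; simp
  rw [i1, i2, e3]
  rw [e3] at hadm
  have := brg_sus_fin hn ha _ _ _ hadm 0
  rw [l1] at this
  exact this

theorem brg_sus_inf_aux (hn : 0 < n) (ha : 0 < a) {b h : ℝ → ℝ} (hbh : CkAdm a b h) {p p' : GhPos} (hp : p.Ok a)
    (hp' : p'.Ok a) (hpp : p ≤ p') (c : ℝ) (hc : ∀ r : GhPos, r.Ok a → p ≤ r → r ≤ p' → c ≤ ckH2 n a b h r) {δ : ℝ} (hδ : 0 < δ) :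
    n * (c - δ) * (ghAt a h p' - ghAt a h p) ≤ (1 + a ^ 2 * n * (δ / 2 + δ)) * (skCS n a b h p' - skCS n a b h p + 2 * δ) := by
  classical
  obtain ⟨F0, hF0⟩ := exit_clk_lim_stat hn ha hbh hδ
  obtain ⟨Fb, hFb⟩ := brg_sus_fine ha.le hbh.1 hδ
  obtain ⟨Fh, hFh⟩ := brg_sus_fine ha.le hbh.2 hδ
  set F : Finset GhPos := F0 ∪ Fb ∪ Fh ∪ {p, p'} with hF
  have s0 : F0 ⊆ F := fun x hx => by simp [hF, hx]
  have sb : Fb ⊆ F := fun x hx => by simp [hF, hx]
  have sh : Fh ⊆ F := fun x hx => by simp [hF, hx]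
  have mp : p ∈ F := by simp [hF]
  have mp' : p' ∈ F := by simp [hF]
  have hn' : (0 : ℝ) < n := by exact_mod_cast hn
  set κ : ℝ := a ^ 2 * n * (δ / 2 + δ) with hκ
  have hκ0 : 0 ≤ κ := by positivity
  have htele := brg_sus_tele (gh_os_ps_lt a F)
    (fun r => (1 + κ) * obS n a (ckStp a b h (ghPs a F)) 0 (ghIdx (ghPs a F) r) - n * (c - δ) * ghAt a h r)
    (gh_os_ps_mem.2 ⟨mp, hp⟩) (gh_os_ps_mem.2 ⟨mp', hp'⟩) hpp ?_
  · have h1 := (hF0 F s0 p mp hp).1
    have h2 := (hF0 F s0 p' mp' hp').1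
    rw [abs_le] at h1 h2
    have h3 : (1 + κ) * (obS n a (ckStp a b h (ghPs a F)) 0 (ghIdx (ghPs a F) p') - obS n a (ckStp a b h (ghPs a F)) 0 (ghIdx (ghPs a F) p))
        ≤ (1 + κ) * (skCS n a b h p' - skCS n a b h p + 2 * δ) :=
      mul_le_mul_of_nonneg_left (by linarith [h1.1, h2.2]) (by linarith)
    linarith
  · intro pre r r' post e hpr hrp
    have hs := gh_os_ps_lt a F
    have mr : r ∈ ghPs a F := by rw [e]; simp
    have mr' : r' ∈ ghPs a F := by rw [e]; simp
    have hrr : r < r' := by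
      rw [e, List.pairwise_append, List.pairwise_cons] at hs
      exact hs.2.1.1 r' List.mem_cons_self
    obtain ⟨mrF, rok⟩ := gh_os_ps_mem.1 mr
    obtain ⟨-, rok'⟩ := gh_os_ps_mem.1 mr'
    have g1 := brg_sus_gap hn ha hbh F e
    have g2 := (hF0 F s0 r mrF rok).2.2.1
    have g3 := hc r rok hpr (hrr.le.trans hrp)
    have g4 := brg_sus_H2_nonneg (n := n) ha (ckStp a b h (ghPs a F)) 0 (ghIdx (ghPs a F) r)
    have db0 : 0 ≤ ghAt a b r' - ghAt a b r := sub_nonneg.2 (gh_os_at_mono ha.le hbh.1 rok.2.2.2 rok'.2.2.1 hrr.le)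
    have dh0 : 0 ≤ ghAt a h r' - ghAt a h r := sub_nonneg.2 (gh_os_at_mono ha.le hbh.2 rok.2.2.2 rok'.2.2.1 hrr.le)
    have db1 := hFb F sb pre r r' post e
    have dh1 := hFh F sh pre r r' post e
    rw [abs_le] at g2
    set dS := obS n a (ckStp a b h (ghPs a F)) 0 (ghIdx (ghPs a F) r') - obS n a (ckStp a b h (ghPs a F)) 0 (ghIdx (ghPs a F) r) with hdS
    set H2 := obTrH2 n a (ckStp a b h (ghPs a F)) 0 (ghIdx (ghPs a F) r) with hH2
    set db := ghAt a b r' - ghAt a b r with hdb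
    set dh := ghAt a h r' - ghAt a h r with hdh
    have k0 : 0 ≤ a ^ 2 * n * (db / 2 + dh) := by positivity
    have k1 : a ^ 2 * n * (db / 2 + dh) ≤ κ := by
      rw [hκ]
      exact mul_le_mul_of_nonneg_left (by linarith) (by positivity)
    have dS0 : 0 ≤ dS := by
      have : 0 ≤ (1 + a ^ 2 * n * (db / 2 + dh)) * dS := le_trans (by positivity) g1
      exact nonneg_of_mul_nonneg_right this (by linarith)
    have g5 : n * dh * (c - δ) ≤ n * dh * H2 := mul_le_mul_of_nonneg_left (by linarith [g2.1]) (by positivity)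
    have g6 : (1 + a ^ 2 * n * (db / 2 + dh)) * dS ≤ (1 + κ) * dS := mul_le_mul_of_nonneg_right (by linarith) dS0
    have g7 : n * (c - δ) * dh ≤ (1 + κ) * dS := by linarith
    rw [hdS, hdh] at g7
    linarith

/-- **the increment form of the clock inequality** -/
theorem brg_sus_inf (hn : 0 < n) (ha : 0 < a) {b h : ℝ → ℝ} (hbh : CkAdm a b h) {p p' : GhPos} (hp : p.Ok a)
    (hp' : p'.Ok a) (hpp : p ≤ p') (c : ℝ) (hc : ∀ r : GhPos, r.Ok a → p ≤ r → r ≤ p' → c ≤ ckH2 n a b h r) :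
    n * c * (ghAt a h p' - ghAt a h p) ≤ skCS n a b h p' - skCS n a b h p := by
  have h1 : Tendsto (fun δ : ℝ => n * (c - δ) * (ghAt a h p' - ghAt a h p)) (𝓝[>] 0) (𝓝 (n * (c - 0) * (ghAt a h p' - ghAt a h p))) :=
    tendsto_nhdsWithin_of_tendsto_nhds (Continuous.tendsto (by fun_prop) 0)
  have h2 : Tendsto (fun δ : ℝ => (1 + a ^ 2 * n * (δ / 2 + δ)) * (skCS n a b h p' - skCS n a b h p + 2 * δ)) (𝓝[>] 0)
      (𝓝 ((1 + a ^ 2 * n * (0 / 2 + 0)) * (skCS n a b h p' - skCS n a b h p + 2 * 0))) :=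
    tendsto_nhdsWithin_of_tendsto_nhds (Continuous.tendsto (by fun_prop) 0)
  have h3 := le_of_tendsto_of_tendsto h1 h2 (by
    filter_upwards [self_mem_nhdsWithin] with δ hδ
    exact brg_sus_inf_aux hn ha hbh hp hp' hpp c hc hδ)
  simpa using h3

/-! ## 3. the integrated form -/

theorem brg_sus_posA_le {x y : ℝ} (h : x ≤ y) : ghPosA x ≤ ghPosA y := by
  rw [gh_os_pos_le_iff]
  rcases h.eq_or_lt with rfl | h
  · exact Or.inr ⟨rfl, le_rfl⟩
  · exact Or.inl h

theorem brg_sus_H2_pos (hn : 0 < n) (ha : 0 < a) {b h : ℝ → ℝ} (hbh : CkAdm a b h) {r : GhPos} (hr : r.Ok a) : 0 ≤ ckH2 n a b h r :=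
  le_trans (mul_nonneg (sq_nonneg _) (exit_clk_D2 hn ha hbh hr).2.1) (exit_clk_H2 hn ha hbh hr).1

theorem brg_sus_clamp_eq {c : ℝ → ℝ} {x : ℝ} (h0 : 0 ≤ x) (h1 : x ≤ a) : ghClamp a c x = c x := by
  rw [ghClamp, if_neg (not_lt.2 h0), min_eq_left h1]

/-- the value after the jump is a right continuous function of the mass -/
theorem brg_sus_posA_right (ha : 0 ≤ a) {c : ℝ → ℝ} (hc : GhClk1 a c) (w : ℝ) :
    Tendsto (fun y => ghAt a c (ghPosA y)) (𝓝[>] w) (𝓝 (ghAt a c (ghPosA w))) := by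
  simp only [gh_os_at_posA]
  exact (continuousWithinAt_rightLim_Ici ((gh_os_clamp_mono ha hc).tendsto_rightLim w)).tendsto.mono_left
    (nhdsWithin_mono _ Ioi_subset_Ici_self)

/-- the differential inequality at a good point -/
theorem brg_sus_pt (hn : 0 < n) (ha : 0 < a) {b h : ℝ → ℝ} (hbh : CkAdm a b h) {u v : ℝ} (hu : 0 ≤ u) (hv : v ≤ a) (g : ℝ → ℝ)
    (hgh : ∀ s t, u ≤ s → s ≤ t → t ≤ v → ∫ w in s..t, g w ≤ h t - h s) {w : ℝ} (hw : w ∈ Ioo u v)
    (hΨ : DifferentiableAt ℝ (fun x => skCS n a b h (ghPosA x)) w)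
    (hG : HasDerivAt (fun x => ∫ t in w..x, g t) (g w) w) (hch : ContinuousAt (ghClamp a h) w) :
    n * (g w * ckH2 n a b h (ghPosA w)) ≤ deriv (fun x => skCS n a b h (ghPosA x)) w := by
  obtain ⟨C, hC⟩ := exit_clk_stat_pos (n := n) hn ha
  have hn' : (0 : ℝ) < n := by exact_mod_cast hn
  have hw0 : 0 ≤ w := hu.trans hw.1.le
  have hwa : w ≤ a := hw.2.le.trans hv
  have okw : (ghPosA w).Ok a := gh_os_posA_ok hw0 hwa
  have key : ∀ y ∈ Ioc w v,
      n * max (ckH2 n a b h (ghPosA w) - C * ((ghAt a b (ghPosA y) - ghAt a b (ghPosA w)) + (ghAt a h (ghPosA y) - ghAt a h (ghPosA w)))) 0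
          * slope (fun x => ∫ t in w..x, g t) w y
        ≤ slope (fun x => skCS n a b h (ghPosA x)) w y := by
    intro y hy
    have oky : (ghPosA y).Ok a := gh_os_posA_ok (hw0.trans hy.1.le) (hy.2.trans hv)
    set cc := max (ckH2 n a b h (ghPosA w) - C * ((ghAt a b (ghPosA y) - ghAt a b (ghPosA w)) + (ghAt a h (ghPosA y) - ghAt a h (ghPosA w)))) 0 with hcc
    have hcc0 : 0 ≤ cc := le_max_right _ _
    have A := brg_sus_inf hn ha hbh okw oky (brg_sus_posA_le hy.1.le) cc (by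
      intro r hr h1 h2
      refine max_le ?_ (brg_sus_H2_pos hn ha hbh hr)
      have b1 := gh_os_at_mono ha.le hbh.1 okw.2.2.2 hr.2.2.1 h1
      have b2 := gh_os_at_mono ha.le hbh.1 hr.2.2.2 oky.2.2.1 h2
      have c1 := gh_os_at_mono ha.le hbh.2 okw.2.2.2 hr.2.2.1 h1
      have c2 := gh_os_at_mono ha.le hbh.2 hr.2.2.2 oky.2.2.1 h2
      have := (hC b h hbh (ghPosA w) r okw hr
        ((ghAt a b (ghPosA y) - ghAt a b (ghPosA w)) + (ghAt a h (ghPosA y) - ghAt a h (ghPosA w))) (by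
          rw [abs_of_nonpos (by linarith), abs_of_nonpos (by linarith)]
          linarith)).2.2.1
      rw [abs_le] at this
      linarith [this.2])
    have B : ∫ t in w..y, g t ≤ ghAt a h (ghPosA y) - ghAt a h (ghPosA w) := by
      have e1 : ghAt a h (ghPosA w) = h w := by
        rw [gh_os_at_posA, hch.continuousWithinAt.rightLim_eq, brg_sus_clamp_eq hw0 hwa]
      have e2 : h y ≤ ghAt a h (ghPosA y) := by
        rw [gh_os_at_posA, ← brg_sus_clamp_eq (a := a) (c := h) (hw0.trans hy.1.le) (hy.2.trans hv)]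
        exact (gh_os_clamp_mono ha.le hbh.2).le_rightLim le_rfl
      have := hgh w y hw.1.le hy.1.le hy.2
      linarith
    have D : n * cc * ∫ t in w..y, g t ≤ skCS n a b h (ghPosA y) - skCS n a b h (ghPosA w) :=
      le_trans (mul_le_mul_of_nonneg_left B (by positivity)) A
    have hyw : 0 < y - w := sub_pos.2 hy.1
    rw [slope_def_field, slope_def_field, intervalIntegral.integral_same, sub_zero, ← mul_div_assoc]
    exact div_le_div_of_nonneg_right D hyw.le
  have l1 : Tendsto (slope (fun x => skCS n a b h (ghPosA x)) w) (𝓝[>] w) (𝓝 (deriv (fun x => skCS n a b h (ghPosA x)) w)) :=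
    (hasDerivAt_iff_tendsto_slope.1 hΨ.hasDerivAt).mono_left (nhdsWithin_mono _ fun x hx => ne_of_gt hx)
  have l2 : Tendsto (slope (fun x => ∫ t in w..x, g t) w) (𝓝[>] w) (𝓝 (g w)) :=
    (hasDerivAt_iff_tendsto_slope.1 hG).mono_left (nhdsWithin_mono _ fun x hx => ne_of_gt hx)
  have l3 : Tendsto (fun y => max (ckH2 n a b h (ghPosA w) - C * ((ghAt a b (ghPosA y) - ghAt a b (ghPosA w)) + (ghAt a h (ghPosA y) - ghAt a h (ghPosA w)))) 0)
      (𝓝[>] w) (𝓝 (max (ckH2 n a b h (ghPosA w) - C * ((ghAt a b (ghPosA w) - ghAt a b (ghPosA w)) + (ghAt a h (ghPosA w) - ghAt a h (ghPosA w)))) 0)) :=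
    (tendsto_const_nhds.sub (tendsto_const_nhds.mul (((brg_sus_posA_right ha.le hbh.1 w).sub tendsto_const_nhds).add
      ((brg_sus_posA_right ha.le hbh.2 w).sub tendsto_const_nhds)))).max tendsto_const_nhds
  have l4 := le_of_tendsto_of_tendsto ((tendsto_const_nhds.mul l3).mul l2) l1 (by
    filter_upwards [Ioc_mem_nhdsGT hw.2] with y hy using key y hy)
  rw [sub_self, sub_self, add_zero, mul_zero, sub_zero, max_eq_left (brg_sus_H2_pos hn ha hbh okw)] at l4
  linarith

/-- **the integrated form of the clock inequality** -/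
theorem brg_sus_int (hn : 0 < n) (ha : 0 < a) {b h : ℝ → ℝ} (hbh : CkAdm a b h) {u v : ℝ} (hu : 0 ≤ u) (huv : u ≤ v)
    (hv : v ≤ a) (g : ℝ → ℝ) (hg0 : ∀ w ∈ Icc u v, 0 ≤ g w) (hgi : IntervalIntegrable g volume u v)
    (hgh : ∀ s t, u ≤ s → s ≤ t → t ≤ v → ∫ w in s..t, g w ≤ h t - h s) :
    n * ∫ w in u..v, g w * ckH2 n a b h (ghPosA w) ≤ skCS n a b h (ghPosA v) - skCS n a b h (ghPosA u) := by
  have hn' : (0 : ℝ) < n := by exact_mod_cast hn
  have hmono : MonotoneOn (fun x => skCS n a b h (ghPosA x)) (Icc u v) := by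
    intro x hx y hy hxy
    exact (exit_clk_SB hn ha hbh (gh_os_posA_ok (hu.trans hx.1) (hx.2.trans hv)) (gh_os_posA_ok (hu.trans hy.1) (hy.2.trans hv))
      (brg_sus_posA_le hxy)).2.1
  have hmono' : MonotoneOn (fun x => skCS n a b h (ghPosA x)) (uIcc u v) := by rwa [uIcc_of_le huv]
  have hint := hmono'.intervalIntegrable_deriv
  have hle : ∫ x in u..v, deriv (fun x => skCS n a b h (ghPosA x)) x ≤ skCS n a b h (ghPosA v) - skCS n a b h (ghPosA u) := by
    have := hmono'.intervalIntegral_deriv_mem_uIcc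
    rw [uIcc_of_le (sub_nonneg.2 (hmono (left_mem_Icc.2 huv) (right_mem_Icc.2 huv) huv))] at this
    exact this.2
  have hae : ∀ᵐ w ∂(volume : Measure ℝ), w ∈ Ioc u v →
      n * (g w * ckH2 n a b h (ghPosA w)) ≤ deriv (fun x => skCS n a b h (ghPosA x)) w := by
    have a1 := hmono.ae_differentiableWithinAt_of_mem
    have a2 := hgi.ae_hasDerivAt_integral
    have a3 : ∀ᵐ w ∂(volume : Measure ℝ), ContinuousAt (ghClamp a h) w := by
      have := ((gh_os_clamp_mono ha.le hbh.2).countable_not_continuousAt).ae_notMem (volume : Measure ℝ)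
      filter_upwards [this] with w hw
      simpa using hw
    have a4 : ∀ᵐ w ∂(volume : Measure ℝ), w ≠ v := by simp [ae_iff, measure_singleton]
    filter_upwards [a1, a2, a3, a4] with w h1 h2 h3 h4 hw
    have hw' : w ∈ Ioo u v := ⟨hw.1, lt_of_le_of_ne hw.2 h4⟩
    have hwI : w ∈ Icc u v := ⟨hw.1.le, hw.2⟩
    exact brg_sus_pt hn ha hbh hu hv g hgh hw' ((h1 hwI).differentiableAt (Icc_mem_nhds hw'.1 hw'.2))
      (h2 (by rwa [uIcc_of_le huv]) w (by rwa [uIcc_of_le huv])) h3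
  calc n * ∫ w in u..v, g w * ckH2 n a b h (ghPosA w) = ∫ w in u..v, n * (g w * ckH2 n a b h (ghPosA w)) :=
        (intervalIntegral.integral_const_mul _ _).symm
    _ ≤ ∫ x in u..v, deriv (fun x => skCS n a b h (ghPosA x)) x := by
        rw [intervalIntegral.integral_of_le huv, intervalIntegral.integral_of_le huv]
        refine integral_mono_of_nonneg ?_ hint.1 ((ae_restrict_iff' measurableSet_Ioc).2 hae)
        refine (ae_restrict_iff' measurableSet_Ioc).2 (Eventually.of_forall fun w hw => ?_)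
        have : 0 ≤ ckH2 n a b h (ghPosA w) :=
          brg_sus_H2_pos hn ha hbh (gh_os_posA_ok (hu.trans hw.1.le) (hw.2.trans hv))
        have := hg0 w ⟨hw.1.le, hw.2⟩
        show (0 : ℝ) ≤ n * (g w * ckH2 n a b h (ghPosA w))
        positivity
    _ ≤ _ := hle

end Claimed.Agent.R286
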